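import Vale.Agent.P050.Deg.Core
import Vale.Agent.P050.Tmpl.Head

/-!
Copies of one more leaf of a star set, with the running intersection property.
-/

set_option linter.unusedSectionVars false

namespace Vale.Agent.P050.Deg

open Finset Vale.Agent.P050.Lev Vale.Agent.P050.Cart Vale.Agent.P050.Join Vale.Agent.P050.Tmpl

variable {V U Ω : Type} [Fintype V] [DecidableEq V] [Fintype U] [Fintype Ω]

variable {m : Bool → U → ℝ} {π : U → U → ℝ} {H : SimpleGraph V} {s : V → Bool}
  {A D S : Finset V} {P : Ω → ℝ} {Z : Ω → V → Option U} {w : V}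

theorem gk_step (hb : Base m π) : ∀ k, k + 1 ≤ Fintype.card V →
    0 ≤ gk V m π (k + 1) - gk V m π k := by
  intro k
  induction k with
  | zero =>
    intro _
    rw [zero_add, gk_one hb, gk_zero hb]
    simp
  | succ k ih =>
    intro hk
    have h1 := ih (by omega)
    have h2 := gk_convex (V := V) hb (k := k) hk
    have e : k + 1 + 1 = k + 2 := rfl
    rw [e]
    linarith

theorem gk_nonneg (hb : Base m π) : ∀ k, k ≤ Fintype.card V → 0 ≤ gk V m π k := by
  intro k
  induction k with
  | zero =>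
    intro _
    rw [gk_zero hb]
  | succ k ih =>
    intro hk
    have h1 := ih (by omega)
    have h2 := gk_step (V := V) hb k hk
    linarith

theorem stage0 (hb : Base m π) (hs : ∀ u v, H.Adj u v → s u ≠ s v) (A : Finset V)
    (hA : ∀ a ∈ A, s a = false) :
    ∃ (Ω : Type) (_ : Fintype Ω) (P : Ω → ℝ) (Z : Ω → V → Option U),
      TB m π H s A (fun B => B = A) (fun _ _ => False) (gk V m π A.card) P Z := by
  classical
  induction A using Finset.induction_on with
  | empty =>
    refine ⟨Unit, inferInstance, _, _, (TB.empty hb).mono' (fun _ h => h) (fun _ _ h => h) ?_⟩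
    rw [Finset.card_empty, gk_zero hb]
  | insert w A hw ih =>
    obtain ⟨Ω, i, P, Z, h⟩ := ih fun a ha => hA a (Finset.mem_insert_of_mem ha)
    have hsw := hA w (Finset.mem_insert_self _ _)
    have hno : ∀ x ∈ A, ¬ H.Adj w x := by
      intro x hx h'
      exact hs _ _ h' (hsw.trans (hA x (Finset.mem_insert_of_mem hx)).symm)
    have h1 := h.leaf hb hs hw hsw hno rfl (Finset.Subset.refl A)
    refine ⟨Ω × U, inferInstance, _, _, h1.mono' (fun B hB => Or.inr hB) (fun _ _ h => h) ?_⟩
    rw [Finset.card_insert_of_notMem hw]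
    ring

theorem TD.start (hb : Base m π) (hs : ∀ u v, H.Adj u v → s u ≠ s v) (hAD : Disjoint A D)
    (hA : ∀ a ∈ A, s a = false) :
    ∃ (Ω : Type) (_ : Fintype Ω) (P : Ω → ℝ) (Z : Ω → V → Option U),
      TD m π H s A D A P Z := by
  classical
  obtain ⟨Ω, i, P, Z, h⟩ := stage0 (m := m) (π := π) hb hs A hA
  refine ⟨Ω, i, P, Z, h.mono' ?_ (fun _ _ h => h) ?_, ?_⟩
  · rintro B (hB | ⟨d, hd, hdA, _⟩)
    · exact hB
    · exact absurd hd ((Finset.disjoint_left.1 hAD) hdA)
  · unfold lf
    have e1 : D ∩ A = ∅ := by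
      rw [Finset.inter_comm]
      exact Finset.disjoint_iff_inter_eq_empty.1 hAD
    have e2 : A.filter (fun b => s b = true) = ∅ := by
      rw [Finset.filter_eq_empty_iff]
      intro a ha
      rw [hA a ha]
      decide
    rw [e1, e2]
    simp
  · intro d hd hdA
    exact absurd hd ((Finset.disjoint_left.1 hAD) hdA)

theorem TD.addMany (h : TD m π H s A D S P Z) (hb : Base m π)
    (hs : ∀ u v, H.Adj u v → s u ≠ s v) (hAD : Disjoint A D) (hAS : A ⊆ S)
    (hDs : ∀ d ∈ D, s d = false) (R : Finset V) (hR : ∀ b ∈ R, b ∉ S ∧ s b = true ∧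
      ∃ B, (B = A ∨ ∃ d ∈ D, d ∈ S ∧ B = insert d A) ∧ (∀ d ∈ D, d ∈ B → H.Adj b d) ∧
        ∀ x ∈ S, H.Adj b x → x ∈ B) :
    ∃ (Ω : Type) (_ : Fintype Ω) (P : Ω → ℝ) (Z : Ω → V → Option U),
      TD m π H s A D (S ∪ R) P Z := by
  classical
  induction R using Finset.induction_on with
  | empty =>
    rw [Finset.union_empty]
    obtain ⟨e⟩ : Nonempty (Ω ≃ Fin (Fintype.card Ω)) := ⟨Fintype.equivFin Ω⟩
    exact ⟨Ω, inferInstance, P, Z, h⟩
  | insert b R hbR ih =>
    obtain ⟨Ω', i, P', Z', h'⟩ := ih fun x hx => hR x (Finset.mem_insert_of_mem hx)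
    obtain ⟨hbS, hsb, B, hB, hBd, hBx⟩ := hR b (Finset.mem_insert_self _ _)
    have hw : b ∉ S ∪ R := by
      rw [Finset.mem_union]
      rintro (h1 | h1)
      · exact hbS h1
      · exact hbR h1
    have hB' : B = A ∨ ∃ d ∈ D, d ∈ S ∪ R ∧ B = insert d A := by
      rcases hB with hB | ⟨d, hd, hdS, hB⟩
      · exact Or.inl hB
      · exact Or.inr ⟨d, hd, Finset.mem_union_left _ hdS, hB⟩
    have h2 := h'.cap hb hs hAD (hAS.trans Finset.subset_union_left) hDs hw hsb hB' hBd (by
      intro x hx hbx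
      rcases Finset.mem_union.1 hx with hx | hx
      · exact hBx x hx hbx
      · have := hs _ _ hbx
        rw [hsb, (hR x (Finset.mem_insert_of_mem hx)).2.1] at this
        exact absurd rfl this)
    rw [Finset.union_insert]
    exact ⟨Ω' × U, inferInstance, _, _, h2⟩

/-- the stages -/
noncomputable def sn (H : SimpleGraph V) (s : V → Bool) (A D : Finset V) (r : V → ℕ) (n : ℕ) :
    Finset V := by
  classical exact univ.filter fun v => v ∈ A ∨ (v ∈ D ∧ r v < n) ∨
    (s v = true ∧ ∃ d ∈ D, r d < n ∧ H.Adj v d)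

theorem mem_sn {r : V → ℕ} {n : ℕ} {v : V} : v ∈ sn H s A D r n ↔ v ∈ A ∨ (v ∈ D ∧ r v < n) ∨
    (s v = true ∧ ∃ d ∈ D, r d < n ∧ H.Adj v d) := by
  classical
  unfold sn
  simp

theorem TD.stage (hb : Base m π) (hs : ∀ u v, H.Adj u v → s u ≠ s v) (hAD : Disjoint A D)
    (hA : ∀ a ∈ A, s a = false) (hDs : ∀ d ∈ D, s d = false) (r : V → ℕ)
    (hr : ∀ d ∈ D, ∀ e ∈ D, r d = r e → d = e)
    (hRI : ∀ d ∈ D, ∃ e ∈ D, ∀ b, H.Adj b d → (∃ f ∈ D, r f < r d ∧ H.Adj b f) →
      r e < r d ∧ H.Adj b e) (n : ℕ) :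
    ∃ (Ω : Type) (_ : Fintype Ω) (P : Ω → ℝ) (Z : Ω → V → Option U),
      TD m π H s A D (sn H s A D r n) P Z := by
  classical
  induction n with
  | zero =>
    have e : sn H s A D r 0 = A := by
      ext v
      rw [mem_sn]
      simp
    rw [e]
    exact TD.start hb hs hAD hA
  | succ n ih =>
    obtain ⟨Ω, i, P, Z, h⟩ := ih
    have hAS : A ⊆ sn H s A D r n := fun a ha => mem_sn.2 (Or.inl ha)
    by_cases hex : ∃ d ∈ D, r d = n
    · obtain ⟨d, hd, hrd⟩ := hex
      have hdS : d ∉ sn H s A D r n := by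
        rw [mem_sn]
        rintro (h' | h' | h')
        · exact (Finset.disjoint_left.1 hAD) h' hd
        · omega
        · rw [hDs d hd] at h'
          exact absurd h'.1 (by decide)
      have htrue : ∀ b ∈ sn H s A D r n, H.Adj b d → ∃ f ∈ D, r f < r d ∧ H.Adj b f := by
        intro b hbS hbd
        have hsb : s b ≠ false := by
          have := hs _ _ hbd
          rwa [hDs d hd] at this
        rcases mem_sn.1 hbS with h' | h' | h'
        · exact absurd (hA b h') hsb
        · exact absurd (hDs b h'.1) hsb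
        · rw [hrd]
          exact h'.2
      obtain ⟨Ω₁, i₁, P₁, Z₁, h₁⟩ : ∃ (Ω : Type) (_ : Fintype Ω) (P : Ω → ℝ)
          (Z : Ω → V → Option U), TD m π H s A D (insert d (sn H s A D r n)) P Z := by
        by_cases hno : ∀ x ∈ sn H s A D r n, ¬ H.Adj d x
        · exact ⟨Ω × U, inferInstance, _, _, h.leafD hb hs hAS hDs hd hdS hno⟩
        · push Not at hno
          obtain ⟨b₀, hb₀, hadj₀⟩ := hno
          obtain ⟨e, he, hRe⟩ := hRI d hd
          have h1 := hRe b₀ hadj₀.symm (htrue b₀ hb₀ hadj₀.symm)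
          have heS : e ∈ sn H s A D r n := mem_sn.2 (Or.inr (Or.inl ⟨he, by omega⟩))
          exact ⟨Ω × U, inferInstance, _, _, h.cloneD hb hs hAD hAS hDs hd hdS he heS
            fun b hbS hbd => (hRe b hbd (htrue b hbS hbd)).2⟩
      have h2 := h₁.addMany hb hs hAD (hAS.trans (Finset.subset_insert _ _)) hDs
        (univ.filter fun b => s b = true ∧ H.Adj b d ∧ ¬ ∃ f ∈ D, r f < n ∧ H.Adj b f) (by
          intro b hb'
          obtain ⟨_, hsb, hbd, hnf⟩ := Finset.mem_filter.1 hb'
          refine ⟨?_, hsb, insert d A, Or.inr ⟨d, hd, Finset.mem_insert_self _ _, rfl⟩, ?_, ?_⟩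
          · rw [Finset.mem_insert, mem_sn]
            rintro (rfl | h' | h' | h')
            · rw [hDs b hd] at hsb
              exact absurd hsb (by decide)
            · rw [hA b h'] at hsb
              exact absurd hsb (by decide)
            · rw [hDs b h'.1] at hsb
              exact absurd hsb (by decide)
            · exact hnf h'.2
          · intro f hf hfB
            rcases Finset.mem_insert.1 hfB with rfl | hfA
            · exact hbd
            · exact absurd hf ((Finset.disjoint_left.1 hAD) hfA)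
          · intro x hx hbx
            rw [Finset.mem_insert, mem_sn] at hx
            rw [Finset.mem_insert]
            rcases hx with hx | hx | hx | hx
            · exact Or.inl hx
            · exact Or.inr hx
            · exact absurd ⟨x, hx.1, hx.2, hbx⟩ hnf
            · have := hs _ _ hbx
              rw [hsb, hx.1] at this
              exact absurd rfl this)
      have e : insert d (sn H s A D r n) ∪
          (univ.filter fun b => s b = true ∧ H.Adj b d ∧ ¬ ∃ f ∈ D, r f < n ∧ H.Adj b f) =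
          sn H s A D r (n + 1) := by
        ext v
        rw [Finset.mem_union, Finset.mem_insert, mem_sn, Finset.mem_filter, mem_sn]
        constructor
        · rintro ((rfl | h' | h' | h') | h')
          · exact Or.inr (Or.inl ⟨hd, by omega⟩)
          · exact Or.inl h'
          · exact Or.inr (Or.inl ⟨h'.1, by omega⟩)
          · obtain ⟨h3, f, hf, hrf, hvf⟩ := h'
            exact Or.inr (Or.inr ⟨h3, f, hf, by omega, hvf⟩)
          · exact Or.inr (Or.inr ⟨h'.2.1, d, hd, by omega, h'.2.2.1⟩)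
        · rintro (h' | h' | h')
          · exact Or.inl (Or.inr (Or.inl h'))
          · by_cases h3 : r v = n
            · exact Or.inl (Or.inl (hr v h'.1 d hd (h3.trans hrd.symm)))
            · exact Or.inl (Or.inr (Or.inr (Or.inl ⟨h'.1, by omega⟩)))
          · obtain ⟨h3, f, hf, hrf, hvf⟩ := h'
            by_cases h4 : ∃ f ∈ D, r f < n ∧ H.Adj v f
            · exact Or.inl (Or.inr (Or.inr (Or.inr ⟨h3, h4⟩)))
            · right
              refine ⟨mem_univ _, h3, ?_, h4⟩
              have h5 : r f = n := by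
                by_contra h6
                exact h4 ⟨f, hf, by omega, hvf⟩
              rw [← hr f hf d hd (h5.trans hrd.symm)]
              exact hvf
      rw [← e]
      exact h2
    · have e : sn H s A D r (n + 1) = sn H s A D r n := by
        ext v
        rw [mem_sn, mem_sn]
        constructor
        · rintro (h' | h' | h')
          · exact Or.inl h'
          · exact Or.inr (Or.inl ⟨h'.1, lt_of_le_of_ne (by omega) fun h3 => hex ⟨v, h'.1, h3⟩⟩)
          · obtain ⟨h3, f, hf, hrf, hvf⟩ := h'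
            exact Or.inr (Or.inr ⟨h3, f, hf,
              lt_of_le_of_ne (by omega) fun h4 => hex ⟨f, hf, h4⟩, hvf⟩)
        · rintro (h' | h' | h')
          · exact Or.inl h'
          · exact Or.inr (Or.inl ⟨h'.1, by omega⟩)
          · obtain ⟨h3, f, hf, hrf, hvf⟩ := h'
            exact Or.inr (Or.inr ⟨h3, f, hf, by omega, hvf⟩)
      rw [e]
      exact ⟨Ω, i, P, Z, h⟩

/-- **Copies with the running intersection property.** -/
theorem core_gsid (hs : ∀ u v, H.Adj u v → s u ≠ s v) (A D : Finset V) (hAD : Disjoint A D)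
    (hside : ∀ v, s v = false ↔ v ∈ A ∨ v ∈ D) (hD : D.Nonempty) (r : V → ℕ)
    (hr : ∀ d ∈ D, ∀ e ∈ D, r d = r e → d = e)
    (hRI : ∀ d ∈ D, ∃ e ∈ D, ∀ b, H.Adj b d → (∃ f ∈ D, r f < r d ∧ H.Adj b f) →
      r e < r d ∧ H.Adj b e) (F : Finset V) (hF : ∀ b ∈ F, s b = true ∧ ∀ a ∈ A, H.Adj b a)
    (hc : D.card ≤ ∑ b ∈ F, (na H D b).card) : GSid H s := by
  classical
  refine ⟨hs, ksid_of_sidLaw ?_ ?_⟩
  · intro e he
    unfold sideEdges at he
    exact (Finset.mem_filter.1 he).2.2
  intro U _ m π m0 m1 pi0 row col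
  have hb : Base m π := { m0 := m0, m1 := m1, pi0 := pi0, row := row, col := col }
  have hA : ∀ a ∈ A, s a = false := fun a ha => (hside a).2 (Or.inl ha)
  have hDs : ∀ d ∈ D, s d = false := fun d hd => (hside d).2 (Or.inr hd)
  obtain ⟨Ω, _, P, Z, h⟩ := TD.stage hb hs hAD hA hDs r hr hRI (univ.sup r + 1)
  have hlt : ∀ d, r d < univ.sup r + 1 := fun d =>
    Nat.lt_succ_of_le (Finset.le_sup (mem_univ d))
  obtain ⟨Ω', _, P', Z', h'⟩ := h.addMany hb hs hAD (fun a ha => mem_sn.2 (Or.inl ha)) hDs
    (univ.filter fun b => s b = true ∧ ¬ ∃ f ∈ D, H.Adj b f) (by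
      intro b hb'
      obtain ⟨_, hsb, hnf⟩ := Finset.mem_filter.1 hb'
      refine ⟨?_, hsb, A, Or.inl rfl, ?_, ?_⟩
      · rw [mem_sn]
        rintro (h' | h' | h')
        · rw [hA b h'] at hsb
          exact absurd hsb (by decide)
        · rw [hDs b h'.1] at hsb
          exact absurd hsb (by decide)
        · obtain ⟨_, f, hf, _, hbf⟩ := h'
          exact hnf ⟨f, hf, hbf⟩
      · intro f hf hfA
        exact absurd hf ((Finset.disjoint_left.1 hAD) hfA)
      · intro x hx hbx
        rcases mem_sn.1 hx with hx | hx | hx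
        · exact hx
        · exact absurd ⟨x, hx.1, hbx⟩ hnf
        · have := hs _ _ hbx
          rw [hsb, hx.1] at this
          exact absurd rfl this)
  have e : sn H s A D r (univ.sup r + 1) ∪
      (univ.filter fun b => s b = true ∧ ¬ ∃ f ∈ D, H.Adj b f) = univ := by
    ext v
    rw [Finset.mem_union, mem_sn, Finset.mem_filter]
    simp only [mem_univ, true_and, iff_true]
    cases hv : s v
    · rcases (hside v).1 hv with h1 | h1
      · exact Or.inl (Or.inl h1)
      · exact Or.inl (Or.inr (Or.inl ⟨h1, hlt v⟩))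
    · by_cases h1 : ∃ f ∈ D, H.Adj v f
      · obtain ⟨f, hf, hvf⟩ := h1
        exact Or.inl (Or.inr (Or.inr ⟨rfl, f, hf, hlt f, hvf⟩))
      · exact Or.inr ⟨rfl, h1⟩
  rw [e] at h'
  refine (h'.tb.toTW ?_).sidLaw hb
  -- the debt
  obtain ⟨d₀, hd₀⟩ := hD
  have hAc : A.card + 1 ≤ Fintype.card V := by
    have h1 : d₀ ∉ A := fun h1 => (Finset.disjoint_left.1 hAD) h1 hd₀
    have h2 := Finset.card_le_univ (insert d₀ A)
    rwa [Finset.card_insert_of_notMem h1] at h2
  have hg := gk_nonneg (V := V) hb A.card (by omega)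
  have hst := gk_step (V := V) hb A.card hAc
  have hk : ∀ b, (na H A b).card ≤ A.card := fun b =>
    Finset.card_le_card fun x hx => (mem_na.1 hx).1
  unfold lf
  rw [Finset.inter_univ]
  set f : V → ℝ := fun b => gk V m π (na H A b).card + ((na H D b).card : ℝ) *
    (gk V m π ((na H A b).card + 1) - gk V m π (na H A b).card) with hf
  have hf0 : ∀ b, 0 ≤ f b := by
    intro b
    have h1 := gk_nonneg (V := V) hb (na H A b).card (by have := hk b; omega)
    have h2 := gk_step (V := V) hb (na H A b).card (by have := hk b; omega)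
    have h3 : (0 : ℝ) ≤ ((na H D b).card : ℝ) := Nat.cast_nonneg _
    simp only [hf]
    nlinarith
  have hsub : F ⊆ univ.filter (fun b => s b = true) := fun b hb' => by
    rw [Finset.mem_filter]
    exact ⟨mem_univ _, (hF b hb').1⟩
  have h1 : ∑ b ∈ F, f b ≤ ∑ b ∈ univ.filter (fun b => s b = true), f b :=
    Finset.sum_le_sum_of_subset_of_nonneg hsub fun b _ _ => hf0 b
  have h2 : ∀ b ∈ F, f b = gk V m π A.card + ((na H D b).card : ℝ) *
      (gk V m π (A.card + 1) - gk V m π A.card) := by
    intro b hb'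
    have : na H A b = A := by
      ext x
      rw [mem_na]
      exact ⟨fun h' => h'.1, fun h' => ⟨h', (hF b hb').2 x h'⟩⟩
    simp only [hf, this]
  rw [Finset.sum_congr rfl h2, Finset.sum_add_distrib, Finset.sum_const, nsmul_eq_mul,
    ← Finset.sum_mul] at h1
  have h3 : (D.card : ℝ) ≤ ∑ b ∈ F, ((na H D b).card : ℝ) := by
    exact_mod_cast hc
  have h4 : (1 : ℝ) ≤ (F.card : ℝ) := by
    have : 0 < F.card := by
      rw [Finset.card_pos]
      by_contra h5
      rw [Finset.not_nonempty_iff_eq_empty] at h5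
      rw [h5, Finset.sum_empty] at hc
      have := Finset.card_pos.2 ⟨d₀, hd₀⟩
      omega
    exact_mod_cast this
  nlinarith

end Vale.Agent.P050.Deg
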