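import Vale.Agent.P050.Deg.Rules

/-!
A conditionally independent copy of a vertex in a star set.
-/

set_option linter.unusedSectionVars false

namespace Vale.Agent.P050.Deg

open Finset Vale.Agent.P050.Lev Vale.Agent.P050.Cart Vale.Agent.P050.Join Vale.Agent.P050.Tmpl

variable {V U Ω : Type} [Fintype V] [DecidableEq V] [Fintype U] [Fintype Ω]

variable {m : Bool → U → ℝ} {π : U → U → ℝ} {H : SimpleGraph V} {s : V → Bool} {S : Finset V}
  {T : Finset V → Prop} {C : V → Finset V → Prop} {L : ℝ} {P : Ω → ℝ} {Z : Ω → V → Option U}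
  {D N Q : Finset V} {w : V}

theorem TB.he_one (h : TB m π H s S T C L P Z) {v : V} (hv : v ∈ S) :
    he P Z {v} = hm m (s v) := by
  have h1 : he P Z {v} = ent P (fun ω => Z ω v) := by
    unfold he
    refine ent_fib fun ω ω' => ?_
    rw [mz_eq]
    simp
  rw [h1]
  have h2 : ent (m (s v)) (fun x => some x) = hm m (s v) := by
    unfold hm
    exact ent_inj (m (s v)) (fun x => x) (e := fun x => some x) fun x y hxy => by simpa using hxy
  rw [← h2]
  exact ent_law fun a => mar_of_sum (fun F => h.vert v hv F) a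

theorem TB.he_two (h : TB m π H s S T C L P Z) (hb : Base m π)
    (hs : ∀ u v, H.Adj u v → s u ≠ s v) {u v : V} (hu : u ∈ S)
    (hv : v ∈ S) (ha : H.Adj u v) : he P Z {u, v} = hr π := by
  have key : ∀ u v, u ∈ S → v ∈ S → H.Adj u v → s u = false → he P Z {u, v} = hr π := by
    intro u v hu hv ha hsu
    have h1 : he P Z {u, v} = ent P (fun ω => (Z ω u, Z ω v)) := by
      unfold he
      refine ent_fib fun ω ω' => ?_
      rw [mz_eq, Prod.mk.injEq]
      simp
    rw [h1]
    have h2 : ent (pb π) (fun p => ((some p.1 : Option U), (some p.2 : Option U))) = hr π := by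
      rw [← ent_pb hb]
      exact ent_inj (pb π) (fun p => p) (e := fun p => (some p.1, some p.2)) fun x y hxy => by
        simp only [Prod.mk.injEq, Option.some.injEq] at hxy
        exact Prod.ext hxy.1 hxy.2
    rw [← h2]
    refine ent_law fun a => mar_of_sum (fun F => ?_) a
    rw [h.edge u hu v hv ha hsu fun x y => F (x, y), Fintype.sum_prod_type]
    rfl
  cases hsu : s u
  · exact key u v hu hv ha hsu
  · have hne := hs _ _ ha
    rw [hsu] at hne
    have hsv : s v = false := by
      cases hsv : s v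
      · rfl
      · exact absurd hsv.symm hne
    rw [Finset.pair_comm]
    exact key v u hv hu ha.symm hsv

/-- upper bound for a star -/
theorem TB.star_le (h : TB m π H s S T C L P Z) (hb : Base m π)
    (hs : ∀ u v, H.Adj u v → s u ≠ s v) {v : V} (hv : v ∈ S)
    {D : Finset V} (hDS : D ⊆ S) (hadj : ∀ d ∈ D, H.Adj v d) :
    he P Z (insert v D) ≤ hm m (s v) + (D.card : ℝ) * (hr π - hm m (s v)) := by
  induction D using Finset.induction_on with
  | empty =>
    have := h.he_one hv
    have e : insert v (∅ : Finset V) = {v} := rfl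
    rw [e, this]
    simp
  | insert x D hx ih =>
    have h1 := ih ((Finset.subset_insert _ _).trans hDS)
      fun d hd => hadj d (Finset.mem_insert_of_mem hd)
    have hxS : x ∈ S := hDS (Finset.mem_insert_self _ _)
    have hax := hadj x (Finset.mem_insert_self _ _)
    have h2 := he_submod (Z := Z) h.nonneg {x} D {v}
    have e1 : {x} ∪ D ∪ {v} = insert v (insert x D) := by
      ext y
      simp only [Finset.mem_union, Finset.mem_singleton, Finset.mem_insert]
      tauto
    have e2 : ({x} : Finset V) ∪ {v} = {x, v} := rfl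
    have e3 : D ∪ {v} = insert v D := by
      ext y
      simp only [Finset.mem_union, Finset.mem_singleton, Finset.mem_insert]
      tauto
    rw [e1, e2, e3, h.he_one hv, h.he_two hb hs hxS hv hax.symm] at h2
    rw [Finset.card_insert_of_notMem hx]
    push_cast
    linarith

/-- the entropy of a star set -/
theorem TB.he_bag (h : TB m π H s S T C L P Z) (hD : T D) (hQ : Q ⊆ D) :
    he P Z Q = (Q.card : ℝ) * hm m false - gk V m π Q.card := by
  obtain ⟨_, _, hlaw⟩ := h.bag_mono hD hQ
  have e1 : he P Z Q = sf π Q := by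
    unfold sf he
    exact ent_law fun a => mar_of_sum hlaw a
  rw [e1, gk_card]
  ring

/-- the conditional entropy of the centre given `k` leaves -/
noncomputable def tau (V : Type) [Fintype V] [DecidableEq V] (m : Bool → U → ℝ) (π : U → U → ℝ)
    (k : ℕ) : ℝ :=
  hm m true + (k : ℝ) * (hr π - hm m true) - ((k : ℝ) * hm m false - gk V m π k)

theorem tau_eq (k : ℕ) : tau V m π k = hm m true - (k : ℝ) * ii m π + gk V m π k := by
  unfold tau ii
  ring

/-- the neighbours of `b` in `D` -/
noncomputable def na (H : SimpleGraph V) (D : Finset V) (b : V) : Finset V := by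
  classical exact D.filter fun x => H.Adj b x

theorem mem_na {b x : V} : x ∈ na H D b ↔ x ∈ D ∧ H.Adj b x := by
  classical
  unfold na
  simp

/-- adding vertices of the side `true` -/
theorem TB.he_up (h : TB m π H s S T C L P Z) (hb : Base m π) (hs : ∀ u v, H.Adj u v → s u ≠ s v)
    (hD : T D) {X : Finset V} (hX : D ⊆ X) (R : Finset V) (hR : R ⊆ S)
    (hRs : ∀ b ∈ R, s b = true) :
    he P Z (X ∪ R) ≤ he P Z X + ∑ b ∈ R, tau V m π (na H D b).card := by
  classical
  induction R using Finset.induction_on with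
  | empty => simp
  | insert b R hbR ih =>
    have h1 := ih ((Finset.subset_insert _ _).trans hR)
      fun b hb => hRs b (Finset.mem_insert_of_mem hb)
    have hbS : b ∈ S := hR (Finset.mem_insert_self _ _)
    have hsb := hRs b (Finset.mem_insert_self _ _)
    have hnaD : na H D b ⊆ D := fun x hx => (mem_na.1 hx).1
    have h2 := he_submod (Z := Z) h.nonneg {b} (X ∪ R) (na H D b)
    have e1 : {b} ∪ (X ∪ R) ∪ na H D b = X ∪ insert b R := by
      ext y
      simp only [Finset.mem_union, Finset.mem_singleton, Finset.mem_insert]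
      constructor
      · rintro ((h' | h' | h') | h')
        · exact Or.inr (Or.inl h')
        · exact Or.inl h'
        · exact Or.inr (Or.inr h')
        · exact Or.inl (hX (hnaD h'))
      · rintro (h' | h' | h')
        · exact Or.inl (Or.inr (Or.inl h'))
        · exact Or.inl (Or.inl h')
        · exact Or.inl (Or.inr (Or.inr h'))
    have e2 : X ∪ R ∪ na H D b = X ∪ R := by
      rw [Finset.union_eq_left]
      exact (hnaD.trans hX).trans Finset.subset_union_left
    have e3 : {b} ∪ na H D b = insert b (na H D b) := rfl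
    rw [e1, e2, e3, h.he_bag hD hnaD] at h2
    have h3 := h.star_le hb hs hbS (hnaD.trans (h.bag D hD).1) fun d hd => (mem_na.1 hd).2
    rw [hsb] at h3
    rw [Finset.sum_insert hbR]
    unfold tau at h1 ⊢
    linarith

theorem TB.qc_none (h : TB m π H s S T C L P Z) {v : V} (hvS : v ∈ S) (d : V → Option U) :
    ker P (mz Z D) (fun ω => Z ω v) d none = 0 := by
  classical
  unfold ker
  have : mar P (fun ω => (mz Z D ω, Z ω v)) (d, none) = 0 := by
    unfold mar
    refine Finset.sum_eq_zero fun ω _ => ?_
    rw [if_neg]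
    intro h'
    have h1 := h.inn ω v hvS
    rw [(Prod.mk.inj h').2] at h1
    simp at h1
  rw [this, zero_div]

/-- the law of a copy -/
theorem TB.sum_qc (h : TB m π H s S T C L P Z) {v : V} (hvS : v ∈ S)
    (F : (V → Option U) → Option U → ℝ) :
    ∑ x, pp P Z D (qc P Z D v) x * F (mz Z D x.1) (some x.2) =
      ∑ ω, P ω * F (mz Z D ω) (Z ω v) := by
  refine (sum_ext fun ω u => F (mz Z D ω) (some u)).trans ?_
  have h1 := sum_cpy_pair h.nonneg (fun _ : Unit => mz Z D) (fun ω => Z ω v) () F
  have h2 := sum_cpy_one h.nonneg (fun _ : Unit => mz Z D) (fun ω => Z ω v) ()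
    fun ω o => F (mz Z D ω) o
  rw [h2] at h1
  rw [← h1]
  refine Finset.sum_congr rfl fun ω _ => ?_
  rw [Fintype.sum_option, h.qc_none hvS, Finset.mul_sum]
  simp only [mul_zero, zero_mul, zero_add]
  refine Finset.sum_congr rfl fun u _ => ?_
  unfold qc
  ring

theorem TB.qc_sum (h : TB m π H s S T C L P Z) {v : V} (hvS : v ∈ S) :
    ∀ ω, P ω ≠ 0 → ∑ u, qc P Z D v (mz Z D ω) u = 1 := by
  intro ω h0
  rw [← sum_ker (mz Z D) (fun ω => Z ω v) (mar_ne_zero h.nonneg (mz Z D) h0),
    Fintype.sum_option, h.qc_none hvS, zero_add]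
  rfl

theorem TB.qc_gg (h : TB m π H s S T C L P Z) {v : V} (hvS : v ∈ S) (hQ : Q ⊆ D) :
    gg P Z D (qc P Z D v) Q = he P Z (insert v Q) - he P Z Q := by
  unfold gg
  congr 1
  have e1 : ent (pp P Z D (qc P Z D v)) (fun x => (mz Z Q x.1, x.2)) =
      ent (pp P Z D (qc P Z D v)) (fun x => (rz Q (mz Z D x.1), (some x.2 : Option U))) := by
    refine ent_fib fun x y => ?_
    rw [rz_mz hQ, rz_mz hQ]
    simp only [Prod.mk.injEq, Option.some.injEq]
  have e2 : ent P (fun ω => (rz Q (mz Z D ω), Z ω v)) = he P Z (insert v Q) := by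
    unfold he
    refine ent_fib fun ω ω' => ?_
    rw [rz_mz hQ, rz_mz hQ, Prod.mk.injEq, mz_eq, mz_eq]
    simp only [Finset.mem_insert]
    constructor
    · rintro ⟨h1, h2⟩ x (rfl | hx)
      · exact h2
      · exact h1 x hx
    · exact fun h1 => ⟨fun x hx => h1 x (Or.inr hx), h1 v (Or.inl rfl)⟩
  rw [e1, ← e2]
  exact ent_law fun a => mar_of_sum (fun F => h.sum_qc hvS fun c o => F (rz Q c, o)) a

/-- exchanging two leaves of the universal star -/
theorem st1_swap {d : V} (hd : d ∉ Q) (hw : w ∉ Q) (F : (V → Option U) → Option U → ℝ) :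
    ∑ x, st1 V π x * F (mz ZS Q x) (some (x.2 d)) =
      ∑ x, st1 V π x * F (mz ZS Q x) (some (x.2 w)) := by
  classical
  let σ : V ≃ V := Equiv.swap d w
  let τ : (U × U) × (V → U) ≃ (U × U) × (V → U) :=
    Equiv.prodCongr (Equiv.refl _) (Equiv.arrowCongr σ.symm (Equiv.refl U))
  have hτ : ∀ ω, τ ω = (ω.1, fun v => ω.2 (σ v)) := by
    intro ω
    refine Prod.ext rfl ?_
    funext v
    simp [τ, Equiv.arrowCongr]
  rw [← Equiv.sum_comp τ fun x => st1 V π x * F (mz ZS Q x) (some (x.2 d))]
  refine Finset.sum_congr rfl fun x _ => ?_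
  rw [hτ, st1_perm σ x.1 x.2]
  have e1 : mz ZS Q (x.1, fun v => x.2 (σ v)) = mz ZS Q x := by
    funext v
    unfold mz
    split_ifs with hv
    · have h1 : v ≠ d := fun h' => hd (h' ▸ hv)
      have h2 : v ≠ w := fun h' => hw (h' ▸ hv)
      simp [ZS, σ, Equiv.swap_apply_of_ne_of_ne h1 h2]
    · rfl
  have e2 : (some ((fun v => x.2 (σ v)) d) : Option U) = some (x.2 w) := by
    simp [σ]
  rw [e1]
  simp only [e2]

/-- **A copy of `d` given the star set `A` and the common neighbours `N`.** -/
theorem TB.clone (h : TB m π H s S T C L P Z) (hb : Base m π)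
    (hs : ∀ u v, H.Adj u v → s u ≠ s v) (hw : w ∉ S) (hsw : s w = false) {A : Finset V} {d : V}
    (hdA : d ∉ A) (hT : T (insert d A)) (hN : N ⊆ S) (hNs : ∀ b ∈ N, s b = true ∧ H.Adj b d)
    (hadj : ∀ x ∈ S, H.Adj w x ↔ x ∈ N)
    (hU : ((A.card : ℝ) + 1) * hm m false - gk V m π (A.card + 1) +
      ∑ b ∈ N, tau V m π ((na H A b).card + 1) ≤ he P Z (insert d (A ∪ N))) :
    TB m π H s (insert w S) (fun B => T B ∨ B = insert w A) C
      (L + (gk V m π (A.card + 1) - gk V m π A.card) -
        ∑ b ∈ N, (gk V m π ((na H A b).card + 1) - gk V m π (na H A b).card))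
      (pp P Z (A ∪ N) (qc P Z (A ∪ N) d)) (zz Z w) := by
  classical
  obtain ⟨hbS, hbs, hlaw⟩ := h.bag _ hT
  have hdS : d ∈ S := hbS (Finset.mem_insert_self _ _)
  have hsd : s d = false := hbs d (Finset.mem_insert_self _ _)
  have hAS : A ⊆ S := (Finset.subset_insert _ _).trans hbS
  have hwA : w ∉ A := fun h' => hw (hAS h')
  have hDS : A ∪ N ⊆ S := Finset.union_subset hAS hN
  have hq : ∀ e u, 0 ≤ qc P Z (A ∪ N) d e u := fun e u => ker_nonneg h.nonneg _ _ _ _
  have hst := h.qc_sum (D := A ∪ N) hdS
  refine TB.extend h hs hw (Finset.subset_union_right) hDS hadj hq hst ?_ ?_ ?_ ?_ ?_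
    (fun a B hab => Or.inl hab)
  · intro F
    rw [h.sum_qc hdS fun _ o => F o, h.vert d hdS F, hsd, hsw]
  · intro b hbN hsb
    rw [(hNs b hbN).1] at hsb
    exact absurd hsb (by decide)
  · intro b hbN _ F
    have hbD : b ∈ A ∪ N := Finset.mem_union_right _ hbN
    have h1 := h.sum_qc (D := A ∪ N) hdS fun c o => F o (c b)
    simp only [mz_self hbD] at h1
    rw [h1]
    exact h.edge d hdS b (hN hbN) (hNs b hbN).2.symm hsd F
  · rw [h.qc_gg hdS (Finset.Subset.refl _), hsw]
    have h1 := h.bag_mono hT (Finset.subset_insert d A)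
    have h2 : he P Z (A ∪ N) ≤ he P Z A + ∑ b ∈ N, tau V m π (na H A b).card := by
      have hTB : TB m π H s S (fun B => B = A) C L P Z :=
        ⟨h.nonneg, h.total, h.out, h.inn, h.vert, h.edge, h.tc, fun B hB => by
          rw [hB]; exact h1, h.star⟩
      exact hTB.he_up hb hs rfl (Finset.Subset.refl _) N hN fun b hb => (hNs b hb).1
    have h3 := h.he_bag hT (Finset.subset_insert d A)
    have h4 : ∑ b ∈ N, tau V m π ((na H A b).card + 1) - ∑ b ∈ N, tau V m π (na H A b).card =
        ∑ b ∈ N, (gk V m π ((na H A b).card + 1) - gk V m π (na H A b).card) -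
          (N.card : ℝ) * ii m π := by
      rw [← Finset.sum_sub_distrib]
      have : ∀ b ∈ N, tau V m π ((na H A b).card + 1) - tau V m π (na H A b).card =
          (gk V m π ((na H A b).card + 1) - gk V m π (na H A b).card) - ii m π := by
        intro b _
        rw [tau_eq, tau_eq]
        push_cast
        ring
      rw [Finset.sum_congr rfl this, Finset.sum_sub_distrib, Finset.sum_const, nsmul_eq_mul]
    linarith
  · rintro B (hB | rfl)
    · exact Or.inl hB
    · right
      refine ⟨Finset.insert_subset_insert _ hAS, ?_, fun F => ?_⟩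
      · intro x hx
        rcases Finset.mem_insert.1 hx with rfl | hx
        · exact hsw
        · exact hbs x (Finset.mem_insert_of_mem hx)
      · have e1 : ∀ x : Ω × U, mz (zz Z w) (insert w A) x =
            Function.update (rz A (mz Z (A ∪ N) x.1)) w (some x.2) := by
          intro x
          rw [mz_ins, mz_zz hwA, rz_mz Finset.subset_union_left]
          simp [zz]
        have e2 : ∀ x : (U × U) × (V → U), mz ZS (insert w A) x =
            Function.update (mz ZS A x) w (some (x.2 w)) := by
          intro x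
          rw [mz_ins]
          rfl
        simp only [e1, e2]
        rw [h.sum_qc hdS fun c o => F (Function.update (rz A c) w o)]
        have h5 := hlaw fun c => F (Function.update (rz A c) w (c d))
        have e3 : ∀ ω, rz A (mz Z (insert d A) ω) = mz Z A ω := fun ω =>
          rz_mz (Finset.subset_insert _ _) ω
        have e4 : ∀ ω, rz A (mz Z (A ∪ N) ω) = mz Z A ω := fun ω =>
          rz_mz Finset.subset_union_left ω
        have e5 : ∀ x : (U × U) × (V → U), rz A (mz ZS (insert d A) x) = mz ZS A x := fun x =>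
          rz_mz (Finset.subset_insert _ _) x
        simp only [e3, e5, mz_self (Finset.mem_insert_self d A)] at h5
        simp only [e4]
        rw [h5]
        exact st1_swap hdA hwA fun c o => F (Function.update c w o)

end Vale.Agent.P050.Deg
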