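import Vale.Agent.P050.Deg.Clone

/-!
A star set `A`, together with copies of one more leaf.
-/

set_option linter.unusedSectionVars false

namespace Vale.Agent.P050.Deg

open Finset Vale.Agent.P050.Lev Vale.Agent.P050.Cart Vale.Agent.P050.Join Vale.Agent.P050.Tmpl

variable {V U Ω : Type} [Fintype V] [DecidableEq V] [Fintype U] [Fintype Ω]

/-- the debt -/
noncomputable def lf (m : Bool → U → ℝ) (π : U → U → ℝ) (H : SimpleGraph V) (s : V → Bool)
    (A D S : Finset V) : ℝ :=
  gk V m π A.card + ((D ∩ S).card : ℝ) * (gk V m π (A.card + 1) - gk V m π A.card) -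
    ∑ b ∈ S.filter (fun b => s b = true), (gk V m π (na H A b).card +
      ((na H (D ∩ S) b).card : ℝ) * (gk V m π ((na H A b).card + 1) - gk V m π (na H A b).card))

/-- the lower bound for the entropy of a copy with its neighbours -/
def ub (m : Bool → U → ℝ) (π : U → U → ℝ) (H : SimpleGraph V) (A : Finset V) (P : Ω → ℝ)
    (Z : Ω → V → Option U) (d : V) (N : Finset V) : Prop :=
  ((A.card : ℝ) + 1) * hm m false - gk V m π (A.card + 1) +
    ∑ b ∈ N, tau V m π ((na H A b).card + 1) ≤ he P Z (insert d (A ∪ N))

/-- laws on `S` -/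
structure TD (m : Bool → U → ℝ) (π : U → U → ℝ) (H : SimpleGraph V) (s : V → Bool)
    (A D S : Finset V) (P : Ω → ℝ) (Z : Ω → V → Option U) : Prop where
  tb : TB m π H s S (fun B => B = A ∨ ∃ d ∈ D, d ∈ S ∧ B = insert d A) (fun _ _ => False)
    (lf m π H s A D S) P Z
  u : ∀ d ∈ D, d ∈ S → ub m π H A P Z d (na H S d)

variable {m : Bool → U → ℝ} {π : U → U → ℝ} {H : SimpleGraph V} {s : V → Bool}
  {A D S : Finset V} {P : Ω → ℝ} {Z : Ω → V → Option U} {w : V}

theorem TB.mono' {T T' : Finset V → Prop} {C C' : V → Finset V → Prop} {L L' : ℝ}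
    (h : TB m π H s S T C L P Z) (hT : ∀ B, T' B → T B) (hC : ∀ a B, C' a B → C a B)
    (hL : L = L') : TB m π H s S T' C' L' P Z :=
  ⟨h.nonneg, h.total, h.out, h.inn, h.vert, h.edge, hL ▸ h.tc, fun D hD => h.bag D (hT D hD),
    fun v D hD => h.star v D (hC v D hD)⟩

theorem na_insert_of_not {b x : V} (h : ¬ H.Adj b x) (S : Finset V) :
    na H (insert x S) b = na H S b := by
  ext y
  rw [mem_na, mem_na, Finset.mem_insert]
  constructor
  · rintro ⟨rfl | h1, h2⟩
    · exact absurd h2 h
    · exact ⟨h1, h2⟩
  · exact fun h' => ⟨Or.inr h'.1, h'.2⟩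

theorem na_insert_of {b x : V} (h : H.Adj b x) (S : Finset V) :
    na H (insert x S) b = insert x (na H S b) := by
  ext y
  simp only [mem_na, Finset.mem_insert]
  constructor
  · rintro ⟨rfl | h1, h2⟩
    · exact Or.inl rfl
    · exact Or.inr ⟨h1, h2⟩
  · rintro (rfl | h')
    · exact ⟨Or.inl rfl, h⟩
    · exact ⟨Or.inr h'.1, h'.2⟩

/-- the debt after a new vertex of `D` -/
theorem lf_insert_D (hs : ∀ u v, H.Adj u v → s u ≠ s v) (hwD : w ∈ D) (hw : w ∉ S)
    (hsw : s w = false) :
    lf m π H s A D (insert w S) = lf m π H s A D S +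
      (gk V m π (A.card + 1) - gk V m π A.card) -
      ∑ b ∈ na H S w, (gk V m π ((na H A b).card + 1) - gk V m π (na H A b).card) := by
  classical
  unfold lf
  have e1 : D ∩ insert w S = insert w (D ∩ S) := by
    ext x
    simp only [Finset.mem_inter, Finset.mem_insert]
    constructor
    · rintro ⟨h1, h2 | h2⟩
      · exact Or.inl h2
      · exact Or.inr ⟨h1, h2⟩
    · rintro (rfl | ⟨h1, h2⟩)
      · exact ⟨hwD, Or.inl rfl⟩
      · exact ⟨h1, Or.inr h2⟩
  have hw' : w ∉ D ∩ S := fun h => hw (Finset.mem_inter.1 h).2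
  have e2 : (insert w S).filter (fun b => s b = true) = S.filter (fun b => s b = true) := by
    rw [Finset.filter_insert, if_neg]
    rw [hsw]
    decide
  rw [e1, e2, Finset.card_insert_of_notMem hw']
  have e3 : ∀ b, ((na H (insert w (D ∩ S)) b).card : ℝ) = ((na H (D ∩ S) b).card : ℝ) +
      (if H.Adj b w then 1 else 0) := by
    intro b
    by_cases hbw : H.Adj b w
    · rw [na_insert_of hbw, Finset.card_insert_of_notMem, if_pos hbw]
      · push_cast
        ring
      · intro h'
        exact hw' (mem_na.1 h').1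
    · rw [na_insert_of_not hbw, if_neg hbw, add_zero]
  have e4 : na H S w = (S.filter (fun b => s b = true)).filter (fun b => H.Adj b w) := by
    ext x
    rw [mem_na, Finset.mem_filter, Finset.mem_filter]
    constructor
    · rintro ⟨h1, h2⟩
      refine ⟨⟨h1, ?_⟩, h2.symm⟩
      have := hs _ _ h2
      rw [hsw] at this
      cases hx : s x
      · rw [hx] at this
        exact absurd rfl this
      · rfl
    · exact fun h' => ⟨h'.1.1, h'.2.symm⟩
  simp only [e3]
  have e6 : ∑ b ∈ na H S w, (gk V m π ((na H A b).card + 1) - gk V m π (na H A b).card) =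
      ∑ b ∈ S.filter (fun b => s b = true),
        (if H.Adj b w then (gk V m π ((na H A b).card + 1) - gk V m π (na H A b).card) else 0) := by
    rw [e4]
    exact Finset.sum_filter _ _
  rw [e6]
  have e5 : ∀ b ∈ S.filter (fun b => s b = true), (gk V m π (na H A b).card +
      (((na H (D ∩ S) b).card : ℝ) + (if H.Adj b w then 1 else 0)) *
        (gk V m π ((na H A b).card + 1) - gk V m π (na H A b).card)) =
      (gk V m π (na H A b).card + ((na H (D ∩ S) b).card : ℝ) *
        (gk V m π ((na H A b).card + 1) - gk V m π (na H A b).card)) +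
      (if H.Adj b w then (gk V m π ((na H A b).card + 1) - gk V m π (na H A b).card) else 0) := by
    intro b _
    split_ifs <;> ring
  rw [Finset.sum_congr rfl e5, Finset.sum_add_distrib]
  push_cast
  ring

/-- the debt after a new vertex of the side `true` -/
theorem lf_insert_b (hwD : w ∉ D) (hw : w ∉ S) (hsw : s w = true) :
    lf m π H s A D (insert w S) = lf m π H s A D S - (gk V m π (na H A w).card +
      ((na H (D ∩ S) w).card : ℝ) *
        (gk V m π ((na H A w).card + 1) - gk V m π (na H A w).card)) := by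
  classical
  unfold lf
  have e1 : D ∩ insert w S = D ∩ S := by
    ext x
    simp only [Finset.mem_inter, Finset.mem_insert]
    constructor
    · rintro ⟨h1, h2 | h2⟩
      · exact absurd (h2 ▸ h1) hwD
      · exact ⟨h1, h2⟩
    · exact fun h => ⟨h.1, Or.inr h.2⟩
  have e2 : (insert w S).filter (fun b => s b = true) =
      insert w (S.filter (fun b => s b = true)) := by
    rw [Finset.filter_insert, if_pos hsw]
  rw [e1, e2, Finset.sum_insert fun h => hw (Finset.mem_filter.1 h).1]
  ring

/-- the first copy, or a copy without common neighbours -/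
theorem TD.leafD (h : TD m π H s A D S P Z) (hb : Base m π)
    (hs : ∀ u v, H.Adj u v → s u ≠ s v) (hAS : A ⊆ S)
    (hDs : ∀ d ∈ D, s d = false) (hwD : w ∈ D) (hw : w ∉ S) (hno : ∀ x ∈ S, ¬ H.Adj w x) :
    TD m π H s A D (insert w S) (pp P Z A (qs π A fun ω => ω.2 w)) (zz Z w) := by
  classical
  have hsw := hDs w hwD
  have h0 : na H S w = ∅ := by
    ext x
    rw [mem_na]
    simp only [Finset.notMem_empty, iff_false]
    exact fun h' => hno x h'.1 h'.2
  have h1 := h.tb.leaf (Q := A) hb hs hw hsw hno (Or.inl rfl) (Finset.Subset.refl A)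
  have hlaw := (h.tb.bag_mono (Q := A) (D := A) (Or.inl rfl) (Finset.Subset.refl A)).2.2
  have hst := qs_sum (π := π) hlaw h.tb.nonneg fun ω => ω.2 w
  have hL : lf m π H s A D S + (gk V m π (A.card + 1) - gk V m π A.card) =
      lf m π H s A D (insert w S) := by
    rw [lf_insert_D hs hwD hw hsw, h0]
    simp
  have h2 : TB m π H s (insert w S)
      (fun B => B = A ∨ ∃ d ∈ D, d ∈ insert w S ∧ B = insert d A) (fun _ _ => False)
      (lf m π H s A D (insert w S)) (pp P Z A (qs π A fun ω => ω.2 w)) (zz Z w) := by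
    refine h1.mono' ?_ (fun _ _ h => h) hL
    rintro B (hB | ⟨d, hd, hdS, hB⟩)
    · exact Or.inl (Or.inl hB)
    · rcases Finset.mem_insert.1 hdS with rfl | hdS
      · exact Or.inr hB
      · exact Or.inl (Or.inr ⟨d, hd, hdS, hB⟩)
  refine ⟨h2, ?_⟩
  intro d hd hdS
  by_cases hdw : d = w
  · subst hdw
    have e0 : na H (insert d S) d = ∅ := by
      rw [na_insert_of_not (H.loopless.irrefl d), h0]
    unfold ub
    rw [e0, Finset.sum_empty, Finset.union_empty]
    have hwA : d ∉ A := fun h' => hw (hAS h')
    rw [h2.he_bag (D := insert d A) (Q := insert d A)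
      (Or.inr ⟨d, hd, Finset.mem_insert_self _ _, rfl⟩) (Finset.Subset.refl _),
      Finset.card_insert_of_notMem hwA]
    push_cast
    linarith
  · have hdS' := (Finset.mem_insert.1 hdS).resolve_left hdw
    have hndw : ¬ H.Adj d w := fun h' => hno d hdS' h'.symm
    rw [na_insert_of_not hndw]
    have h3 := h.u d hd hdS'
    unfold ub at h3 ⊢
    rw [he_old hst]
    · exact h3
    · rw [Finset.mem_insert, Finset.mem_union]
      rintro (h' | h' | h')
      · exact hdw h'.symm
      · exact hw (hAS h')
      · exact hw (mem_na.1 h').1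

/-- a copy with common neighbours -/
theorem TD.cloneD (h : TD m π H s A D S P Z) (hb : Base m π)
    (hs : ∀ u v, H.Adj u v → s u ≠ s v) (hAD : Disjoint A D) (hAS : A ⊆ S)
    (hDs : ∀ d ∈ D, s d = false) (hwD : w ∈ D) (hw : w ∉ S) {e : V} (heD : e ∈ D) (heS : e ∈ S)
    (hwe : ∀ b ∈ S, H.Adj b w → H.Adj b e) :
    TD m π H s A D (insert w S) (pp P Z (A ∪ na H S w) (qc P Z (A ∪ na H S w) e)) (zz Z w) := by
  classical
  have hsw := hDs w hwD
  have hse := hDs e heD
  have heA : e ∉ A := fun h' => (Finset.disjoint_left.1 hAD) h' heD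
  have hN : na H S w ⊆ S := fun x hx => (mem_na.1 hx).1
  have hNs : ∀ b ∈ na H S w, s b = true ∧ H.Adj b e := by
    intro b hb'
    have h1 := mem_na.1 hb'
    refine ⟨?_, hwe b h1.1 h1.2.symm⟩
    have := hs _ _ h1.2
    rw [hsw] at this
    cases hx : s b
    · rw [hx] at this
      exact absurd rfl this
    · rfl
  have hadj : ∀ x ∈ S, H.Adj w x ↔ x ∈ na H S w := fun x hx => by
    rw [mem_na]
    exact ⟨fun h' => ⟨hx, h'⟩, fun h' => h'.2⟩
  have hTe : (fun B => B = A ∨ ∃ d ∈ D, d ∈ S ∧ B = insert d A) (insert e A) :=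
    Or.inr ⟨e, heD, heS, rfl⟩
  have hU : ub m π H A P Z e (na H S w) := by
    have h1 := h.u e heD heS
    unfold ub at h1 ⊢
    have hsubs : na H S w ⊆ na H S e := by
      intro b hb'
      rw [mem_na]
      exact ⟨hN hb', (hNs b hb').2.symm⟩
    have h2 := h.tb.he_up hb hs hTe (X := insert e (A ∪ na H S w)) (by
      intro x hx
      rw [Finset.mem_insert] at hx ⊢
      rcases hx with hx | hx
      · exact Or.inl hx
      · exact Or.inr (Finset.mem_union_left _ hx)) (na H S e \ na H S w)
      (Finset.sdiff_subset.trans fun x hx => (mem_na.1 hx).1) (fun b hb' => by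
        have h3 := mem_na.1 (Finset.mem_sdiff.1 hb').1
        have := hs _ _ h3.2
        rw [hse] at this
        cases hx : s b
        · rw [hx] at this
          exact absurd rfl this
        · rfl)
    have e1 : insert e (A ∪ na H S w) ∪ (na H S e \ na H S w) = insert e (A ∪ na H S e) := by
      rw [Finset.insert_union, Finset.union_assoc, Finset.union_sdiff_of_subset hsubs]
    have e2 : ∀ b ∈ na H S e \ na H S w, tau V m π (na H (insert e A) b).card =
        tau V m π ((na H A b).card + 1) := by
      intro b hb'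
      have h3 := mem_na.1 (Finset.mem_sdiff.1 hb').1
      rw [na_insert_of h3.2.symm, Finset.card_insert_of_notMem]
      intro h'
      exact heA (mem_na.1 h').1
    rw [e1, Finset.sum_congr rfl e2] at h2
    have e3 := Finset.sum_sdiff (f := fun b => tau V m π ((na H A b).card + 1)) hsubs
    linarith
  have h1 := h.tb.clone hb hs hw hsw heA hTe hN hNs hadj hU
  have hst := h.tb.qc_sum (D := A ∪ na H S w) heS
  have hL : lf m π H s A D S + (gk V m π (A.card + 1) - gk V m π A.card) -
      ∑ b ∈ na H S w, (gk V m π ((na H A b).card + 1) - gk V m π (na H A b).card) =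
      lf m π H s A D (insert w S) := (lf_insert_D hs hwD hw hsw).symm
  refine ⟨?_, ?_⟩
  · refine h1.mono' ?_ (fun _ _ h => h) hL
    rintro B (hB | ⟨d, hd, hdS, hB⟩)
    · exact Or.inl (Or.inl hB)
    · rcases Finset.mem_insert.1 hdS with rfl | hdS
      · exact Or.inr hB
      · exact Or.inl (Or.inr ⟨d, hd, hdS, hB⟩)
  · intro d hd hdS
    by_cases hdw : d = w
    · subst hdw
      rw [na_insert_of_not (H.loopless.irrefl d)]
      unfold ub at hU ⊢
      have hnot : d ∉ A ∪ na H S d := by
        rw [Finset.mem_union]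
        rintro (h' | h')
        · exact hw (hAS h')
        · exact hw (mem_na.1 h').1
      rw [he_new hnot, h.tb.qc_gg heS (Finset.Subset.refl _)]
      linarith
    · have hdS' := (Finset.mem_insert.1 hdS).resolve_left hdw
      have hndw : ¬ H.Adj d w := by
        intro h'
        have := hs _ _ h'
        rw [hDs d hd, hsw] at this
        exact this rfl
      rw [na_insert_of_not hndw]
      have h3 := h.u d hd hdS'
      unfold ub at h3 ⊢
      rw [he_old hst]
      · exact h3
      · rw [Finset.mem_insert, Finset.mem_union]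
        rintro (h' | h' | h')
        · exact hdw h'.symm
        · exact hw (hAS h')
        · exact hw (mem_na.1 h').1

/-- a new vertex of the side `true` with at most one neighbour in `D` so far -/
theorem TD.cap (h : TD m π H s A D S P Z) (hb : Base m π)
    (hs : ∀ u v, H.Adj u v → s u ≠ s v) (hAD : Disjoint A D) (hAS : A ⊆ S)
    (hDs : ∀ d ∈ D, s d = false) (hw : w ∉ S) (hsw : s w = true) {B : Finset V}
    (hB : B = A ∨ ∃ d ∈ D, d ∈ S ∧ B = insert d A) (hBd : ∀ d ∈ D, d ∈ B → H.Adj w d)
    (hwB : ∀ x ∈ S, H.Adj w x → x ∈ B) :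
    TD m π H s A D (insert w S) (pp P Z (na H B w) (qs π (na H B w) fun ω => ω.1.2))
      (zz Z w) := by
  classical
  have hBS : B ⊆ S := by
    rcases hB with rfl | ⟨d, _, hd, rfl⟩
    · exact hAS
    · exact Finset.insert_subset hd hAS
  have hwD : w ∉ D := fun h' => by
    rw [hDs w h'] at hsw
    exact absurd hsw (by decide)
  have hnB : na H B w ⊆ B := fun x hx => (mem_na.1 hx).1
  have hadj : ∀ x ∈ S, H.Adj w x ↔ x ∈ na H B w := fun x hx => by
    rw [mem_na]
    exact ⟨fun h' => ⟨hwB x hx h', h'⟩, fun h' => h'.2⟩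
  have h1 := h.tb.cap hb hs hw hsw hB hnB hadj
  have hlaw := (h.tb.bag_mono hB hnB).2.2
  have hst := qs_sum (π := π) hlaw h.tb.nonneg fun ω => ω.1.2
  have hq := qs_nonneg hb (na H B w) fun ω => ω.1.2
  have hL : lf m π H s A D S - gk V m π (na H B w).card = lf m π H s A D (insert w S) := by
    rw [lf_insert_b hwD hw hsw]
    rcases hB with rfl | ⟨d, hdD, hdS, rfl⟩
    · have e0 : na H (D ∩ S) w = ∅ := by
        ext x
        rw [mem_na]
        simp only [Finset.notMem_empty, iff_false]
        rintro ⟨h', h''⟩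
        have h3 := Finset.mem_inter.1 h'
        exact (Finset.disjoint_left.1 hAD) (hwB x h3.2 h'') h3.1
      rw [e0]
      simp
    · have hwd := hBd d hdD (Finset.mem_insert_self _ _)
      have hdA : d ∉ A := fun h' => (Finset.disjoint_left.1 hAD) h' hdD
      have e0 : na H (D ∩ S) w = {d} := by
        ext x
        rw [mem_na, Finset.mem_singleton]
        constructor
        · rintro ⟨h', h''⟩
          have h3 := Finset.mem_inter.1 h'
          rcases Finset.mem_insert.1 (hwB x h3.2 h'') with h4 | h4
          · exact h4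
          · exact absurd h3.1 ((Finset.disjoint_left.1 hAD) h4)
        · rintro rfl
          exact ⟨Finset.mem_inter.2 ⟨hdD, hdS⟩, hwd⟩
      rw [e0, na_insert_of hwd, Finset.card_insert_of_notMem fun h' => hdA (mem_na.1 h').1,
        Finset.card_singleton]
      push_cast
      ring
  refine ⟨?_, ?_⟩
  · refine h1.mono' ?_ (fun _ _ h => h.elim) hL
    rintro B' (hB' | ⟨d, hd, hdS, hB'⟩)
    · exact Or.inl hB'
    · rcases Finset.mem_insert.1 hdS with rfl | hdS
      · exact absurd hd hwD
      · exact Or.inr ⟨d, hd, hdS, hB'⟩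
  · intro d hd hdS
    have hdw : d ≠ w := fun h' => hwD (h' ▸ hd)
    have hdS' := (Finset.mem_insert.1 hdS).resolve_left hdw
    have hdA : d ∉ A := fun h' => (Finset.disjoint_left.1 hAD) h' hd
    have h3 := h.u d hd hdS'
    by_cases hwd : H.Adj w d
    · have hdB := hwB d hdS' hwd
      have hBe : B = insert d A := by
        rcases hB with rfl | ⟨d', hd', _, rfl⟩
        · exact absurd hdB hdA
        · rcases Finset.mem_insert.1 hdB with h4 | h4
          · rw [h4]
          · exact absurd h4 hdA
      have hwn : w ∉ na H S d := fun h' => hw (mem_na.1 h').1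
      rw [na_insert_of hwd.symm]
      unfold ub at h3 ⊢
      have e1 : insert d (A ∪ insert w (na H S d)) = insert w (insert d (A ∪ na H S d)) := by
        ext x
        simp only [Finset.mem_insert, Finset.mem_union]
        tauto
      have hnot : w ∉ insert d (A ∪ na H S d) := by
        rw [Finset.mem_insert, Finset.mem_union]
        rintro (h' | h' | h')
        · exact hdw h'.symm
        · exact hw (hAS h')
        · exact hwn h'
      rw [e1, he_new hnot, Finset.sum_insert hwn]
      have h4 := gg_ge h.tb.nonneg hq hst (insert d (A ∪ na H S d))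
      have h5 : gg P Z (na H B w) (qs π (na H B w) fun ω => ω.1.2) (na H B w) =
          tau V m π ((na H A w).card + 1) := by
        rw [qs_gg hb hlaw, ent_sc hb]
        have h6 := gk_card (V := V) (m := m) (π := π) (na H B w)
        have h7 : (na H B w).card = (na H A w).card + 1 := by
          rw [hBe, na_insert_of hwd, Finset.card_insert_of_notMem fun h' => hdA (mem_na.1 h').1]
        rw [← h7]
        unfold tau
        linarith
      linarith
    · rw [na_insert_of_not fun h' => hwd h'.symm]
      unfold ub at h3 ⊢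
      rw [he_old hst]
      · exact h3
      · rw [Finset.mem_insert, Finset.mem_union]
        rintro (h' | h' | h')
        · exact hdw h'.symm
        · exact hw (hAS h')
        · exact hw (mem_na.1 h').1

end Vale.Agent.P050.Deg
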