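import Vale.Agent.P050.Deg.TwoChain
import Vale.Agent.P050.Lev.TwoEnds

/-!
The cycle with eight vertices.
-/

set_option linter.unusedSectionVars false

namespace Vale.Agent.P050.Deg

open Finset Vale.Agent.P050.Lev Vale.Agent.P050.Cart Vale.Agent.P050.Join Vale.Agent.P050.Tmpl

/-- isomorphic graphs -/
theorem gsid_iso {V W : Type} [Fintype V] [DecidableEq V] [Fintype W] [DecidableEq W]
    {G : SimpleGraph V} {H : SimpleGraph W} {s : V → Bool} {t : W → Bool} (φ : V ≃ W)
    (hG : ∀ u v, H.Adj (φ u) (φ v) ↔ G.Adj u v) (hφ : ∀ v, t (φ v) = s v) (h : GSid G s) :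
    GSid H t := by
  classical
  obtain ⟨h1, _, h2⟩ := h
  have hs : ∀ u v, H.Adj u v → t u ≠ t v := by
    intro u v huv
    obtain ⟨a, rfl⟩ := φ.surjective u
    obtain ⟨b, rfl⟩ := φ.surjective v
    rw [hφ, hφ]
    exact h1 a b ((hG a b).1 huv)
  have e : sideEdges H t = (sideEdges G s).map (φ.prodCongr φ).toEmbedding := by
    ext ⟨u, v⟩
    obtain ⟨a, rfl⟩ := φ.surjective u
    obtain ⟨b, rfl⟩ := φ.surjective v
    rw [Finset.mem_map_equiv]
    unfold sideEdges
    rw [Finset.mem_filter, Finset.mem_filter]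
    simp only [mem_univ, true_and, Equiv.prodCongr_symm, Equiv.prodCongr_apply, Prod.map,
      Equiv.symm_apply_apply, hφ, hG]
  refine ⟨hs, ?_, ?_⟩
  · intro x hx
    unfold sideEdges at hx
    exact (Finset.mem_filter.1 hx).2.2
  · intro U _ m W m0 m1 W0
    have h3 := h2 U m W m0 m1 W0
    rw [e, Finset.card_map]
    refine h3.trans (le_of_eq ?_)
    refine Fintype.sum_equiv (φ.arrowCongr (Equiv.refl U)) _ _ fun z => ?_
    rw [Finset.prod_map]
    congr 1
    · rw [← Equiv.prod_comp φ]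
      refine Finset.prod_congr rfl fun v _ => ?_
      rw [hφ]
      simp [Equiv.arrowCongr]
    · refine Finset.prod_congr rfl fun x _ => ?_
      simp [Equiv.arrowCongr]

/-- the cycle with eight vertices -/
def cyc : SimpleGraph (Fin 8) where
  Adj i j := j = i + 1 ∨ j = i + 7
  symm := ⟨by decide⟩
  loopless := ⟨by decide⟩

instance : DecidableRel cyc.Adj := fun i j => inferInstanceAs (Decidable (j = i + 1 ∨ j = i + 7))

/-- levels -/
def lv : Fin 8 → ℕ := ![0, 1, 2, 3, 4, 3, 2, 1]

/-- pieces -/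
def pc : Fin 4 → Finset (Fin 8) := ![{1, 2}, {2, 3}, {5, 6}, {6, 7}]

theorem cyc_gsid : GSid cyc fun v => decide (lv v % 2 = 1) := by
  refine two_ends cyc lv 4 (by decide) (by decide) (by decide) (by decide) (by decide) (by decide)
    (by decide) (by decide) pc (by decide) (by decide) (by decide) (by decide) ?_
  intro i
  have key : ∀ i : Fin 4, ∃ x ∈ pc i, ∀ y ∈ pc i, (decide (lv y % 2 = 1)) ≠
      (decide (lv x % 2 = 1)) → cyc.Adj x y := by decide
  obtain ⟨x, hx, h⟩ := key i
  refine dom_any (v := ⟨x, hx⟩) ?_ ?_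
  · rintro ⟨u, _⟩ ⟨v, _⟩ huv
    have k : ∀ u v : Fin 8, cyc.Adj u v → (decide (lv u % 2 = 1)) ≠
      (decide (lv v % 2 = 1)) := by decide
    exact k u v huv
  · rw [Finset.eq_empty_iff_forall_notMem]
    rintro ⟨y, hy⟩ hmem
    obtain ⟨h1, h2⟩ := mem_nn.1 hmem
    exact h2 (h y hy h1)

variable {W : Type} [Fintype W] [DecidableEq W] {G : SimpleGraph W} {t : W → Bool}

/-- a 2-regular graph with parts of four vertices, without a cycle of length four -/
theorem eight_gsid (ht : ∀ u v, G.Adj u v → t u ≠ t v)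
    (hd : ∀ w, ∃ p q, p ≠ q ∧ ∀ x, G.Adj w x ↔ x = p ∨ x = q)
    (hcard : ∀ b, (univ.filter fun w => t w = b).card = 4)
    (hc4 : ∀ a a' b b', a ≠ a' → b ≠ b' → G.Adj a b → G.Adj a b' → G.Adj a' b → G.Adj a' b' →
      False) : GSid G t := by
  classical
  have other : ∀ w x, G.Adj w x → ∃ y, y ≠ x ∧ ∀ z, G.Adj w z ↔ z = x ∨ z = y := by
    intro w x hwx
    obtain ⟨p, q, hpq, hw⟩ := hd w
    rcases (hw x).1 hwx with rfl | rfl
    · exact ⟨q, hpq.symm, hw⟩
    · exact ⟨p, hpq, fun z => (hw z).trans or_comm⟩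
  have tt : ∀ {u v}, G.Adj u v → t u = false → t v = true := by
    intro u v h h'
    have := ht u v h
    rw [h'] at this
    cases hv : t v
    · exact absurd hv.symm this
    · rfl
  have tf : ∀ {u v}, G.Adj u v → t u = true → t v = false := by
    intro u v h h'
    have := ht u v h
    rw [h'] at this
    cases hv : t v
    · rfl
    · exact absurd hv.symm this
  obtain ⟨x0, hx0⟩ : (univ.filter fun w => t w = false).Nonempty := by
    rw [← Finset.card_pos, hcard]
    decide
  have t0 : t x0 = false := (Finset.mem_filter.1 hx0).2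
  obtain ⟨x1, x7, h17, n0⟩ := hd x0
  have a01 : G.Adj x0 x1 := (n0 x1).2 (Or.inl rfl)
  have a07 : G.Adj x0 x7 := (n0 x7).2 (Or.inr rfl)
  have t1 := tt a01 t0
  have t7 := tt a07 t0
  obtain ⟨x2, h20, n1⟩ := other x1 x0 a01.symm
  obtain ⟨x6, h60, n7⟩ := other x7 x0 a07.symm
  have a12 : G.Adj x1 x2 := (n1 x2).2 (Or.inr rfl)
  have a76 : G.Adj x7 x6 := (n7 x6).2 (Or.inr rfl)
  have t2 := tf a12 t1
  have t6 := tf a76 t7
  have h26 : x2 ≠ x6 := by
    rintro rfl
    exact hc4 x0 x2 x1 x7 h20.symm h17 a01 a07 a12.symm a76.symm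
  obtain ⟨x3, h31, n2⟩ := other x2 x1 a12.symm
  obtain ⟨x5, h57, n6⟩ := other x6 x7 a76.symm
  have a23 : G.Adj x2 x3 := (n2 x3).2 (Or.inr rfl)
  have a65 : G.Adj x6 x5 := (n6 x5).2 (Or.inr rfl)
  have t3 := tt a23 t2
  have t5 := tt a65 t6
  have h37 : x3 ≠ x7 := by
    rintro rfl
    rcases (n7 x2).1 a23.symm with h | h
    · exact h20 h
    · exact h26 h
  have h51 : x5 ≠ x1 := by
    rintro rfl
    rcases (n1 x6).1 a65.symm with h | h
    · exact h60 h
    · exact h26 h.symm
  obtain ⟨x4, h42, n3⟩ := other x3 x2 a23.symm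
  have a34 : G.Adj x3 x4 := (n3 x4).2 (Or.inr rfl)
  have t4 := tf a34 t3
  have no_five : ∀ (b : Bool) (y₁ y₂ y₃ y₄ y₅ : W), t y₁ = b → t y₂ = b → t y₃ = b → t y₄ = b →
      t y₅ = b → y₁ ≠ y₂ → y₁ ≠ y₃ → y₁ ≠ y₄ → y₁ ≠ y₅ → y₂ ≠ y₃ → y₂ ≠ y₄ → y₂ ≠ y₅ → y₃ ≠ y₄ →
      y₃ ≠ y₅ → y₄ ≠ y₅ → False := by
    intro b y₁ y₂ y₃ y₄ y₅ e1 e2 e3 e4 e5 h12 h13 h14 h15 h23 h24 h25 h34 h35 h45
    have h1 : ({y₁, y₂, y₃, y₄, y₅} : Finset W) ⊆ univ.filter fun w => t w = b := by
      intro x hx
      simp only [Finset.mem_insert, Finset.mem_singleton] at hx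
      rw [Finset.mem_filter]
      rcases hx with rfl | rfl | rfl | rfl | rfl <;> exact ⟨mem_univ _, by assumption⟩
    have h2 := Finset.card_le_card h1
    rw [hcard] at h2
    have h3 : ({y₁, y₂, y₃, y₄, y₅} : Finset W).card = 5 := by
      rw [Finset.card_insert_of_notMem, Finset.card_insert_of_notMem, Finset.card_insert_of_notMem,
        Finset.card_insert_of_notMem, Finset.card_singleton]
      · simpa using h45
      · simpa using ⟨h34, h35⟩
      · simpa using ⟨h23, h24, h25⟩
      · simpa using ⟨h12, h13, h14, h15⟩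
    omega
  have h35 : x3 ≠ x5 := by
    rintro rfl
    -- a further vertex on the side `false`
    have h1 : ({x0, x2, x6} : Finset W).card < (univ.filter fun w => t w = false).card := by
      rw [hcard]
      exact lt_of_le_of_lt Finset.card_le_three (by decide)
    obtain ⟨z, hz, hz'⟩ := Finset.exists_mem_notMem_of_card_lt_card h1
    have tz : t z = false := (Finset.mem_filter.1 hz).2
    simp only [Finset.mem_insert, Finset.mem_singleton, not_or] at hz'
    obtain ⟨z0, z2, z6⟩ := hz'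
    obtain ⟨p, q, hpq, nz⟩ := hd z
    have ap : G.Adj z p := (nz p).2 (Or.inl rfl)
    have aq : G.Adj z q := (nz q).2 (Or.inr rfl)
    have n3' : ∀ y, G.Adj x3 y → y = x2 ∨ y = x6 := by
      intro y hy
      have h64 : x6 = x4 := ((n3 x6).1 a65.symm).resolve_left fun h => h26 h.symm
      rcases (n3 y).1 hy with h | h
      · exact Or.inl h
      · exact Or.inr (h.trans h64.symm)
    have ne1 : ∀ y, G.Adj z y → y ≠ x1 := by
      rintro y hy rfl
      rcases (n1 z).1 hy.symm with h | h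
      · exact z0 h
      · exact z2 h
    have ne7 : ∀ y, G.Adj z y → y ≠ x7 := by
      rintro y hy rfl
      rcases (n7 z).1 hy.symm with h | h
      · exact z0 h
      · exact z6 h
    have ne3 : ∀ y, G.Adj z y → y ≠ x3 := by
      rintro y hy rfl
      rcases n3' z hy.symm with h | h
      · exact z2 h
      · exact z6 h
    exact no_five true x1 x7 x3 p q t1 t7 t3 (tt ap tz) (tt aq tz) h17 h31.symm (ne1 p ap).symm
      (ne1 q aq).symm h37.symm (ne7 p ap).symm (ne7 q aq).symm (ne3 p ap).symm (ne3 q aq).symm hpq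
  have h40 : x4 ≠ x0 := by
    rintro rfl
    rcases (n0 x3).1 a34.symm with h | h
    · exact h31 h
    · exact h37 h
  have h46 : x4 ≠ x6 := by
    rintro rfl
    rcases (n6 x3).1 a34.symm with h | h
    · exact h37 h
    · exact h35 h
  obtain ⟨x4', h46', n5⟩ := other x5 x6 a65.symm
  have a54' : G.Adj x5 x4' := (n5 x4').2 (Or.inr rfl)
  have t4' := tf a54' t5
  have h40' : x4' ≠ x0 := by
    rintro rfl
    rcases (n0 x5).1 a54'.symm with h | h
    · exact h51 h
    · exact h57 h
  have h42' : x4' ≠ x2 := by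
    rintro rfl
    rcases (n2 x5).1 a54'.symm with h | h
    · exact h51 h
    · exact h35 h.symm
  have h44 : x4' = x4 := by
    by_contra hne
    exact no_five false x0 x2 x6 x4 x4' t0 t2 t6 t4 t4' h20.symm h60.symm h40.symm h40'.symm h26
      h42.symm h42'.symm h46.symm h46'.symm fun h => hne h.symm
  subst h44
  have n4 : ∀ z, G.Adj x4' z ↔ z = x3 ∨ z = x5 := by
    obtain ⟨y, hy, n4⟩ := other x4' x3 a34.symm
    have : x5 = y := ((n4 x5).1 a54'.symm).resolve_left fun h => h35 h.symm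
    rw [this]
    exact n4
  have cr : ∀ u v, t u = false → t v = true → u ≠ v := by
    rintro u v h1 h2 rfl
    rw [h1] at h2
    exact absurd h2 (by decide)
  have hinj : Function.Injective ![x0, x1, x2, x3, x4', x5, x6, x7] := by
    rw [← List.nodup_ofFn]
    have c01 := cr x0 x1 t0 t1
    have c03 := cr x0 x3 t0 t3
    have c05 := cr x0 x5 t0 t5
    have c07 := cr x0 x7 t0 t7
    have c21 := cr x2 x1 t2 t1
    have c23 := cr x2 x3 t2 t3
    have c25 := cr x2 x5 t2 t5
    have c27 := cr x2 x7 t2 t7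
    have c41 := cr x4' x1 t4 t1
    have c43 := cr x4' x3 t4 t3
    have c45 := cr x4' x5 t4 t5
    have c47 := cr x4' x7 t4 t7
    have c61 := cr x6 x1 t6 t1
    have c63 := cr x6 x3 t6 t3
    have c65 := cr x6 x5 t6 t5
    have c67 := cr x6 x7 t6 t7
    simp [List.ofFn_succ, c01, c03, c05, c07, c23, c25, c27, c45, c47, c67, c21.symm, c41.symm, c61.symm, c43.symm, c63.symm, c65.symm, h20.symm, h40.symm,
      h60.symm, h42.symm, h26, h46, h31.symm, h51.symm, h17, h35, h37, h57]
  have hcW : Fintype.card W = 8 := by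
    have h1 := Finset.card_filter_add_card_filter_not (s := (univ : Finset W)) (fun w => t w = false)
    have h2 : (univ.filter fun w => ¬ t w = false) = univ.filter fun w => t w = true := by
      refine Finset.filter_congr fun w _ => ?_
      cases t w <;> decide
    rw [h2, hcard, hcard, Finset.card_univ] at h1
    omega
  have hbij : Function.Bijective ![x0, x1, x2, x3, x4', x5, x6, x7] :=
    (Fintype.bijective_iff_injective_and_card _).2 ⟨hinj, by rw [hcW]; rfl⟩
  have hadj : ∀ i z, G.Adj (![x0, x1, x2, x3, x4', x5, x6, x7] i) z ↔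
      z = ![x0, x1, x2, x3, x4', x5, x6, x7] (i + 1) ∨
        z = ![x0, x1, x2, x3, x4', x5, x6, x7] (i + 7) := by
    intro i z
    fin_cases i
    · exact n0 z
    · exact (n1 z).trans or_comm
    · exact (n2 z).trans or_comm
    · exact (n3 z).trans or_comm
    · exact (n4 z).trans or_comm
    · exact n5 z |>.trans Iff.rfl
    · exact n6 z |>.trans Iff.rfl
    · exact n7 z
  refine gsid_iso (G := cyc) (s := fun v => decide (lv v % 2 = 1)) (Equiv.ofBijective _ hbij) ?_ ?_
    cyc_gsid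
  · intro i j
    rw [Equiv.ofBijective_apply, Equiv.ofBijective_apply, hadj]
    rw [hinj.eq_iff, hinj.eq_iff]
    exact Iff.rfl
  · intro i
    rw [Equiv.ofBijective_apply]
    fin_cases i
    · exact t0
    · exact t1
    · exact t2
    · exact t3
    · exact t4
    · exact t5
    · exact t6
    · exact t7

end Vale.Agent.P050.Deg
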