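import Vale.Agent.P050.Deg.Assemble
import Vale.Agent.P050.Tmpl.Comp

/-!
Two vertices of the same part with at most one non-neighbour each.
-/

set_option linter.unusedSectionVars false

namespace Vale.Agent.P050.Deg

open Finset Vale.Agent.P050.Lev Vale.Agent.P050.Cart Vale.Agent.P050.Join Vale.Agent.P050.Tmpl

variable {V : Type} [Fintype V] [DecidableEq V] {H : SimpleGraph V} {s : V → Bool}

theorem gsid_of_no_edge (hno : ∀ u v, ¬ H.Adj u v) : GSid H s := by
  classical
  refine ⟨fun u v h => absurd h (hno u v), ?_⟩
  have e : sideEdges H s = ∅ := by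
    unfold sideEdges
    rw [Finset.filter_eq_empty_iff]
    rintro ⟨u, v⟩ _ h
    exact hno u v h.1
  rw [e]
  refine ⟨fun e he => absurd he (Finset.notMem_empty e), ?_⟩
  intro U _ m W _ m1 _
  simp only [Finset.card_empty, pow_zero, Finset.prod_empty, mul_one]
  have h2 : ∑ z : V → U, ∏ v, m (s v) (z v) = ∏ v, ∑ x, m (s v) x := by
    rw [Finset.prod_univ_sum, Fintype.piFinset_univ]
  rw [h2, Finset.prod_congr rfl fun v _ => m1 (s v), Finset.prod_const_one]

/-- at most two copies -/
theorem small_gsid (hs : ∀ u v, H.Adj u v → s u ≠ s v) (D F : Finset V)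
    (hDs : ∀ d ∈ D, s d = false) (hD : D.Nonempty) (hD2 : D.card ≤ 2)
    (hF : ∀ b ∈ F, s b = true ∧ ∀ a, s a = false → a ∉ D → H.Adj b a)
    (hc : D.card ≤ ∑ b ∈ F, (na H D b).card) : GSid H s := by
  classical
  refine core_gsid hs (univ.filter fun a => s a = false ∧ a ∉ D) D ?_ ?_ hD
    (fun v => (Fintype.equivFin V v).1) ?_ ?_ F ?_ hc
  · rw [Finset.disjoint_left]
    intro a ha had
    exact (Finset.mem_filter.1 ha).2.2 had
  · intro v
    rw [Finset.mem_filter]
    constructor
    · intro hv
      by_cases hvD : v ∈ D
      · exact Or.inr hvD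
      · exact Or.inl ⟨mem_univ _, hv, hvD⟩
    · rintro (h | h)
      · exact h.2.1
      · exact hDs v h
  · intro d _ e _ hde
    exact (Fintype.equivFin V).injective (Fin.ext hde)
  · intro d hd
    by_cases hex : ∃ e ∈ D, e ≠ d
    · obtain ⟨e, he, hed⟩ := hex
      refine ⟨e, he, ?_⟩
      rintro b _ ⟨f, hf, hrf, hbf⟩
      have hfd : f ≠ d := by
        rintro rfl
        exact lt_irrefl _ hrf
      have hfe : f = e := by
        by_contra hfe
        have h1 : ({f, e, d} : Finset V) ⊆ D := by
          intro x hx
          rw [Finset.mem_insert, Finset.mem_insert, Finset.mem_singleton] at hx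
          rcases hx with rfl | rfl | rfl
          · exact hf
          · exact he
          · exact hd
        have h2 := Finset.card_le_card h1
        rw [Finset.card_insert_of_notMem (by simp [hfe, hfd]),
          Finset.card_insert_of_notMem (by simp [hed]), Finset.card_singleton] at h2
        omega
      subst hfe
      exact ⟨hrf, hbf⟩
    · refine ⟨d, hd, ?_⟩
      rintro b _ ⟨f, hf, hrf, _⟩
      by_cases hfd : f = d
      · subst hfd
        exact absurd hrf (lt_irrefl _)
      · exact absurd ⟨f, hf, hfd⟩ hex
  · intro b hb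
    refine ⟨(hF b hb).1, fun a ha => ?_⟩
    have := (Finset.mem_filter.1 ha).2
    exact (hF b hb).2 a this.1 this.2

theorem dom_gsid (hs : ∀ u v, H.Adj u v → s u ≠ s v) {q : V} (hq : s q = true)
    (h : ∀ a, s a = false → H.Adj q a) : GSid H s := by
  classical
  by_cases hex : ∃ a, s a = false
  · obtain ⟨a, ha⟩ := hex
    refine small_gsid hs {a} {q} ?_ (Finset.singleton_nonempty a) (by simp) ?_ ?_
    · intro d hd
      rw [Finset.mem_singleton] at hd
      rwa [hd]
    · intro b hb
      rw [Finset.mem_singleton] at hb
      rw [hb]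
      exact ⟨hq, fun a ha _ => h a ha⟩
    · rw [Finset.sum_singleton]
      refine Finset.card_le_card fun x hx => ?_
      rw [Finset.mem_singleton] at hx
      rw [mem_na, hx]
      exact ⟨Finset.mem_singleton_self a, h a ha⟩
  · refine gsid_of_no_edge fun u v huv => ?_
    have h1 := hs u v huv
    cases hu : s u
    · exact hex ⟨u, hu⟩
    · cases hv : s v
      · exact hex ⟨v, hv⟩
      · rw [hu, hv] at h1
        exact h1 rfl

theorem two_few_true (hs : ∀ u v, H.Adj u v → s u ≠ s v) {q₁ q₂ : V} (hq : q₁ ≠ q₂)
    (h1 : s q₁ = true) (h2 : s q₂ = true)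
    (c1 : ∀ u v, s u = false → s v = false → ¬ H.Adj q₁ u → ¬ H.Adj q₁ v → u = v)
    (c2 : ∀ u v, s u = false → s v = false → ¬ H.Adj q₂ u → ¬ H.Adj q₂ v → u = v) :
    GSid H s := by
  classical
  by_cases d1 : ∀ a, s a = false → H.Adj q₁ a
  · exact dom_gsid hs h1 d1
  by_cases d2 : ∀ a, s a = false → H.Adj q₂ a
  · exact dom_gsid hs h2 d2
  push Not at d1 d2
  obtain ⟨a₁, ha₁, hn₁⟩ := d1
  obtain ⟨a₂, ha₂, hn₂⟩ := d2
  have key : ∀ x y : V, x ≠ y → s x = false → s y = false → (a₁ = x ∨ a₁ = y) →
      (a₂ = x ∨ a₂ = y) → GSid H s := by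
    intro x y hxy hx hy hx1 hx2
    refine small_gsid hs {x, y} {q₁, q₂} ?_ ⟨x, Finset.mem_insert_self _ _⟩
      (Finset.card_le_two) ?_ ?_
    · intro d hd
      rw [Finset.mem_insert, Finset.mem_singleton] at hd
      rcases hd with rfl | rfl
      · exact hx
      · exact hy
    · intro b hb
      rw [Finset.mem_insert, Finset.mem_singleton] at hb
      rcases hb with rfl | rfl
      · refine ⟨h1, fun a ha haD => ?_⟩
        by_contra hna
        have := c1 a a₁ ha ha₁ hna hn₁
        rw [Finset.mem_insert, Finset.mem_singleton] at haD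
        rcases hx1 with h' | h'
        · exact haD (Or.inl (this.trans h'))
        · exact haD (Or.inr (this.trans h'))
      · refine ⟨h2, fun a ha haD => ?_⟩
        by_contra hna
        have := c2 a a₂ ha ha₂ hna hn₂
        rw [Finset.mem_insert, Finset.mem_singleton] at haD
        rcases hx2 with h' | h'
        · exact haD (Or.inl (this.trans h'))
        · exact haD (Or.inr (this.trans h'))
    · rw [Finset.sum_pair hq]
      have g1 : 1 ≤ (na H {x, y} q₁).card := by
        rw [Nat.succ_le_iff, Finset.card_pos]
        by_contra hne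
        rw [Finset.not_nonempty_iff_eq_empty] at hne
        have e1 : ¬ H.Adj q₁ x := fun h' => by
          have : x ∈ na H {x, y} q₁ := mem_na.2 ⟨by simp, h'⟩
          rw [hne] at this
          exact absurd this (Finset.notMem_empty _)
        have e2 : ¬ H.Adj q₁ y := fun h' => by
          have : y ∈ na H {x, y} q₁ := mem_na.2 ⟨by simp, h'⟩
          rw [hne] at this
          exact absurd this (Finset.notMem_empty _)
        exact hxy (c1 x y hx hy e1 e2)
      have g2 : 1 ≤ (na H {x, y} q₂).card := by
        rw [Nat.succ_le_iff, Finset.card_pos]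
        by_contra hne
        rw [Finset.not_nonempty_iff_eq_empty] at hne
        have e1 : ¬ H.Adj q₂ x := fun h' => by
          have : x ∈ na H {x, y} q₂ := mem_na.2 ⟨by simp, h'⟩
          rw [hne] at this
          exact absurd this (Finset.notMem_empty _)
        have e2 : ¬ H.Adj q₂ y := fun h' => by
          have : y ∈ na H {x, y} q₂ := mem_na.2 ⟨by simp, h'⟩
          rw [hne] at this
          exact absurd this (Finset.notMem_empty _)
        exact hxy (c2 x y hx hy e1 e2)
      have g3 : ({x, y} : Finset V).card ≤ 2 := Finset.card_le_two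
      omega
  by_cases h12 : a₁ = a₂
  · by_cases hex : ∃ y, s y = false ∧ y ≠ a₁
    · obtain ⟨y, hy, hya⟩ := hex
      exact key a₁ y hya.symm ha₁ hy (Or.inl rfl) (Or.inl h12.symm)
    · push Not at hex
      by_cases hb : ∃ b, H.Adj b a₁
      · obtain ⟨b, hba⟩ := hb
        have hsb : s b = true := by
          have := hs _ _ hba
          rw [ha₁] at this
          cases h' : s b
          · rw [h'] at this
            exact absurd rfl this
          · rfl
        exact dom_gsid hs hsb fun a ha => by rw [hex a ha]; exact hba
      · push Not at hb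
        refine gsid_of_no_edge fun u v huv => ?_
        have h' := hs u v huv
        cases hu : s u
        · rw [hex u hu] at huv
          exact hb v huv.symm
        · cases hv : s v
          · rw [hex v hv] at huv
            exact hb u huv
          · rw [hu, hv] at h'
            exact h' rfl
  · exact key a₁ a₂ h12 ha₁ ha₂ (Or.inl rfl) (Or.inr rfl)

/-- **Two vertices of the same part with at most one non-neighbour each.** -/
theorem two_few (hs : ∀ u v, H.Adj u v → s u ≠ s v) {q₁ q₂ : V} (hq : q₁ ≠ q₂)
    (h12 : s q₁ = s q₂) (c1 : (nn H s q₁).card ≤ 1) (c2 : (nn H s q₂).card ≤ 1) :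
    GSid H s := by
  have k1 : ∀ u v, s u ≠ s q₁ → s v ≠ s q₁ → ¬ H.Adj q₁ u → ¬ H.Adj q₁ v → u = v :=
    fun u v hu hv hnu hnv => Finset.card_le_one.1 c1 u (mem_nn.2 ⟨hu, hnu⟩) v
      (mem_nn.2 ⟨hv, hnv⟩)
  have k2 : ∀ u v, s u ≠ s q₂ → s v ≠ s q₂ → ¬ H.Adj q₂ u → ¬ H.Adj q₂ v → u = v :=
    fun u v hu hv hnu hnv => Finset.card_le_one.1 c2 u (mem_nn.2 ⟨hu, hnu⟩) v
      (mem_nn.2 ⟨hv, hnv⟩)
  cases hq1 : s q₁ with
  | true =>
    have hq2 : s q₂ = true := h12 ▸ hq1
    rw [hq1] at k1
    rw [hq2] at k2
    exact two_few_true hs hq hq1 hq2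
      (fun u v hu hv => k1 u v (by rw [hu]; decide) (by rw [hv]; decide))
      (fun u v hu hv => k2 u v (by rw [hu]; decide) (by rw [hv]; decide))
  | false =>
    have hq2 : s q₂ = false := h12 ▸ hq1
    rw [hq1] at k1
    rw [hq2] at k2
    have h := two_few_true (H := H) (s := fun v => !s v) (q₁ := q₁) (q₂ := q₂)
      (fun u v huv h' => hs u v huv (by
        revert h'; cases s u <;> cases s v <;> decide)) hq (by simp [hq1]) (by simp [hq2])
      (fun u v hu hv => k1 u v (by
        have : s u = true := by simpa using hu
        rw [this]; decide) (by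
        have : s v = true := by simpa using hv
        rw [this]; decide))
      (fun u v hu hv => k2 u v (by
        have : s u = true := by simpa using hu
        rw [this]; decide) (by
        have : s v = true := by simpa using hv
        rw [this]; decide))
    have h2 := GSid.flip h
    simpa using h2

theorem dense_false (hs : ∀ u v, H.Adj u v → s u ≠ s v)
    (h : (univ.filter fun v => s v = false).card * (univ.filter fun v => s v = true).card + 2 ≤
      Nat.card H.edgeSet + 2 * (univ.filter fun v => s v = false).card) : GSid H s := by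
  classical
  have key : ∑ a ∈ univ.filter (fun a => s a = false), (nn H s a).card + Nat.card H.edgeSet =
      (univ.filter fun v => s v = false).card * (univ.filter fun v => s v = true).card := by
    rw [← card_sideEdges H s hs]
    have h1 : (sideEdges H s).card =
        ∑ a ∈ univ.filter (fun a => s a = false), (univ.filter fun b => H.Adj a b).card := by
      unfold sideEdges
      rw [Finset.card_filter, Fintype.sum_prod_type, Finset.sum_filter]
      refine Finset.sum_congr rfl fun a _ => ?_
      split_ifs with ha
      · refine (Finset.card_filter _ _).symm.trans ?_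
        congr 1
        refine Finset.filter_congr fun b _ => ?_
        refine ⟨fun h => h.1, fun h => ⟨h, ha, ?_⟩⟩
        have := hs _ _ h
        rw [ha] at this
        cases hb : s b
        · exact absurd hb.symm this
        · rfl
      · refine Finset.sum_eq_zero fun b _ => ?_
        rw [if_neg]
        exact fun h => ha h.2.1
    rw [h1, ← Finset.sum_add_distrib, ← smul_eq_mul, ← Finset.sum_const]
    refine Finset.sum_congr rfl fun a ha => ?_
    rw [Finset.mem_filter] at ha
    rw [← Finset.card_union_of_disjoint]
    · congr 1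
      ext b
      rw [Finset.mem_union, mem_nn, Finset.mem_filter, Finset.mem_filter, ha.2]
      constructor
      · rintro (h | h)
        · refine ⟨mem_univ _, ?_⟩
          cases hb : s b
          · exact absurd hb h.1
          · rfl
        · refine ⟨mem_univ _, ?_⟩
          have := hs _ _ h.2
          rw [ha.2] at this
          cases hb : s b
          · exact absurd hb.symm this
          · rfl
      · intro h
        by_cases hab : H.Adj a b
        · exact Or.inr ⟨mem_univ _, hab⟩
        · refine Or.inl ⟨?_, hab⟩
          rw [h.2]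
          decide
    · rw [Finset.disjoint_left]
      intro b hb hb'
      exact (mem_nn.1 hb).2 (Finset.mem_filter.1 hb').2
  by_cases hdom : ∃ a ∈ univ.filter (fun a => s a = false), (nn H s a).card = 0
  · obtain ⟨a, ha, h0⟩ := hdom
    rw [Finset.mem_filter] at ha
    by_cases hex : ∃ a' ∈ univ.filter (fun a => s a = false), a' ≠ a ∧ (nn H s a').card ≤ 1
    · obtain ⟨a', ha', hne, h1⟩ := hex
      rw [Finset.mem_filter] at ha'
      exact two_few hs hne (ha'.2.trans ha.2.symm) h1 (by omega)
    · -- a dominating vertex
      have h3 := dom_gsid (H := H) (s := fun v => !s v) (q := a)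
        (fun u v huv h' => hs u v huv (by
          revert h'; cases s u <;> cases s v <;> decide)) (by simp [ha.2]) (by
          intro b hb
          have hsb : s b = true := by simpa using hb
          by_contra hab
          have : b ∈ nn H s a := by
            rw [mem_nn, ha.2, hsb]
            exact ⟨by decide, hab⟩
          rw [Finset.card_eq_zero.1 h0] at this
          exact absurd this (Finset.notMem_empty _))
      have h2 := GSid.flip h3
      simpa using h2
  · push Not at hdom
    have h1 := count1 (univ.filter fun a => s a = false) (fun a => (nn H s a).card) fun a ha =>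
      Nat.one_le_iff_ne_zero.2 (hdom a ha)
    have h2 : 2 ≤ ((univ.filter fun a => s a = false).filter fun a =>
        (nn H s a).card = 1).card := by omega
    obtain ⟨q₁, hq₁, q₂, hq₂, hne⟩ := Finset.one_lt_card.1 (by omega : 1 <
      ((univ.filter fun a => s a = false).filter fun a => (nn H s a).card = 1).card)
    rw [Finset.mem_filter, Finset.mem_filter] at hq₁ hq₂
    exact two_few hs hne (hq₁.1.2.trans hq₂.1.2.symm) hq₁.2.le hq₂.2.le

/-- **Few missing edges.** -/
theorem dense_max (hs : ∀ u v, H.Adj u v → s u ≠ s v)
    (h : (univ.filter fun v => s v = false).card * (univ.filter fun v => s v = true).card + 2 ≤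
      Nat.card H.edgeSet + 2 * max (univ.filter fun v => s v = false).card
        (univ.filter fun v => s v = true).card) : GSid H s := by
  classical
  rcases le_total (univ.filter fun v => s v = true).card (univ.filter fun v => s v = false).card
    with hle | hle
  · rw [max_eq_left hle] at h
    exact dense_false hs h
  · rw [max_eq_right hle] at h
    have e1 : (univ.filter fun v => (!s v) = false) = univ.filter fun v => s v = true := by
      ext v
      simp
    have e2 : (univ.filter fun v => (!s v) = true) = univ.filter fun v => s v = false := by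
      ext v
      simp
    have h3 := dense_false (H := H) (s := fun v => !s v) (fun u v huv h' => hs u v huv (by
      revert h'; cases s u <;> cases s v <;> decide)) (by
        rw [e1, e2, mul_comm]
        exact h)
    have h2 := GSid.flip h3
    simpa using h2

theorem core_false (hs : ∀ u v, H.Adj u v → s u ≠ s v) (D : Finset V)
    (hDs : ∀ d ∈ D, s d = false) (hD : D.Nonempty) (r : V → ℕ)
    (hr : ∀ d ∈ D, ∀ e ∈ D, r d = r e → d = e)
    (hRI : ∀ d ∈ D, ∃ e ∈ D, ∀ b, H.Adj b d → (∃ f ∈ D, r f < r d ∧ H.Adj b f) →
      r e < r d ∧ H.Adj b e) (F : Finset V)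
    (hF : ∀ b ∈ F, s b ≠ false ∧ ∀ a, s a = false → a ∉ D → H.Adj b a)
    (hc : D.card ≤ ∑ b ∈ F, Nat.card {d : V // d ∈ D ∧ H.Adj b d}) : GSid H s := by
  classical
  have e : ∀ b, Nat.card {d : V // d ∈ D ∧ H.Adj b d} = (na H D b).card := fun b =>
    Nat.subtype_card _ fun x => mem_na
  simp only [e] at hc
  refine core_gsid hs (univ.filter fun a => s a = false ∧ a ∉ D) D ?_ ?_ hD r hr hRI F ?_ hc
  · rw [Finset.disjoint_left]
    intro a ha had
    exact (Finset.mem_filter.1 ha).2.2 had
  · intro v
    rw [Finset.mem_filter]
    constructor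
    · intro hv
      by_cases hvD : v ∈ D
      · exact Or.inr hvD
      · exact Or.inl ⟨mem_univ _, hv, hvD⟩
    · rintro (h | h)
      · exact h.2.1
      · exact hDs v h
  · intro b hb
    refine ⟨?_, fun a ha => ?_⟩
    · have := (hF b hb).1
      cases h : s b
      · exact absurd h this
      · rfl
    · have := (Finset.mem_filter.1 ha).2
      exact (hF b hb).2 a this.1 this.2

/-- **Copies with the running intersection property**, either side. -/
theorem core_colour (hs : ∀ u v, H.Adj u v → s u ≠ s v) (c : Bool) (D : Finset V)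
    (hDs : ∀ d ∈ D, s d = c) (hD : D.Nonempty) (r : V → ℕ)
    (hr : ∀ d ∈ D, ∀ e ∈ D, r d = r e → d = e)
    (hRI : ∀ d ∈ D, ∃ e ∈ D, ∀ b, H.Adj b d → (∃ f ∈ D, r f < r d ∧ H.Adj b f) →
      r e < r d ∧ H.Adj b e) (F : Finset V)
    (hF : ∀ b ∈ F, s b ≠ c ∧ ∀ a, s a = c → a ∉ D → H.Adj b a)
    (hc : D.card ≤ ∑ b ∈ F, Nat.card {d : V // d ∈ D ∧ H.Adj b d}) : GSid H s := by
  cases c with
  | false => exact core_false hs D hDs hD r hr hRI F hF hc
  | true =>
    have e : ∀ u, ((!s u) = false) ↔ (s u = true) := fun u => by cases s u <;> decide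
    have e' : ∀ u, ((!s u) ≠ false) ↔ (s u ≠ true) := fun u => by cases s u <;> decide
    have h := core_false (H := H) (s := fun v => !s v)
      (fun u v huv h' => hs u v huv (by
        revert h'; cases s u <;> cases s v <;> decide)) D
      (fun d hd => (e d).2 (hDs d hd)) hD r hr hRI F
      (fun b hb => ⟨(e' b).2 (hF b hb).1, fun a ha => (hF b hb).2 a ((e a).1 ha)⟩) hc
    have h2 := GSid.flip h
    simpa using h2

end Vale.Agent.P050.Deg
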