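import Vale.Agent.P050.Deg.Tree

/-!
Components of the bipartite complement without two independent edges.
-/

set_option linter.unusedSectionVars false

namespace Vale.Agent.P050.Deg

open Finset Vale.Agent.P050.Lev Vale.Agent.P050.Cart Vale.Agent.P050.Join Vale.Agent.P050.Tmpl

variable {V : Type} [Fintype V] [DecidableEq V] {H : SimpleGraph V} {s : V → Bool}

/-- all vertices of the side `false` are copies of one leaf -/
theorem core_all (hs : ∀ u v, H.Adj u v → s u ≠ s v) (r : V → ℕ)
    (hr : ∀ d e, s d = false → s e = false → r d = r e → d = e)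
    (hRI : ∀ d, s d = false → ∃ e, s e = false ∧ ∀ b, H.Adj b d →
      (∃ f, s f = false ∧ r f < r d ∧ H.Adj b f) → r e < r d ∧ H.Adj b e) : GSid H s := by
  classical
  refine ⟨hs, ksid_of_sidLaw ?_ ?_⟩
  · intro e he
    unfold sideEdges at he
    exact (Finset.mem_filter.1 he).2.2
  intro U _ m π m0 m1 pi0 row col
  have hb : Base m π := { m0 := m0, m1 := m1, pi0 := pi0, row := row, col := col }
  set D : Finset V := univ.filter fun v => s v = false with hDdef
  have memD : ∀ v, v ∈ D ↔ s v = false := fun v => by simp [hDdef]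
  clear_value D
  have hAD : Disjoint (∅ : Finset V) D := Finset.disjoint_empty_left _
  have hA : ∀ a ∈ (∅ : Finset V), s a = false := fun a ha => absurd ha (Finset.notMem_empty a)
  have hDs : ∀ d ∈ D, s d = false := fun d hd => (memD d).1 hd
  obtain ⟨Ω, _, P, Z, h⟩ := TD.stage hb hs hAD hA hDs r
    (fun d hd e he => hr d e ((memD d).1 hd) ((memD e).1 he)) (by
      intro d hd
      obtain ⟨e, he, h⟩ := hRI d ((memD d).1 hd)
      refine ⟨e, (memD e).2 he, fun b hbd hex => h b hbd ?_⟩
      obtain ⟨f, hf, h1, h2⟩ := hex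
      exact ⟨f, (memD f).1 hf, h1, h2⟩) (univ.sup r + 1)
  have hlt : ∀ d, r d < univ.sup r + 1 := fun d =>
    Nat.lt_succ_of_le (Finset.le_sup (mem_univ d))
  obtain ⟨Ω', _, P', Z', h'⟩ := h.addMany hb hs hAD (fun a ha => mem_sn.2 (Or.inl ha)) hDs
    (univ.filter fun b => s b = true ∧ ¬ ∃ f ∈ D, H.Adj b f) (by
      intro b hb'
      obtain ⟨_, hsb, hnf⟩ := Finset.mem_filter.1 hb'
      refine ⟨?_, hsb, ∅, Or.inl rfl, ?_, ?_⟩
      · rw [mem_sn]
        rintro (h' | h' | h')
        · exact absurd h' (Finset.notMem_empty b)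
        · rw [hDs b h'.1] at hsb
          exact absurd hsb (by decide)
        · obtain ⟨_, f, hf, _, hbf⟩ := h'
          exact hnf ⟨f, hf, hbf⟩
      · intro f _ hfA
        exact absurd hfA (Finset.notMem_empty f)
      · intro x hx hbx
        rcases mem_sn.1 hx with hx | hx | hx
        · exact hx
        · exact absurd ⟨x, hx.1, hbx⟩ hnf
        · have := hs _ _ hbx
          rw [hsb, hx.1] at this
          exact absurd rfl this)
  have e : sn H s ∅ D r (univ.sup r + 1) ∪
      (univ.filter fun b => s b = true ∧ ¬ ∃ f ∈ D, H.Adj b f) = univ := by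
    ext v
    rw [Finset.mem_union, mem_sn, Finset.mem_filter]
    simp only [mem_univ, true_and, iff_true]
    cases hv : s v
    · exact Or.inl (Or.inr (Or.inl ⟨(memD v).2 hv, hlt v⟩))
    · by_cases h1 : ∃ f ∈ D, H.Adj v f
      · obtain ⟨f, hf, hvf⟩ := h1
        exact Or.inl (Or.inr (Or.inr ⟨rfl, f, hf, hlt f, hvf⟩))
      · exact Or.inr ⟨rfl, h1⟩
  rw [e] at h'
  refine (h'.tb.toTW ?_).sidLaw hb
  unfold lf
  have e0 : ∀ b, na H ∅ b = ∅ := by
    intro b
    ext x
    rw [mem_na]
    simp
  simp only [e0, Finset.card_empty, zero_add]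
  rw [gk_zero hb, gk_one hb]
  simp

theorem flip_hs (hs : ∀ u v, H.Adj u v → s u ≠ s v) :
    ∀ u v, H.Adj u v → (fun v => !s v) u ≠ (fun v => !s v) v := fun u v huv h' =>
  hs u v huv (by
    revert h'
    simp only
    cases s u <;> cases s v <;> decide)

theorem dom_any (hs : ∀ u v, H.Adj u v → s u ≠ s v) {v : V} (hv : nn H s v = ∅) :
    GSid H s := by
  obtain ⟨C, hC⟩ := starGrown_of_dominating (y := v) hs (by
    intro u hu
    by_contra h
    have : u ∈ nn H s v := mem_nn.2 ⟨hu, fun h' => h h'.symm⟩
    rw [hv] at this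
    exact absurd this (Finset.notMem_empty _))
  exact starGrown_gsid hs hC

/-- one half: more vertices and edges on the side `true` -/
theorem chain_half (hs : ∀ u v, H.Adj u v → s u ≠ s v) (T : Finset V) (hne : T.Nonempty)
    (hT : ∀ u ∈ T, ∀ v ∈ nn H s u, v ∈ T)
    (hch : ∀ a ∈ T, ∀ a' ∈ T, s a = false → s a' = false →
      nn H s a ⊆ nn H s a' ∨ nn H s a' ⊆ nn H s a)
    (hc : (T.filter fun v => s v = false).card + 1 ≤ (T.filter fun v => s v = true).card +
      ∑ b ∈ T.filter (fun v => s v = true), (na H (T.filter fun v => s v = false) b).card) :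
    GSid H s := by
  classical
  by_cases c0 : ∃ v, nn H s v = ∅
  · obtain ⟨v, hv⟩ := c0
    exact dom_any hs hv
  push Not at c0
  set R := T.filter fun v => s v = false with hR
  have memR : ∀ v, v ∈ R ↔ v ∈ T ∧ s v = false := fun v => by rw [hR, Finset.mem_filter]
  have hRne : R.Nonempty := by
    obtain ⟨v, hv⟩ := hne
    cases h : s v
    · exact ⟨v, (memR v).2 ⟨hv, h⟩⟩
    · obtain ⟨w, hw⟩ := c0 v
      refine ⟨w, (memR w).2 ⟨hT v hv w hw, ?_⟩⟩
      have := (mem_nn.1 hw).1
      rw [h] at this
      cases h' : s w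
      · rfl
      · exact absurd h' this
  obtain ⟨y, hy, hmin⟩ := Finset.exists_min_image R (fun v => (nn H s v).card) hRne
  have hyT := ((memR y).1 hy).1
  have sy := ((memR y).1 hy).2
  have ymin : ∀ v ∈ R, nn H s y ⊆ nn H s v := by
    intro v hv
    rcases hch y hyT v ((memR v).1 hv).1 sy ((memR v).1 hv).2 with h | h
    · exact h
    · rw [Finset.eq_of_subset_of_card_le h (hmin v hv)]
  -- whoever sees a vertex of `R` sees `y`
  have seeY : ∀ b v, v ∈ R → H.Adj b v → H.Adj b y := by
    intro b v hv hbv
    by_contra hby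
    have sb := side_true_of hs hbv ((memR v).1 hv).2
    have h1 : b ∈ nn H s y := mem_nn.2 ⟨by rw [sb, sy]; decide, fun h => hby h.symm⟩
    exact (mem_nn.1 (ymin v hv h1)).2 hbv.symm
  have inR : ∀ b, s b = true → b ∉ T → ∀ v ∈ R, H.Adj b v := by
    intro b sb hbT v hv
    by_contra h
    exact hbT (hT v ((memR v).1 hv).1 b (mem_nn.2
      ⟨by rw [sb, ((memR v).1 hv).2]; decide, fun h' => h h'.symm⟩))
  obtain ⟨i, hi⟩ : ∃ i : V → ℕ, Function.Injective i := ⟨fun v => (Fintype.equivFin V v).1,
    fun a b h => (Fintype.equivFin V).injective (Fin.ext h)⟩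
  by_cases hw : ∃ w, s w = false ∧ w ∉ R
  · obtain ⟨w, sw, hwR⟩ := hw
    have hwT : w ∉ T := fun h => hwR ((memR w).2 ⟨h, sw⟩)
    have hwy : w ≠ y := fun h => hwR (h ▸ hy)
    have memD : ∀ v, v ∈ insert w R ↔ v = w ∨ v ∈ R := fun v => Finset.mem_insert
    refine core_false hs (insert w R) ?_ ⟨w, Finset.mem_insert_self _ _⟩
      (fun v => if v = y then 0 else 1 + i v) ?_ ?_ (T.filter fun v => s v = true) ?_ ?_
    · intro d hd
      rcases (memD d).1 hd with rfl | h
      · exact sw
      · exact ((memR d).1 h).2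
    · intro d _ e _ hde
      have hde' : (if d = y then 0 else 1 + i d) = (if e = y then 0 else 1 + i e) := hde
      split_ifs at hde' with h1 h2 h2
      · rw [h1, h2]
      · omega
      · omega
      · exact hi (by omega)
    · intro d hd
      refine ⟨y, Finset.mem_insert_of_mem hy, ?_⟩
      rintro b hbd ⟨f, hf, hrf, hbf⟩
      have hdy : d ≠ y := by
        rintro rfl
        simp only [if_true] at hrf
        exact absurd hrf (Nat.not_lt_zero _)
      refine ⟨?_, ?_⟩
      · simp only [if_true, if_neg hdy]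
        omega
      · rcases (memD d).1 hd with rfl | hdR
        · rcases (memD f).1 hf with rfl | hfR
          · exact absurd hrf (lt_irrefl _)
          · exact seeY b f hfR hbf
        · exact seeY b d hdR hbd
    · intro b hb
      rw [Finset.mem_filter] at hb
      refine ⟨by rw [hb.2]; decide, fun a sa haD => ?_⟩
      by_contra h
      have h1 : a ∈ nn H s b := mem_nn.2 ⟨by rw [sa, hb.2]; decide, h⟩
      exact haD (Finset.mem_insert_of_mem ((memR a).2 ⟨hT b hb.1 a h1, sa⟩))
    · have e : ∀ b ∈ T.filter (fun v => s v = true),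
          Nat.card {d : V // d ∈ insert w R ∧ H.Adj b d} = 1 + (na H R b).card := by
        intro b hb
        rw [Finset.mem_filter] at hb
        have hbw : H.Adj b w := by
          by_contra h
          exact hwT (hT b hb.1 w (mem_nn.2 ⟨by rw [sw, hb.2]; decide, h⟩))
        have h1 : Nat.card {d : V // d ∈ insert w R ∧ H.Adj b d} = (na H (insert w R) b).card :=
          Nat.subtype_card _ fun x => mem_na
        rw [h1, na_insert_of hbw, Finset.card_insert_of_notMem fun h => hwR (mem_na.1 h).1]
        omega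
      rw [Finset.sum_congr rfl e, Finset.sum_add_distrib, Finset.sum_const, smul_eq_mul, mul_one,
        Finset.card_insert_of_notMem hwR]
      exact hc
  · push Not at hw
    refine core_all hs (fun v => if v = y then 0 else 1 + i v) ?_ ?_
    · intro d e _ _ hde
      have hde' : (if d = y then 0 else 1 + i d) = (if e = y then 0 else 1 + i e) := hde
      split_ifs at hde' with h1 h2 h2
      · rw [h1, h2]
      · omega
      · omega
      · exact hi (by omega)
    · intro d sd
      refine ⟨y, sy, ?_⟩
      rintro b hbd ⟨f, sf, hrf, hbf⟩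
      have hdy : d ≠ y := by
        rintro rfl
        simp only [if_true] at hrf
        exact absurd hrf (Nat.not_lt_zero _)
      refine ⟨?_, seeY b d (hw d sd) hbd⟩
      simp only [if_true, if_neg hdy]
      omega

theorem nn_flip (v : V) : nn H (fun v => !s v) v = nn H s v := by
  ext u
  rw [mem_nn, mem_nn]
  cases s u <;> cases s v <;> simp

/-- **A union of components of the bipartite complement without two independent edges**, which is
not complete bipartite with parts of the same size. -/
theorem chain_gsid (hs : ∀ u v, H.Adj u v → s u ≠ s v) (T : Finset V) (hne : T.Nonempty)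
    (hT : ∀ u ∈ T, ∀ v ∈ nn H s u, v ∈ T)
    (h2 : ∀ a ∈ T, ∀ a' ∈ T, s a = s a' → ∀ b ∈ nn H s a, ∀ b' ∈ nn H s a',
      b' ∈ nn H s a ∨ b ∈ nn H s a')
    (hK : (∃ u ∈ T, ∃ v ∈ T, H.Adj u v) ∨
      (T.filter fun v => s v = false).card ≠ (T.filter fun v => s v = true).card) :
    GSid H s := by
  classical
  have hch : ∀ a ∈ T, ∀ a' ∈ T, s a = s a' → nn H s a ⊆ nn H s a' ∨ nn H s a' ⊆ nn H s a := by
    intro a ha a' ha' haa
    by_contra h
    push Not at h
    obtain ⟨b, hb, hb'⟩ := Finset.not_subset.1 h.1
    obtain ⟨c, hc, hc'⟩ := Finset.not_subset.1 h.2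
    rcases h2 a ha a' ha' haa b hb c hc with h3 | h3
    · exact hc' h3
    · exact hb' h3
  by_cases h1 : (T.filter fun v => s v = false).card + 1 ≤
      (T.filter fun v => s v = true).card +
        ∑ b ∈ T.filter (fun v => s v = true), (na H (T.filter fun v => s v = false) b).card
  · exact chain_half hs T hne hT (fun a ha a' ha' sa sa' => hch a ha a' ha' (sa.trans sa'.symm)) h1
  have e1 : (T.filter fun v => (!s v) = false) = T.filter fun v => s v = true := by
    ext v
    simp
  have e2 : (T.filter fun v => (!s v) = true) = T.filter fun v => s v = false := by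
    ext v
    simp
  by_cases h3 : (T.filter fun v => s v = true).card + 1 ≤
      (T.filter fun v => s v = false).card +
        ∑ b ∈ T.filter (fun v => s v = false), (na H (T.filter fun v => s v = true) b).card
  · have h := chain_half (H := H) (s := fun v => !s v) (flip_hs hs) T hne
      (fun u hu v hv => by
        rw [nn_flip] at hv
        exact hT u hu v hv)
      (fun a ha a' ha' sa sa' => by
        rw [nn_flip, nn_flip]
        refine hch a ha a' ha' ?_
        have h4 : s a = true := by simpa using sa
        have h5 : s a' = true := by simpa using sa'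
        rw [h4, h5]) (by
        rw [e1, e2]
        exact h3)
    have h4 := GSid.flip h
    simpa using h4
  exfalso
  rcases hK with ⟨u, hu, v, hv, huv⟩ | hK
  · have key : ∀ u v, u ∈ T → v ∈ T → H.Adj u v → s v = false →
        1 ≤ ∑ b ∈ T.filter (fun v => s v = true),
          (na H (T.filter fun v => s v = false) b).card := by
      intro u v hu hv huv sv
      have su := side_true_of hs huv sv
      have h5 : 1 ≤ (na H (T.filter fun v => s v = false) u).card := by
        rw [Nat.succ_le_iff, Finset.card_pos]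
        exact ⟨v, mem_na.2 ⟨Finset.mem_filter.2 ⟨hv, sv⟩, huv⟩⟩
      exact h5.trans (Finset.single_le_sum (f := fun b =>
        (na H (T.filter fun v => s v = false) b).card) (fun _ _ => Nat.zero_le _)
        (Finset.mem_filter.2 ⟨hu, su⟩))
    have h6 : 1 ≤ ∑ b ∈ T.filter (fun v => s v = true),
        (na H (T.filter fun v => s v = false) b).card := by
      cases sv : s v
      · exact key u v hu hv huv sv
      · have su : s u = false := by
          have := hs _ _ huv
          rw [sv] at this
          cases h : s u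
          · rfl
          · rw [h] at this
            exact absurd rfl this
        exact key v u hv hu huv.symm su
    omega
  · omega

/-- **Good components of the bipartite complement.** -/
theorem good_comp (hs : ∀ u v, H.Adj u v → s u ≠ s v) (c : (bcompl H s).ConnectedComponent)
    (h : (c.toSimpleGraph.IsAcyclic ∧ Nat.card c.supp ≠ 2) ∨
      ((∀ a b a' b', a ∈ c.supp → a' ∈ c.supp → s a = s a' → (bcompl H s).Adj a b →
        (bcompl H s).Adj a' b' → (bcompl H s).Adj a b' ∨ (bcompl H s).Adj a' b) ∧
      ((∃ u ∈ c.supp, ∃ v ∈ c.supp, H.Adj u v) ∨ Nat.card {v : V // v ∈ c.supp ∧ s v = false} ≠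
        Nat.card {v : V // v ∈ c.supp ∧ s v = true}))) : GSid H s := by
  classical
  rcases h with ⟨h1, h2⟩ | ⟨h1, h2⟩
  · exact tree_gsid hs c h1 h2
  have memT : ∀ v, v ∈ (univ.filter fun a => a ∈ c.supp) ↔ v ∈ c.supp := fun v => by simp
  have clo : ∀ u ∈ c.supp, ∀ v ∈ nn H s u, v ∈ c.supp := by
    intro u hu v hv
    rw [mem_nn'] at hv
    rw [SimpleGraph.ConnectedComponent.mem_supp_iff] at hu ⊢
    rw [← hu]
    exact (SimpleGraph.ConnectedComponent.sound hv.reachable).symm
  refine chain_gsid hs (univ.filter fun a => a ∈ c.supp) ?_ ?_ ?_ ?_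
  · obtain ⟨v, hv⟩ := c.nonempty_supp
    exact ⟨v, (memT v).2 hv⟩
  · intro u hu v hv
    exact (memT v).2 (clo u ((memT u).1 hu) v hv)
  · intro a ha a' ha' haa b hb b' hb'
    rcases h1 a b a' b' ((memT a).1 ha) ((memT a').1 ha') haa (mem_nn'.1 hb) (mem_nn'.1 hb')
      with h | h
    · exact Or.inl (mem_nn'.2 h)
    · exact Or.inr (mem_nn'.2 h)
  · rcases h2 with ⟨u, hu, v, hv, huv⟩ | h2
    · exact Or.inl ⟨u, (memT u).2 hu, v, (memT v).2 hv, huv⟩
    · right
      intro h3
      apply h2
      have k : ∀ b : Bool, Nat.card {v : V // v ∈ c.supp ∧ s v = b} =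
          ((univ.filter fun a => a ∈ c.supp).filter fun v => s v = b).card := fun b =>
        Nat.subtype_card _ fun v => by rw [Finset.mem_filter, memT]
      rw [k, k]
      exact h3

end Vale.Agent.P050.Deg
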