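import Vale.Agent.P050.Deg.Rules
import Vale.Agent.P050.Tmpl.Head

/-!
Chordal covers with degree counts.
-/

set_option linter.unusedSectionVars false

namespace Vale.Agent.P050.Deg

open Finset Vale.Agent.P050.Lev Vale.Agent.P050.Cart Vale.Agent.P050.Join Vale.Agent.P050.Tmpl

variable {V U Ω : Type} [Fintype V] [DecidableEq V] [Fintype U] [Fintype Ω]

variable {m : Bool → U → ℝ} {π : U → U → ℝ} {H : SimpleGraph V} {s : V → Bool} {S : Finset V}
  {T : Finset V → Prop} {C : V → Finset V → Prop} {L : ℝ} {P : Ω → ℝ} {Z : Ω → V → Option U}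
  {D N Q : Finset V} {w : V}

theorem TB.mono (h : TB m π H s S T C L P Z) {T' : Finset V → Prop} (hT : ∀ B, T' B → T B)
    {C' : V → Finset V → Prop} (hC : ∀ a B, C' a B → C a B) {L' : ℝ} (hL : L = L') :
    TB m π H s S T' C' L' P Z :=
  ⟨h.nonneg, h.total, h.out, h.inn, h.vert, h.edge, hL ▸ h.tc, fun D hD => h.bag D (hT D hD),
    fun v D hD => h.star v D (hC v D hD)⟩

open Classical in
/-- the earlier neighbours of `a` in `K`, on the side `false` -/
noncomputable def bk (K : SimpleGraph V) (s : V → Bool) (r : V → ℕ) (a : V) : Finset V :=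
  univ.filter fun u => s u = false ∧ K.Adj a u ∧ r u < r a

open Classical in
/-- the neighbourhood -/
noncomputable def nb (H : SimpleGraph V) (b : V) : Finset V := univ.filter fun u => H.Adj b u

theorem mem_bk {K : SimpleGraph V} {r : V → ℕ} {a u : V} :
    u ∈ bk K s r a ↔ s u = false ∧ K.Adj a u ∧ r u < r a := by
  unfold bk
  simp

theorem mem_nb {b u : V} : u ∈ nb H b ↔ H.Adj b u := by
  unfold nb
  simp

/-- a clique is contained in a set `a ∪ bk a` -/
theorem clique_sub {K : SimpleGraph V} {r : V → ℕ}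
    (hr : ∀ u v, s u = false → s v = false → r u = r v → u = v) {Q : Finset V} (hQ : Q.Nonempty)
    (hs : ∀ u ∈ Q, s u = false) (hc : ∀ u ∈ Q, ∀ v ∈ Q, u ≠ v → K.Adj u v) :
    ∃ a ∈ Q, Q ⊆ insert a (bk K s r a) := by
  obtain ⟨a, ha, hmax⟩ := Finset.exists_max_image Q r hQ
  refine ⟨a, ha, fun x hx => ?_⟩
  rw [Finset.mem_insert]
  by_cases hxa : x = a
  · exact Or.inl hxa
  · right
    rw [mem_bk]
    refine ⟨hs x hx, hc a ha x hx (Ne.symm hxa), lt_of_le_of_ne (hmax x hx) fun h => ?_⟩
    exact hxa (hr x a (hs x hx) (hs a ha) h)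

section build

variable (K : SimpleGraph V) (r : V → ℕ)

/-- the vertices of the side `false` up to `n` -/
def sa (s : V → Bool) (r : V → ℕ) (n : ℕ) : Finset V := univ.filter fun a => s a = false ∧ r a < n

theorem mem_sa {n : ℕ} {a : V} : a ∈ sa s r n ↔ s a = false ∧ r a < n := by
  unfold sa
  simp

theorem stageA (hb : Base m π) (hs : ∀ u v, H.Adj u v → s u ≠ s v)
    (hr : ∀ u v, s u = false → s v = false → r u = r v → u = v)
    (hK : ∀ a u v, s a = false → s u = false → s v = false → K.Adj a u → K.Adj a v →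
      r u < r a → r v < r a → u ≠ v → K.Adj u v) (n : ℕ) :
    ∃ (Ω : Type) (_ : Fintype Ω) (P : Ω → ℝ) (Z : Ω → V → Option U),
      TB m π H s (sa s r n) (fun B => B = ∅ ∨ ∃ a ∈ sa s r n, B = insert a (bk K s r a))
        (fun _ _ => False) (∑ a ∈ sa s r n, (gk V m π ((bk K s r a).card + 1) -
          gk V m π (bk K s r a).card)) P Z := by
  classical
  induction n with
  | zero =>
    have e : sa s r 0 = ∅ := by
      ext a
      rw [mem_sa]
      simp
    rw [e]
    refine ⟨Unit, inferInstance, _, _, (TB.empty hb).mono ?_ (fun _ _ h => h) (by simp)⟩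
    rintro B (hB | ⟨a, ha, _⟩)
    · exact hB
    · exact absurd ha (Finset.notMem_empty a)
  | succ n ih =>
    obtain ⟨Ω, i, P, Z, h⟩ := ih
    by_cases hex : ∃ a, s a = false ∧ r a = n
    · obtain ⟨a, hsa, hra⟩ := hex
      have ha : a ∉ sa s r n := by
        rw [mem_sa, hra]
        simp
      have e : sa s r (n + 1) = insert a (sa s r n) := by
        ext x
        rw [mem_sa, Finset.mem_insert, mem_sa]
        constructor
        · rintro ⟨h1, h2⟩
          rcases Nat.lt_or_ge (r x) n with h3 | h3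
          · exact Or.inr ⟨h1, h3⟩
          · exact Or.inl (hr x a h1 hsa (by omega))
        · rintro (rfl | ⟨h1, h2⟩)
          · exact ⟨hsa, by omega⟩
          · exact ⟨h1, by omega⟩
      have hadj : ∀ x ∈ sa s r n, ¬ H.Adj a x := by
        intro x hx h'
        rw [mem_sa] at hx
        exact hs a x h' (hsa.trans hx.1.symm)
      obtain ⟨D, hD, hsub⟩ : ∃ D, (D = ∅ ∨ ∃ a ∈ sa s r n, D = insert a (bk K s r a)) ∧
          bk K s r a ⊆ D := by
        rcases (bk K s r a).eq_empty_or_nonempty with h0 | h0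
        · exact ⟨∅, Or.inl rfl, by rw [h0]⟩
        · obtain ⟨a', ha', hsub⟩ := clique_sub (K := K) hr h0 (fun u hu => (mem_bk.1 hu).1)
            (fun u hu v hv huv => by
              rw [mem_bk] at hu hv
              exact hK a u v hsa hu.1 hv.1 hu.2.1 hv.2.1 hu.2.2 hv.2.2 huv)
          refine ⟨_, Or.inr ⟨a', ?_, rfl⟩, hsub⟩
          rw [mem_bk] at ha'
          rw [mem_sa]
          exact ⟨ha'.1, by omega⟩
      have h' := h.leaf hb hs ha hsa hadj hD hsub
      rw [e]
      refine ⟨Ω × U, inferInstance, _, _, h'.mono ?_ (fun _ _ h => h) ?_⟩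
      · rintro B (hB | ⟨x, hx, hB⟩)
        · exact Or.inl (Or.inl hB)
        · rcases Finset.mem_insert.1 hx with rfl | hx
          · exact Or.inr hB
          · exact Or.inl (Or.inr ⟨x, hx, hB⟩)
      · rw [Finset.sum_insert ha]
        ring
    · have e : sa s r (n + 1) = sa s r n := by
        ext x
        rw [mem_sa, mem_sa]
        constructor
        · rintro ⟨h1, h2⟩
          refine ⟨h1, lt_of_le_of_ne (by omega) fun h3 => hex ⟨x, h1, h3⟩⟩
        · rintro ⟨h1, h2⟩
          exact ⟨h1, by omega⟩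
      rw [e]
      exact ⟨Ω, i, P, Z, h⟩

theorem stageB (hb : Base m π) (hs : ∀ u v, H.Adj u v → s u ≠ s v)
    (hr : ∀ u v, s u = false → s v = false → r u = r v → u = v)
    (hK : ∀ a u v, s a = false → s u = false → s v = false → K.Adj a u → K.Adj a v →
      r u < r a → r v < r a → u ≠ v → K.Adj u v)
    (hN : ∀ b u v, s b = true → H.Adj b u → H.Adj b v → u ≠ v → K.Adj u v) (R : Finset V)
    (hR : ∀ b ∈ R, s b = true) :
    ∃ (Ω : Type) (_ : Fintype Ω) (P : Ω → ℝ) (Z : Ω → V → Option U),
      TB m π H s (R ∪ univ.filter fun a => s a = false)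
        (fun B => B = ∅ ∨ ∃ a, s a = false ∧ B = insert a (bk K s r a))
        (fun b B => b ∈ R ∧ B = nb H b) (∑ a ∈ univ.filter (fun a => s a = false),
          (gk V m π ((bk K s r a).card + 1) - gk V m π (bk K s r a).card) -
          ∑ b ∈ R, gk V m π (nb H b).card) P Z := by
  classical
  induction R using Finset.induction_on with
  | empty =>
    obtain ⟨Ω, i, P, Z, h⟩ := stageA K r (H := H) (s := s) hb hs hr hK (univ.sup r + 1)
    have e : sa s r (univ.sup r + 1) = univ.filter fun a => s a = false := by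
      ext a
      rw [mem_sa, Finset.mem_filter]
      constructor
      · exact fun h => ⟨mem_univ _, h.1⟩
      · exact fun h => ⟨h.2, Nat.lt_succ_of_le (Finset.le_sup (mem_univ a))⟩
    rw [e] at h
    rw [Finset.empty_union]
    refine ⟨Ω, i, P, Z, h.mono ?_ ?_ (by simp)⟩
    · rintro B (hB | ⟨a, ha, hB⟩)
      · exact Or.inl hB
      · exact Or.inr ⟨a, by rw [Finset.mem_filter]; exact ⟨mem_univ _, ha⟩, hB⟩
    · rintro a B ⟨ha, _⟩
      exact absurd ha (Finset.notMem_empty a)
  | insert b R hbR ih =>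
    obtain ⟨Ω, i, P, Z, h⟩ := ih fun b hb => hR b (Finset.mem_insert_of_mem hb)
    have hsb := hR b (Finset.mem_insert_self _ _)
    have hn : b ∉ R ∪ univ.filter fun a => s a = false := by
      rw [Finset.mem_union, Finset.mem_filter]
      rintro (h' | h')
      · exact hbR h'
      · rw [hsb] at h'
        exact absurd h'.2 (by decide)
    have hsN : ∀ u ∈ nb H b, s u = false := by
      intro u hu
      have := hs _ _ (mem_nb.1 hu)
      rw [hsb] at this
      cases h' : s u
      · rfl
      · exact absurd h'.symm this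
    obtain ⟨D, hD, hsub⟩ : ∃ D, (D = ∅ ∨ ∃ a, s a = false ∧ D = insert a (bk K s r a)) ∧
        nb H b ⊆ D := by
      rcases (nb H b).eq_empty_or_nonempty with h0 | h0
      · exact ⟨∅, Or.inl rfl, by rw [h0]⟩
      · obtain ⟨a', ha', hsub⟩ := clique_sub (K := K) hr h0 hsN
          (fun u hu v hv huv => hN b u v hsb (mem_nb.1 hu) (mem_nb.1 hv) huv)
        exact ⟨_, Or.inr ⟨a', hsN a' ha', rfl⟩, hsub⟩
    have h' := h.cap hb hs hn hsb hD hsub (fun x _ => mem_nb.symm)
    rw [Finset.insert_union]
    refine ⟨Ω × U, inferInstance, _, _, h'.mono (fun _ h => h) ?_ ?_⟩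
    · rintro a B ⟨ha, hB⟩
      rcases Finset.mem_insert.1 ha with rfl | ha
      · exact Or.inr ⟨rfl, hB⟩
      · exact Or.inl ⟨ha, hB⟩
    · rw [Finset.sum_insert hbR]
      ring

/-- **Chordal covers with degree counts.** -/
theorem chordal_gsid (hs : ∀ u v, H.Adj u v → s u ≠ s v)
    (hr : ∀ u v, s u = false → s v = false → r u = r v → u = v)
    (hK : ∀ a u v, s a = false → s u = false → s v = false → K.Adj a u → K.Adj a v →
      r u < r a → r v < r a → u ≠ v → K.Adj u v)
    (hN : ∀ b u v, s b = true → H.Adj b u → H.Adj b v → u ≠ v → K.Adj u v)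
    (hc : ∀ k, 1 ≤ k → ((univ.filter fun a => s a = false).filter fun a =>
      k ≤ (bk K s r a).card).card ≤ ∑ b ∈ univ.filter (fun b => s b = true), ((nb H b).card - k)) :
    GSid H s := by
  classical
  refine ⟨hs, ksid_of_sidLaw ?_ ?_⟩
  · intro e he
    unfold sideEdges at he
    exact (Finset.mem_filter.1 he).2.2
  intro U _ m π m0 m1 pi0 row col
  have hb : Base m π := { m0 := m0, m1 := m1, pi0 := pi0, row := row, col := col }
  obtain ⟨Ω, _, P, Z, h⟩ := stageB K r hb hs hr hK hN (univ.filter fun b => s b = true)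
    (fun b hb => (Finset.mem_filter.1 hb).2)
  have e : (univ.filter fun b => s b = true) ∪ (univ.filter fun a => s a = false) = univ := by
    ext v
    simp only [Finset.mem_union, Finset.mem_filter, Finset.mem_univ, true_and, iff_true]
    cases s v <;> simp
  rw [e] at h
  refine (h.toTW ?_).sidLaw hb
  have hbk : ∀ a, s a = false → (bk K s r a).card + 1 ≤ Fintype.card V := by
    intro a _
    have h1 : a ∉ bk K s r a := by
      rw [mem_bk]
      exact fun h' => absurd h'.2.2 (lt_irrefl _)
    have h2 := Finset.card_le_univ (insert a (bk K s r a))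
    rwa [Finset.card_insert_of_notMem h1] at h2
  have key := count_ineq (Fintype.card V - 1) (gk V m π) (gk_zero hb) (gk_one hb)
    (fun t ht => gk_convex hb (by omega)) (univ.filter fun a => s a = false)
    (fun a => (bk K s r a).card) (fun a ha => by
      have := hbk a (Finset.mem_filter.1 ha).2
      omega) (univ.filter fun b => s b = true) (fun b => (nb H b).card) (fun b _ => by
      have := Finset.card_le_univ (nb H b)
      omega) hc
  linarith

end build

end Vale.Agent.P050.Deg
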