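import Vale.Agent.P050.Deg.Main
import Vale.Agent.P050.Lev.Final

/-!
Either side; two vertices with large neighbourhoods; disjoint unions with `K_{2,m}`.
-/

set_option linter.unusedSectionVars false

namespace Vale.Agent.P050.Deg

open Finset Vale.Agent.P050 Vale.Agent.P050.Lev Vale.Agent.P050.Cart Vale.Agent.P050.Join
  Vale.Agent.P050.Tmpl

variable {V : Type} [Fintype V] [DecidableEq V] {H : SimpleGraph V} {s : V → Bool}

theorem chordal_false (hs : ∀ u v, H.Adj u v → s u ≠ s v) (K : SimpleGraph V) (r : V → ℕ)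
    (hr : ∀ u v, s u = false → s v = false → r u = r v → u = v)
    (hK : ∀ a u v, s a = false → s u = false → s v = false → K.Adj a u → K.Adj a v →
      r u < r a → r v < r a → u ≠ v → K.Adj u v)
    (hN : ∀ b u v, s b ≠ false → H.Adj b u → H.Adj b v → u ≠ v → K.Adj u v)
    (hc : ∀ k, 1 ≤ k → Nat.card {a : V // s a = false ∧
      k ≤ Nat.card {u : V // s u = false ∧ K.Adj a u ∧ r u < r a}} ≤
        ∑ b ∈ univ.filter (fun b => s b ≠ false), (Nat.card {u : V // H.Adj b u} - k)) :
    GSid H s := by
  classical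
  have e1 : ∀ a, Nat.card {u : V // s u = false ∧ K.Adj a u ∧ r u < r a} =
      (bk K s r a).card := fun a => Nat.subtype_card _ fun u => mem_bk
  have e2 : ∀ b, Nat.card {u : V // H.Adj b u} = (nb H b).card := fun b =>
    Nat.subtype_card _ fun u => mem_nb
  refine chordal_gsid K r hs hr hK (fun b u v hb => hN b u v (by rw [hb]; decide)) ?_
  intro k hk
  have h := hc k hk
  simp only [e1, e2] at h
  rw [Nat.subtype_card ((univ.filter fun a => s a = false).filter fun a =>
    k ≤ (bk K s r a).card) (fun a => by simp)] at h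
  refine h.trans (le_of_eq ?_)
  refine Finset.sum_congr ?_ fun _ _ => rfl
  ext b
  simp

/-- **Chordal covers with degree counts**, either side. -/
theorem chordal_colour (hs : ∀ u v, H.Adj u v → s u ≠ s v) (c : Bool) (K : SimpleGraph V)
    (r : V → ℕ) (hr : ∀ u v, s u = c → s v = c → r u = r v → u = v)
    (hK : ∀ a u v, s a = c → s u = c → s v = c → K.Adj a u → K.Adj a v →
      r u < r a → r v < r a → u ≠ v → K.Adj u v)
    (hN : ∀ b u v, s b ≠ c → H.Adj b u → H.Adj b v → u ≠ v → K.Adj u v)
    (hc : ∀ k, 1 ≤ k → Nat.card {a : V // s a = c ∧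
      k ≤ Nat.card {u : V // s u = c ∧ K.Adj a u ∧ r u < r a}} ≤
        ∑ b ∈ univ.filter (fun b => s b ≠ c), (Nat.card {u : V // H.Adj b u} - k)) :
    GSid H s := by
  cases c with
  | false => exact chordal_false hs K r hr hK hN hc
  | true =>
    have e : ∀ u, ((!s u) = false) ↔ (s u = true) := fun u => by cases s u <;> decide
    have e' : ∀ u, ((!s u) ≠ false) ↔ (s u ≠ true) := fun u => by cases s u <;> decide
    have h := chordal_false (H := H) (s := fun v => !s v)
      (fun u v huv h' => hs u v huv (by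
        revert h'; cases s u <;> cases s v <;> decide)) K r
      (fun u v hu hv => hr u v ((e u).1 hu) ((e v).1 hv))
      (fun a u v ha hu hv => hK a u v ((e a).1 ha) ((e u).1 hu) ((e v).1 hv))
      (fun b u v hb => hN b u v ((e' b).1 hb)) (by
        intro k hk
        simp only [e, e']
        exact hc k hk)
    have h2 := GSid.flip h
    simpa using h2

/-- few elements have many smaller ones -/
theorem count_lt {F : Finset V} {r : V → ℕ} (k : ℕ) :
    (F.filter fun a => k ≤ (F.filter fun u => r u < r a).card).card ≤ F.card - k := by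
  classical
  rcases (F.filter fun a => k ≤ (F.filter fun u => r u < r a).card).eq_empty_or_nonempty with
    h0 | h0
  · rw [h0]
    simp
  · obtain ⟨a, ha, hmin⟩ := Finset.exists_min_image _ r h0
    have ha' := Finset.mem_filter.1 ha
    have hd : Disjoint (F.filter fun a => k ≤ (F.filter fun u => r u < r a).card)
        (F.filter fun u => r u < r a) := by
      rw [Finset.disjoint_left]
      intro x hx hx'
      have h1 := hmin x hx
      have h2 := (Finset.mem_filter.1 hx').2
      omega
    have h3 := Finset.card_le_card (Finset.union_subset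
      (Finset.filter_subset (fun a => k ≤ (F.filter fun u => r u < r a).card) F)
      (Finset.filter_subset (fun u => r u < r a) F))
    rw [Finset.card_union_of_disjoint hd] at h3
    omega

/-- **Two vertices with large neighbourhoods.** -/
theorem pair_gsid (hs : ∀ u v, H.Adj u v → s u ≠ s v) {b₁ b₂ : V} (hb : b₁ ≠ b₂)
    (hbs : s b₁ = s b₂) (hsub : ∀ u, H.Adj b₂ u → H.Adj b₁ u) (E : Finset V)
    (hE : ∀ u ∈ E, s u ≠ s b₁)
    (hrest : ∀ b u, s b = s b₁ → b ≠ b₁ → b ≠ b₂ → H.Adj b u → u ∈ E)
    (hcard : E.card ≤ Nat.card {u : V // H.Adj b₂ u}) : GSid H s := by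
  classical
  obtain ⟨c, hc⟩ : ∃ c, s b₁ = !c := ⟨!s b₁, by simp⟩
  have hne : ∀ x : Bool, x ≠ s b₁ ↔ x = c := by
    intro x
    rw [hc]
    cases x <;> cases c <;> decide
  have hne' : ∀ x : Bool, x ≠ c ↔ x = s b₁ := by
    intro x
    rw [hc]
    cases x <;> cases c <;> decide
  have hnb : ∀ b u, s b ≠ c → H.Adj b u → s u = c := by
    intro b u h1 h2
    rw [← hne, ← (hne' _).1 h1]
    exact (hs b u h2).symm
  set D : Finset V := nb H b₁ with hD
  have memD : ∀ u, u ∈ D ↔ H.Adj b₁ u := fun u => mem_nb
  let K : SimpleGraph V := SimpleGraph.fromRel fun u v => (u ∈ D ∧ v ∈ D) ∨ (u ∈ E ∧ v ∈ E)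
  have hKadj : ∀ u v, K.Adj u v ↔ u ≠ v ∧ ((u ∈ D ∧ v ∈ D) ∨ (u ∈ E ∧ v ∈ E)) := by
    intro u v
    simp only [K, SimpleGraph.fromRel_adj]
    tauto
  let i : V → ℕ := fun v => (Fintype.equivFin V v).1
  have hi : ∀ u v, i u = i v → u = v := fun u v h =>
    (Fintype.equivFin V).injective (Fin.ext h)
  have hiN : ∀ u, i u < Fintype.card V := fun u => (Fintype.equivFin V u).2
  let r : V → ℕ := fun v => if v ∈ D ∧ v ∈ E then i v else Fintype.card V + i v
  have r1 : ∀ v, v ∈ D → v ∈ E → r v = i v := fun v h1 h2 => if_pos ⟨h1, h2⟩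
  have r2 : ∀ v, ¬ (v ∈ D ∧ v ∈ E) → r v = Fintype.card V + i v := fun v h => if_neg h
  have hback : ∀ a u, K.Adj a u → r u < r a → (a ∈ D → u ∈ D) ∧ (a ∉ D → u ∈ E) := by
    intro a u hau hlt
    rw [hKadj] at hau
    refine ⟨fun ha => ?_, fun ha => ?_⟩
    · rcases hau.2 with h | h
      · exact h.2
      · by_contra hu
        rw [r1 a ha h.1, r2 u (fun h' => hu h'.1)] at hlt
        have := hiN a
        omega
    · rcases hau.2 with h | h
      · exact absurd h.1 ha
      · exact h.2
  refine chordal_colour hs c K r ?_ ?_ ?_ ?_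
  · intro u v _ _ huv
    by_cases hu : u ∈ D ∧ u ∈ E
    · by_cases hv : v ∈ D ∧ v ∈ E
      · rw [r1 u hu.1 hu.2, r1 v hv.1 hv.2] at huv
        exact hi u v huv
      · rw [r1 u hu.1 hu.2, r2 v hv] at huv
        have := hiN u
        omega
    · by_cases hv : v ∈ D ∧ v ∈ E
      · rw [r2 u hu, r1 v hv.1 hv.2] at huv
        have := hiN v
        omega
      · rw [r2 u hu, r2 v hv] at huv
        exact hi u v (by omega)
  · intro a u v _ _ _ hau hav hu hv huv
    have h1 := hback a u hau hu
    have h2 := hback a v hav hv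
    rw [hKadj]
    refine ⟨huv, ?_⟩
    by_cases ha : a ∈ D
    · exact Or.inl ⟨h1.1 ha, h2.1 ha⟩
    · exact Or.inr ⟨h1.2 ha, h2.2 ha⟩
  · intro b u v hbc hu hv huv
    rw [hKadj]
    refine ⟨huv, ?_⟩
    have hbc' := (hne' _).1 hbc
    by_cases h1 : b = b₁
    · subst h1
      exact Or.inl ⟨(memD u).2 hu, (memD v).2 hv⟩
    · by_cases h2 : b = b₂
      · subst h2
        exact Or.inl ⟨(memD u).2 (hsub u hu), (memD v).2 (hsub v hv)⟩
      · exact Or.inr ⟨hrest b u hbc' h1 h2 hu, hrest b v hbc' h1 h2 hv⟩
  · intro k hk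
    have hcD : Nat.card {u : V // H.Adj b₁ u} = D.card := Nat.subtype_card _ fun u => memD u
    have hle : (Nat.card {u : V // H.Adj b₁ u} - k) + (Nat.card {u : V // H.Adj b₂ u} - k) ≤
        ∑ b ∈ univ.filter (fun b => s b ≠ c), (Nat.card {u : V // H.Adj b u} - k) := by
      have hsubset : ({b₁, b₂} : Finset V) ⊆ univ.filter (fun b => s b ≠ c) := by
        intro x hx
        rw [Finset.mem_insert, Finset.mem_singleton] at hx
        rw [Finset.mem_filter, hne']
        refine ⟨mem_univ _, ?_⟩
        rcases hx with rfl | rfl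
        · rfl
        · exact hbs.symm
      have := Finset.sum_le_sum_of_subset (f := fun b => Nat.card {u : V // H.Adj b u} - k)
        hsubset
      rwa [Finset.sum_pair hb] at this
    refine le_trans ?_ hle
    have hsplit : Nat.card {a : V // s a = c ∧
        k ≤ Nat.card {u : V // s u = c ∧ K.Adj a u ∧ r u < r a}} ≤
        (D.filter fun a => k ≤ (D.filter fun u => r u < r a).card).card +
        (E.filter fun a => k ≤ (E.filter fun u => r u < r a).card).card := by
      rw [Nat.subtype_card (univ.filter fun a => s a = c ∧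
        k ≤ Nat.card {u : V // s u = c ∧ K.Adj a u ∧ r u < r a}) (fun a => by simp)]
      refine le_trans (Finset.card_le_card ?_) (Finset.card_union_le _ _)
      intro a ha
      rw [Finset.mem_filter] at ha
      obtain ⟨_, hac, hak⟩ := ha
      rw [Nat.subtype_card (univ.filter fun u => s u = c ∧ K.Adj a u ∧ r u < r a)
        (fun u => by simp)] at hak
      rw [Finset.mem_union, Finset.mem_filter, Finset.mem_filter]
      by_cases haD : a ∈ D
      · refine Or.inl ⟨haD, hak.trans (Finset.card_le_card ?_)⟩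
        intro u hu
        rw [Finset.mem_filter] at hu ⊢
        exact ⟨(hback a u hu.2.2.1 hu.2.2.2).1 haD, hu.2.2.2⟩
      · have hne0 : (univ.filter fun u => s u = c ∧ K.Adj a u ∧ r u < r a).Nonempty := by
          rw [← Finset.card_pos]
          omega
        obtain ⟨u, hu⟩ := hne0
        rw [Finset.mem_filter, hKadj] at hu
        have haE : a ∈ E := by
          rcases hu.2.2.1.2 with h | h
          · exact absurd h.1 haD
          · exact h.1
        refine Or.inr ⟨haE, hak.trans (Finset.card_le_card ?_)⟩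
        intro u hu
        rw [Finset.mem_filter] at hu ⊢
        exact ⟨(hback a u hu.2.2.1 hu.2.2.2).2 haD, hu.2.2.2⟩
    refine hsplit.trans ?_
    have h1 := count_lt (F := D) (r := r) k
    have h2 := count_lt (F := E) (r := r) k
    rw [hcD]
    omega

end Vale.Agent.P050.Deg
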