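import Vale.Agent.P050.Deg.Union
import Vale.Agent.P050.Deg.Assemble

/-!
Copies with the running intersection property, together with a complete bipartite component.
-/

set_option linter.unusedSectionVars false

namespace Vale.Agent.P050.Deg

open Finset Vale.Agent.P050 Vale.Agent.P050.Lev Vale.Agent.P050.Cart Vale.Agent.P050.Join
  Vale.Agent.P050.Tmpl SimpleGraph

section law

variable {V U Ω : Type} [Fintype V] [DecidableEq V] [Fintype U] [Fintype Ω]
  {m : Bool → U → ℝ} {π : U → U → ℝ} {H : SimpleGraph V} {s : V → Bool} {S : Finset V}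
  {T : Finset V → Prop} {C : V → Finset V → Prop} {L : ℝ} {P : Ω → ℝ} {Z : Ω → V → Option U}

/-- a new star -/
theorem TB.addStar (h : TB m π H s S T C L P Z) (hb : Base m π)
    (hs : ∀ u v, H.Adj u v → s u ≠ s v) {B : Finset V} (hB : T B) (E : Finset V)
    (hES : Disjoint E S) (hE : ∀ e ∈ E, s e = false) (hno : ∀ e ∈ E, ∀ x ∈ S, ¬ H.Adj e x) :
    ∃ (Ω : Type) (_ : Fintype Ω) (P : Ω → ℝ) (Z : Ω → V → Option U),
      TB m π H s (S ∪ E) (fun B' => B' = E) (fun _ _ => False) (L + gk V m π E.card) P Z := by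
  classical
  have hbase := h.bag_mono hB (Finset.empty_subset B)
  induction E using Finset.induction_on with
  | empty =>
    obtain ⟨e⟩ : Nonempty (Ω ≃ Fin (Fintype.card Ω)) := ⟨Fintype.equivFin Ω⟩
    refine ⟨Ω, inferInstance, P, Z, ?_⟩
    rw [Finset.union_empty, Finset.card_empty, gk_zero hb, add_zero]
    exact ⟨h.nonneg, h.total, h.out, h.inn, h.vert, h.edge, h.tc,
      fun D hD => hD ▸ hbase, fun _ _ hC => hC.elim⟩
  | insert w E hw ih =>
    obtain ⟨Ω', i, P', Z', h'⟩ := ih
      ((Finset.disjoint_insert_left.1 hES).2)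
      (fun a ha => hE a (Finset.mem_insert_of_mem ha))
      (fun a ha => hno a (Finset.mem_insert_of_mem ha))
    have hsw := hE w (Finset.mem_insert_self _ _)
    have hwS : w ∉ S := (Finset.disjoint_insert_left.1 hES).1
    have hwSE : w ∉ S ∪ E := by
      rw [Finset.mem_union]
      rintro (h1 | h1)
      · exact hwS h1
      · exact hw h1
    have hno' : ∀ x ∈ S ∪ E, ¬ H.Adj w x := by
      intro x hx h1
      rcases Finset.mem_union.1 hx with hx | hx
      · exact hno w (Finset.mem_insert_self _ _) x hx h1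
      · exact hs _ _ h1 (hsw.trans (hE x (Finset.mem_insert_of_mem hx)).symm)
    have h1 := h'.leaf hb hs hwSE hsw hno' rfl (Finset.Subset.refl E)
    rw [Finset.union_insert]
    refine ⟨Ω' × U, inferInstance, _, _, h1.mono' (fun B hB => Or.inr hB) (fun _ _ h => h) ?_⟩
    rw [Finset.card_insert_of_notMem hw]
    ring

/-- centres of a star -/
theorem TB.addCentres {E : Finset V}
    (h : TB m π H s S (fun B' => B' = E) (fun _ _ => False) L P Z) (hb : Base m π)
    (hs : ∀ u v, H.Adj u v → s u ≠ s v) (R : Finset V)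
    (hRS : Disjoint R S) (hR : ∀ c ∈ R, s c = true) (hadj : ∀ c ∈ R, ∀ x, H.Adj c x ↔ x ∈ E) :
    ∃ (Ω : Type) (_ : Fintype Ω) (P : Ω → ℝ) (Z : Ω → V → Option U),
      TB m π H s (S ∪ R) (fun B' => B' = E) (fun _ _ => False)
        (L - R.card * gk V m π E.card) P Z := by
  classical
  induction R using Finset.induction_on with
  | empty =>
    refine ⟨Ω, inferInstance, P, Z, ?_⟩
    rw [Finset.union_empty, Finset.card_empty]
    simpa using h
  | insert w R hw ih =>
    obtain ⟨Ω', i, P', Z', h'⟩ := ih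
      ((Finset.disjoint_insert_left.1 hRS).2)
      (fun a ha => hR a (Finset.mem_insert_of_mem ha))
      (fun a ha => hadj a (Finset.mem_insert_of_mem ha))
    have hsw := hR w (Finset.mem_insert_self _ _)
    have hwS : w ∉ S := (Finset.disjoint_insert_left.1 hRS).1
    have hwSR : w ∉ S ∪ R := by
      rw [Finset.mem_union]
      rintro (h1 | h1)
      · exact hwS h1
      · exact hw h1
    have h1 := h'.cap hb hs hwSR hsw rfl (Finset.Subset.refl E)
      fun x _ => hadj w (Finset.mem_insert_self _ _) x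
    rw [Finset.union_insert]
    refine ⟨Ω' × U, inferInstance, _, _, ⟨h1.nonneg, h1.total, h1.out, h1.inn, h1.vert, h1.edge,
      ?_, h1.bag, fun _ _ hC => hC.elim⟩⟩
    have h2 := h1.tc
    rw [Finset.card_insert_of_notMem hw]
    push_cast
    linarith

end law

variable {V : Type} [Fintype V] [DecidableEq V] {H : SimpleGraph V} {s : V → Bool}

/-- **Copies with the running intersection property**, and a complete bipartite component with
parts `E`, `R`. -/
theorem core_plus (hs : ∀ u v, H.Adj u v → s u ≠ s v) (A D E R : Finset V) (hAD : Disjoint A D)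
    (hAE : Disjoint A E) (hDE : Disjoint D E)
    (hside : ∀ v, s v = false ↔ v ∈ A ∨ v ∈ D ∨ v ∈ E) (r : V → ℕ)
    (hr : ∀ d ∈ D, ∀ e ∈ D, r d = r e → d = e)
    (hRI : ∀ d ∈ D, ∃ e ∈ D, ∀ b, H.Adj b d → (∃ f ∈ D, r f < r d ∧ H.Adj b f) →
      r e < r d ∧ H.Adj b e)
    (hE : ∀ e ∈ E, ∀ x, H.Adj e x → x ∈ R) (hR : ∀ c ∈ R, s c = true ∧ ∀ x, H.Adj c x ↔ x ∈ E)
    (hEc : E.card = A.card + 1) (j : ℕ) (hRc : R.card = j + 1) (F : Finset V)
    (hF : ∀ b ∈ F, s b = true ∧ b ∉ R ∧ ∀ a ∈ A, H.Adj b a)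
    (hc : D.card ≤ ∑ b ∈ F, (na H D b).card + j) (h1j : 1 ≤ F.card + j) : GSid H s := by
  classical
  refine ⟨hs, ksid_of_sidLaw ?_ ?_⟩
  · intro e he
    unfold sideEdges at he
    exact (Finset.mem_filter.1 he).2.2
  intro U _ m π m0 m1 pi0 row col
  have hb : Base m π := { m0 := m0, m1 := m1, pi0 := pi0, row := row, col := col }
  have hA : ∀ a ∈ A, s a = false := fun a ha => (hside a).2 (Or.inl ha)
  have hDs : ∀ d ∈ D, s d = false := fun d hd => (hside d).2 (Or.inr (Or.inl hd))
  have hEs : ∀ e ∈ E, s e = false := fun d hd => (hside d).2 (Or.inr (Or.inr hd))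
  have hRD : ∀ c ∈ R, ∀ f ∈ D, ¬ H.Adj c f := fun c hc f hf h' =>
    (Finset.disjoint_left.1 hDE) hf (((hR c hc).2 f).1 h')
  obtain ⟨Ω, _, P, Z, h⟩ := TD.stage hb hs hAD hA hDs r hr hRI (univ.sup r + 1)
  have hlt : ∀ d, r d < univ.sup r + 1 := fun d =>
    Nat.lt_succ_of_le (Finset.le_sup (mem_univ d))
  obtain ⟨Ω', _, P', Z', h'⟩ := h.addMany hb hs hAD (fun a ha => mem_sn.2 (Or.inl ha)) hDs
    (univ.filter fun b => s b = true ∧ b ∉ R ∧ ¬ ∃ f ∈ D, H.Adj b f) (by
      intro b hb'
      obtain ⟨_, hsb, _, hnf⟩ := Finset.mem_filter.1 hb'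
      refine ⟨?_, hsb, A, Or.inl rfl, ?_, ?_⟩
      · rw [mem_sn]
        rintro (h' | h' | h')
        · rw [hA b h'] at hsb
          exact absurd hsb (by decide)
        · rw [hDs b h'.1] at hsb
          exact absurd hsb (by decide)
        · obtain ⟨_, f, hf, _, hbf⟩ := h'
          exact hnf ⟨f, hf, hbf⟩
      · intro f hf hfA
        exact absurd hf ((Finset.disjoint_left.1 hAD) hfA)
      · intro x hx hbx
        rcases mem_sn.1 hx with hx | hx | hx
        · exact hx
        · exact absurd ⟨x, hx.1, hbx⟩ hnf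
        · have := hs _ _ hbx
          rw [hsb, hx.1] at this
          exact absurd rfl this)
  set S₁ := sn H s A D r (univ.sup r + 1) ∪
      (univ.filter fun b => s b = true ∧ b ∉ R ∧ ¬ ∃ f ∈ D, H.Adj b f) with hS₁
  have memS : ∀ v, v ∈ S₁ ↔ v ∉ E ∧ v ∉ R := by
    intro v
    rw [hS₁, Finset.mem_union, mem_sn, Finset.mem_filter]
    simp only [mem_univ, true_and]
    constructor
    · rintro ((h1 | h1 | h1) | h1)
      · refine ⟨fun h2 => (Finset.disjoint_left.1 hAE) h1 h2, fun h2 => ?_⟩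
        have := (hR v h2).1
        rw [hA v h1] at this
        exact absurd this (by decide)
      · refine ⟨fun h2 => (Finset.disjoint_left.1 hDE) h1.1 h2, fun h2 => ?_⟩
        have := (hR v h2).1
        rw [hDs v h1.1] at this
        exact absurd this (by decide)
      · obtain ⟨h3, f, hf, _, hvf⟩ := h1
        refine ⟨fun h2 => ?_, fun h2 => hRD v h2 f hf hvf⟩
        rw [hEs v h2] at h3
        exact absurd h3 (by decide)
      · refine ⟨fun h2 => ?_, h1.2.1⟩
        have h3 := h1.1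
        rw [hEs v h2] at h3
        exact absurd h3 (by decide)
    · rintro ⟨h1, h2⟩
      cases hv : s v
      · rcases (hside v).1 hv with h3 | h3 | h3
        · exact Or.inl (Or.inl h3)
        · exact Or.inl (Or.inr (Or.inl ⟨h3, hlt v⟩))
        · exact absurd h3 h1
      · by_cases h3 : ∃ f ∈ D, H.Adj v f
        · obtain ⟨f, hf, hvf⟩ := h3
          exact Or.inl (Or.inr (Or.inr ⟨rfl, f, hf, hlt f, hvf⟩))
        · exact Or.inr ⟨rfl, h2, h3⟩
  clear_value S₁
  -- the complete bipartite component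
  obtain ⟨Ω₂, _, P₂, Z₂, h₂⟩ := h'.tb.addStar hb hs (B := A) (Or.inl rfl) E
    (by
      rw [Finset.disjoint_left]
      exact fun e he hS => ((memS e).1 hS).1 he) hEs
    (fun e he x hx h3 => ((memS x).1 hx).2 (hE e he x h3))
  obtain ⟨Ω₃, _, P₃, Z₃, h₃⟩ := h₂.addCentres hb hs R (by
      rw [Finset.disjoint_left]
      intro c hc hS
      rcases Finset.mem_union.1 hS with hS | hS
      · exact ((memS c).1 hS).2 hc
      · have := (hR c hc).1
        rw [hEs c hS] at this
        exact absurd this (by decide)) (fun c hc => (hR c hc).1) fun c hc => (hR c hc).2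
  have hu : S₁ ∪ E ∪ R = univ := by
    ext v
    simp only [Finset.mem_union, mem_univ, iff_true, memS]
    tauto
  rw [hu] at h₃
  refine (h₃.toTW ?_).sidLaw hb
  -- the debt
  have hAc : A.card + 1 ≤ Fintype.card V := by
    rw [← hEc]
    exact Finset.card_le_univ E
  have hg := gk_nonneg (V := V) hb A.card (by omega)
  have hst := gk_step (V := V) hb A.card hAc
  have hk : ∀ b, (na H A b).card ≤ A.card := fun b =>
    Finset.card_le_card fun x hx => (mem_na.1 hx).1
  have hDS : D ∩ S₁ = D := by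
    rw [Finset.inter_eq_left]
    intro d hd
    rw [memS]
    refine ⟨fun h2 => (Finset.disjoint_left.1 hDE) hd h2, fun h2 => ?_⟩
    have := (hR d h2).1
    rw [hDs d hd] at this
    exact absurd this (by decide)
  unfold lf
  rw [hDS, hEc, hRc]
  set f : V → ℝ := fun b => gk V m π (na H A b).card + ((na H D b).card : ℝ) *
    (gk V m π ((na H A b).card + 1) - gk V m π (na H A b).card) with hf
  have hf0 : ∀ b, 0 ≤ f b := by
    intro b
    have h1 := gk_nonneg (V := V) hb (na H A b).card (by have := hk b; omega)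
    have h2 := gk_step (V := V) hb (na H A b).card (by have := hk b; omega)
    have h3 : (0 : ℝ) ≤ ((na H D b).card : ℝ) := Nat.cast_nonneg _
    simp only [hf]
    nlinarith
  have hsub : F ⊆ S₁.filter (fun b => s b = true) := fun b hb' => by
    obtain ⟨h1, h2, _⟩ := hF b hb'
    rw [Finset.mem_filter, memS]
    refine ⟨⟨fun h3 => ?_, h2⟩, h1⟩
    rw [hEs b h3] at h1
    exact absurd h1 (by decide)
  have h1 : ∑ b ∈ F, f b ≤ ∑ b ∈ S₁.filter (fun b => s b = true), f b :=
    Finset.sum_le_sum_of_subset_of_nonneg hsub fun b _ _ => hf0 b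
  have h2 : ∀ b ∈ F, f b = gk V m π A.card + ((na H D b).card : ℝ) *
      (gk V m π (A.card + 1) - gk V m π A.card) := by
    intro b hb'
    have : na H A b = A := by
      ext x
      rw [mem_na]
      exact ⟨fun h' => h'.1, fun h' => ⟨h', (hF b hb').2.2 x h'⟩⟩
    simp only [hf, this]
  rw [Finset.sum_congr rfl h2, Finset.sum_add_distrib, Finset.sum_const, nsmul_eq_mul,
    ← Finset.sum_mul] at h1
  have h3 : (D.card : ℝ) ≤ ∑ b ∈ F, ((na H D b).card : ℝ) + j := by
    exact_mod_cast hc
  have h4 : (1 : ℝ) ≤ (F.card : ℝ) + j := by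
    exact_mod_cast h1j
  push_cast
  have h5 := mul_le_mul_of_nonneg_right h3 hst
  have h6 := mul_le_mul_of_nonneg_right h4 hg
  linarith

theorem flip_hs' (hs : ∀ u v, H.Adj u v → s u ≠ s v) :
    ∀ u v, H.Adj u v → (fun v => !s v) u ≠ (fun v => !s v) v := fun u v huv h' =>
  hs u v huv (by
    revert h'
    simp only
    cases s u <;> cases s v <;> decide)

theorem card_edgeSet_K (i k : ℕ) :
    Nat.card (completeBipartiteGraph (Fin i) (Fin k)).edgeSet = i * k := by
  have h := encard_edgeSet_completeBipartiteGraph (W₁ := Fin i) (W₂ := Fin k)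
  have h2 : (completeBipartiteGraph (Fin i) (Fin k)).edgeSet.ncard = i * k := by
    rw [Set.ncard_def, h]
    simp
  rwa [← Nat.card_coe_set_eq] at h2

/-- disjoint unions with `K_{j+1,a+1}`, the side `false` -/
theorem plus_false (hs : ∀ u v, H.Adj u v → s u ≠ s v) (D : Finset V)
    (hDs : ∀ d ∈ D, s d = false) (hD : D.Nonempty) (r : V → ℕ)
    (hr : ∀ d ∈ D, ∀ e ∈ D, r d = r e → d = e)
    (hRI : ∀ d ∈ D, ∃ e ∈ D, ∀ b, H.Adj b d → (∃ f ∈ D, r f < r d ∧ H.Adj b f) →
      r e < r d ∧ H.Adj b e) (F : Finset V)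
    (hF : ∀ b ∈ F, s b ≠ false ∧ ∀ a, s a = false → a ∉ D → H.Adj b a) (j a : ℕ)
    (ha : Nat.card {v : V // s v = false ∧ v ∉ D} = a)
    (hc : D.card ≤ ∑ b ∈ F, Nat.card {d : V // d ∈ D ∧ H.Adj b d} + j) :
    GSid (H ⊕g completeBipartiteGraph (Fin (j + 1)) (Fin (a + 1)))
      (Sum.elim s (Sum.elim (fun _ => true) (fun _ => false))) := by
  classical
  have il : Function.Injective (Sum.inl : V → V ⊕ Fin (j + 1) ⊕ Fin (a + 1)) := Sum.inl_injective
  have hcard : ∀ b, Nat.card {d : V // d ∈ D ∧ H.Adj b d} = (na H D b).card := fun b =>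
    Nat.subtype_card _ fun d => mem_na
  have hna : ∀ b, na (H ⊕g completeBipartiteGraph (Fin (j + 1)) (Fin (a + 1))) (D.image Sum.inl)
      (Sum.inl b) = (na H D b).image Sum.inl := by
    intro b
    ext x
    rw [mem_na, Finset.mem_image, Finset.mem_image]
    constructor
    · rintro ⟨⟨d, hd, rfl⟩, h'⟩
      exact ⟨d, mem_na.2 ⟨hd, by simpa using h'⟩, rfl⟩
    · rintro ⟨d, hd, rfl⟩
      have := mem_na.1 hd
      exact ⟨⟨d, this.1, rfl⟩, by simpa using this.2⟩
  refine core_plus (A := (univ.filter fun v => s v = false ∧ v ∉ D).image Sum.inl)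
    (D := D.image Sum.inl) (E := univ.image fun i => Sum.inr (Sum.inr i))
    (R := univ.image fun i => Sum.inr (Sum.inl i)) ?_ ?_ ?_ ?_ ?_ (Sum.elim r fun _ => 0) ?_ ?_ ?_
    ?_ ?_ j ?_ (F.image Sum.inl) ?_ ?_ ?_
  · rintro (u | u | u) (v | v | v) h
    · exact hs u v (by simpa using h)
    · simp at h
    · simp at h
    · simp at h
    · simp at h
    · simp
    · simp at h
    · simp
    · simp at h
  · rw [Finset.disjoint_left]
    intro x hx hx'
    obtain ⟨v, hv, rfl⟩ := Finset.mem_image.1 hx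
    obtain ⟨w, hw, hvw⟩ := Finset.mem_image.1 hx'
    rw [il hvw] at hw
    exact (Finset.mem_filter.1 hv).2.2 hw
  · rw [Finset.disjoint_left]
    intro x hx hx'
    obtain ⟨v, hv, rfl⟩ := Finset.mem_image.1 hx
    obtain ⟨w, hw, hvw⟩ := Finset.mem_image.1 hx'
    exact absurd hvw (by simp)
  · rw [Finset.disjoint_left]
    intro x hx hx'
    obtain ⟨v, hv, rfl⟩ := Finset.mem_image.1 hx
    obtain ⟨w, hw, hvw⟩ := Finset.mem_image.1 hx'
    exact absurd hvw (by simp)
  · rintro (v | v | v)
    · simp only [Sum.elim_inl, Finset.mem_image, Finset.mem_filter, mem_univ, true_and,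
        Sum.inl.injEq, exists_eq_right, reduceCtorEq, exists_const, or_false]
      constructor
      · intro hv
        by_cases hvD : v ∈ D
        · exact Or.inr hvD
        · exact Or.inl ⟨hv, hvD⟩
      · rintro (h | h)
        · exact h.1
        · exact hDs v h
    · simp
    · simp
  · intro d hd e he hde
    obtain ⟨v, hv, rfl⟩ := Finset.mem_image.1 hd
    obtain ⟨w, hw, rfl⟩ := Finset.mem_image.1 he
    rw [hr v hv w hw (by simpa using hde)]
  · intro d hd
    obtain ⟨v, hv, rfl⟩ := Finset.mem_image.1 hd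
    obtain ⟨e, he, hRe⟩ := hRI v hv
    refine ⟨Sum.inl e, Finset.mem_image_of_mem _ he, ?_⟩
    rintro (b | b | b) hb ⟨f, hf, hrf, hbf⟩
    · obtain ⟨f', hf', rfl⟩ := Finset.mem_image.1 hf
      have := hRe b (by simpa using hb) ⟨f', hf', by simpa using hrf, by simpa using hbf⟩
      exact ⟨by simpa using this.1, by simpa using this.2⟩
    · simp at hb
    · simp at hb
  · intro e he x hx
    obtain ⟨i, _, rfl⟩ := Finset.mem_image.1 he
    rcases x with x | x | x
    · simp at hx
    · simp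
    · simp at hx
  · intro c hc'
    obtain ⟨i, _, rfl⟩ := Finset.mem_image.1 hc'
    refine ⟨by simp, ?_⟩
    rintro (x | x | x)
    · simp
    · simp
    · simp
  · rw [Finset.card_image_of_injective _ il, Finset.card_image_of_injective _
      (fun x y h => Sum.inr_injective (Sum.inr_injective h)), Finset.card_univ, Fintype.card_fin,
      ← ha, Nat.subtype_card (univ.filter fun v => s v = false ∧ v ∉ D) (fun v => by simp)]
  · rw [Finset.card_image_of_injective _
      (fun x y h => Sum.inl_injective (Sum.inr_injective h)), Finset.card_univ, Fintype.card_fin]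
  · intro b hb
    obtain ⟨v, hv, rfl⟩ := Finset.mem_image.1 hb
    refine ⟨?_, by simp, ?_⟩
    · have := (hF v hv).1
      simp only [Sum.elim_inl]
      cases h : s v
      · exact absurd h this
      · rfl
    · intro x hx
      obtain ⟨w, hw, rfl⟩ := Finset.mem_image.1 hx
      have := (Finset.mem_filter.1 hw).2
      simpa using (hF v hv).2 w this.1 this.2
  · rw [Finset.card_image_of_injective _ il, Finset.sum_image fun x _ y _ h => il h]
    simp only [hna, Finset.card_image_of_injective _ il]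
    simp only [hcard] at hc
    exact hc
  · rw [Finset.card_image_of_injective _ il]
    by_contra h'
    have h1 : F.card = 0 := by omega
    have h2 : j = 0 := by omega
    rw [Finset.card_eq_zero] at h1
    rw [h1, h2, Finset.sum_empty] at hc
    have := Finset.card_pos.2 hD
    omega

/-- **Disjoint unions with `K_{j+1,a+1}`**, either side. -/
theorem plus_gsid (hs : ∀ u v, H.Adj u v → s u ≠ s v) (c : Bool) (D : Finset V)
    (hDs : ∀ d ∈ D, s d = c) (hD : D.Nonempty) (r : V → ℕ)
    (hr : ∀ d ∈ D, ∀ e ∈ D, r d = r e → d = e)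
    (hRI : ∀ d ∈ D, ∃ e ∈ D, ∀ b, H.Adj b d → (∃ f ∈ D, r f < r d ∧ H.Adj b f) →
      r e < r d ∧ H.Adj b e) (F : Finset V)
    (hF : ∀ b ∈ F, s b ≠ c ∧ ∀ a, s a = c → a ∉ D → H.Adj b a) (j a : ℕ)
    (ha : Nat.card {v : V // s v = c ∧ v ∉ D} = a)
    (hc : D.card ≤ ∑ b ∈ F, Nat.card {d : V // d ∈ D ∧ H.Adj b d} + j) :
    GSid (H ⊕g completeBipartiteGraph (Fin (j + 1)) (Fin (a + 1)))
      (Sum.elim s (Sum.elim (fun _ => !c) (fun _ => c))) := by
  cases c with
  | false => exact plus_false hs D hDs hD r hr hRI F hF j a ha hc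
  | true =>
    have e : ∀ u, ((!s u) = false) ↔ (s u = true) := fun u => by cases s u <;> decide
    have e' : ∀ u, ((!s u) ≠ false) ↔ (s u ≠ true) := fun u => by cases s u <;> decide
    have h := plus_false (H := H) (s := fun v => !s v) (flip_hs' hs) D
      (fun d hd => (e d).2 (hDs d hd)) hD r hr hRI F
      (fun b hb => ⟨(e' b).2 (hF b hb).1, fun a ha => (hF b hb).2 a ((e a).1 ha)⟩) j a
      (by simpa only [e] using ha) hc
    have h2 := GSid.flip h
    refine (congrArg (GSid _) (funext fun v => ?_)).mp h2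
    rcases v with v | v | v <;> simp

/-- **A lower bound.** -/
theorem plus_ineq (hs : ∀ u v, H.Adj u v → s u ≠ s v) (c : Bool) (D : Finset V)
    (hDs : ∀ d ∈ D, s d = c) (hD : D.Nonempty) (r : V → ℕ)
    (hr : ∀ d ∈ D, ∀ e ∈ D, r d = r e → d = e)
    (hRI : ∀ d ∈ D, ∃ e ∈ D, ∀ b, H.Adj b d → (∃ f ∈ D, r f < r d ∧ H.Adj b f) →
      r e < r d ∧ H.Adj b e) (F : Finset V)
    (hF : ∀ b ∈ F, s b ≠ c ∧ ∀ a, s a = c → a ∉ D → H.Adj b a) (j a : ℕ)
    (ha : Nat.card {v : V // s v = c ∧ v ∉ D} = a)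
    (hc : D.card ≤ ∑ b ∈ F, Nat.card {d : V // d ∈ D ∧ H.Adj b d} + j)
    (U : Type) [Finite U] [Nonempty U] (X : SimpleGraph U) :
    edgeDensity X ^ (Nat.card H.edgeSet + (j + 1) * (a + 1)) ≤ homDensity H X *
      homDensity (completeBipartiteGraph (Fin (j + 1)) (Fin (a + 1))) X := by
  have h := sidorenko_of_gsid (plus_gsid hs c D hDs hD r hr hRI F hF j a ha hc) X
  rwa [card_edgeSet_sum, card_edgeSet_K, homDensity_sum] at h

end Vale.Agent.P050.Deg
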