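import Vale.Agent.P050.Deg.Cycle

/-!
At least `(m - 1) (n - 1)` edges.
-/

set_option linter.unusedSectionVars false

namespace Vale.Agent.P050.Deg

open Finset Vale.Agent.P050.Lev Vale.Agent.P050.Cart Vale.Agent.P050.Join Vale.Agent.P050.Tmpl

variable {V : Type} [Fintype V] [DecidableEq V] {H : SimpleGraph V} {s : V → Bool}

theorem comp_clo (c : (bcompl H s).ConnectedComponent) : ∀ u ∈ c.supp, ∀ v ∈ nn H s u,
    v ∈ c.supp := by
  intro u hu v hv
  rw [mem_nn'] at hv
  rw [SimpleGraph.ConnectedComponent.mem_supp_iff] at hu ⊢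
  rw [← hu]
  exact (SimpleGraph.ConnectedComponent.sound hv.reachable).symm

/-- closed sets contain the components they meet -/
theorem supp_sub (c : (bcompl H s).ConnectedComponent) (K : Finset V)
    (hK : ∀ u ∈ K, ∀ v ∈ nn H s u, v ∈ K) {a : V} (ha : a ∈ c.supp) (haK : a ∈ K) :
    ∀ v ∈ c.supp, v ∈ K := by
  have key : ∀ u v : V, (bcompl H s).Walk u v → u ∈ K → v ∈ K := by
    intro u v p
    induction p with
    | nil => exact id
    | cons h _ ih => exact fun hu => ih (hK _ hu _ (mem_nn'.2 h))
  intro v hv
  rw [SimpleGraph.ConnectedComponent.mem_supp_iff] at ha hv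
  obtain ⟨p⟩ := SimpleGraph.ConnectedComponent.exact (ha.trans hv.symm)
  exact key a v p haK

theorem bne_iff {a b : V} : s a ≠ s b ↔ s a = !s b := by
  cases s a <;> cases s b <;> decide

/-- vertices of different colours, one in the component and the other not, are adjacent -/
theorem adj_out (c : (bcompl H s).ConnectedComponent) {u v : V} (hu : u ∈ c.supp)
    (hv : v ∉ c.supp) (h : s v ≠ s u) : H.Adj u v := by
  by_contra h'
  exact hv (comp_clo c u hu v (mem_nn.2 ⟨h, h'⟩))

/-- **A 2-regular component with fewer than ten vertices** of the bipartite complement. -/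
theorem reg_comp (hs : ∀ u v, H.Adj u v → s u ≠ s v) (c : (bcompl H s).ConnectedComponent)
    (hd : ∀ w ∈ c.supp, (nn H s w).card = 2) (hc : Nat.card c.supp < 10)
    (hch : Nat.card c.supp = 4 → ∃ c' : (bcompl H s).ConnectedComponent, c' ≠ c ∧
      Chain H s c'.supp) : GSid H s := by
  classical
  set T : Finset V := univ.filter fun a => a ∈ c.supp with hT
  have memT : ∀ v, v ∈ T ↔ v ∈ c.supp := fun v => by simp [hT]
  set K : Bool → Finset V := fun b => T.filter fun v => s v = b with hK
  have memK : ∀ b v, v ∈ K b ↔ v ∈ c.supp ∧ s v = b := fun b v => by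
    rw [hK, Finset.mem_filter, memT]
  have hsub : ∀ w ∈ c.supp, nn H s w ⊆ K (!s w) := fun w hw v hv =>
    (memK _ v).2 ⟨comp_clo c w hw v hv, bne_iff.1 (mem_nn.1 hv).1⟩
  -- both sides have the same number of vertices
  have hkk : (K false).card = (K true).card := by
    have h1 := Finset.sum_card_bipartiteAbove_eq_sum_card_bipartiteBelow
      (s := K false) (t := K true) (fun a b => b ∈ nn H s a)
    have h2 : ∀ a ∈ K false, ((K true).bipartiteAbove (fun a b => b ∈ nn H s a) a).card = 2 := by
      intro a ha
      obtain ⟨ha1, ha2⟩ := (memK _ a).1 ha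
      rw [← hd a ha1]
      congr 1
      ext b
      rw [Finset.mem_bipartiteAbove]
      refine ⟨fun h => h.2, fun h => ⟨?_, h⟩⟩
      have := hsub a ha1 h
      rwa [ha2] at this
    have h3 : ∀ b ∈ K true, ((K false).bipartiteBelow (fun a b => b ∈ nn H s a) b).card = 2 := by
      intro b hb
      obtain ⟨hb1, hb2⟩ := (memK _ b).1 hb
      rw [← hd b hb1]
      congr 1
      ext a
      rw [Finset.mem_bipartiteBelow, nn_symm]
      refine ⟨fun h => h.2, fun h => ⟨?_, h⟩⟩
      have := hsub b hb1 h
      rwa [hb2] at this
    rw [Finset.sum_congr rfl h2, Finset.sum_congr rfl h3, Finset.sum_const, Finset.sum_const,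
      smul_eq_mul, smul_eq_mul] at h1
    omega
  have hKk : ∀ b, (K b).card = (K false).card := by
    intro b
    cases b
    · rfl
    · exact hkk.symm
  have hTc : T.card = (K false).card + (K true).card := by
    have h1 := Finset.card_filter_add_card_filter_not (s := T) (fun w => s w = false)
    have h2 : (T.filter fun w => ¬ s w = false) = T.filter fun w => s w = true := by
      refine Finset.filter_congr fun w _ => ?_
      cases s w <;> decide
    rw [h2] at h1
    exact h1.symm
  have hTn : Nat.card c.supp = T.card := Nat.subtype_card _ fun v => memT v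
  obtain ⟨w₀, hw₀⟩ := c.nonempty_supp
  have hk2 : 2 ≤ (K false).card := by
    rw [← hKk (!s w₀), ← hd w₀ hw₀]
    exact Finset.card_le_card (hsub w₀ hw₀)
  have hk4 : (K false).card ≤ 4 := by omega
  obtain h | h | h : (K false).card = 2 ∨ (K false).card = 3 ∨ (K false).card = 4 := by omega
  · -- a cycle of length four
    have hall : ∀ w ∈ c.supp, nn H s w = K (!s w) := fun w hw =>
      Finset.eq_of_subset_of_card_le (hsub w hw) (by rw [hKk, h, hd w hw])
    obtain ⟨c', hne, hch⟩ := hch (by omega)
    refine two_comp hs c c' hne.symm ?_ hch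
    intro a b a' b' ha ha' haa _ hb'
    left
    rw [← mem_nn'] at hb' ⊢
    rw [hall a ha, haa, ← hall a' ha']
    exact hb'
  · -- a cycle of length six
    have memF : ∀ v, v ∈ K false ↔ v ∈ c.supp ∧ s v = false := memK false
    obtain ⟨r, hr⟩ : ∃ r : V → ℕ, Function.Injective r := ⟨fun v => (Fintype.equivFin V v).1,
      fun a b h => (Fintype.equivFin V).injective (Fin.ext h)⟩
    refine core_colour hs false (K false) (fun d hd' => ((memF d).1 hd').2)
      (by rw [← Finset.card_pos]; omega) r (fun d _ e _ hde => hr hde) ?_ (K true) ?_ ?_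
    · intro d hdK
      by_cases hex : ∃ e ∈ K false, r e < r d
      · obtain ⟨e, he, hre⟩ := hex
        refine ⟨e, he, fun b hbd => ?_⟩
        rintro ⟨f, hf, hrf, hbf⟩
        refine ⟨hre, ?_⟩
        have hdf : d ≠ f := fun h' => by
          rw [h'] at hrf
          exact lt_irrefl _ hrf
        have sb : s b = true := by
          have := hs _ _ hbd
          rw [((memF d).1 hdK).2] at this
          cases hb : s b
          · exact absurd hb this
          · rfl
        have hbc : b ∉ c.supp := by
          intro hbc
          have h1 : nn H s b ⊆ ((K false).erase d).erase f := by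
            intro x hx
            rw [Finset.mem_erase, Finset.mem_erase]
            refine ⟨?_, ?_, ?_⟩
            · rintro rfl
              exact (mem_nn.1 hx).2 hbf
            · rintro rfl
              exact (mem_nn.1 hx).2 hbd
            · have := hsub b hbc hx
              rwa [sb] at this
          have h2 := Finset.card_le_card h1
          rw [Finset.card_erase_of_mem (Finset.mem_erase.2 ⟨hdf.symm, hf⟩),
            Finset.card_erase_of_mem hdK, h, hd b hbc] at h2
          omega
        refine (adj_out c ((memF e).1 he).1 hbc ?_).symm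
        rw [sb, ((memF e).1 he).2]
        decide
      · refine ⟨d, hdK, ?_⟩
        rintro b _ ⟨f, hf, hrf, _⟩
        exact absurd ⟨f, hf, hrf⟩ hex
    · intro b hb
      obtain ⟨hb1, hb2⟩ := (memK _ b).1 hb
      refine ⟨by rw [hb2]; decide, fun a ha haK => ?_⟩
      refine adj_out c hb1 (fun hac => haK ((memF a).2 ⟨hac, ha⟩)) ?_
      rw [ha, hb2]
      decide
    · have h1 : ∀ b ∈ K true, 1 ≤ Nat.card {d : V // d ∈ K false ∧ H.Adj b d} := by
        intro b hb
        obtain ⟨hb1, hb2⟩ := (memK _ b).1 hb
        have h2 : (nn H s b).card < (K false).card := by rw [hd b hb1, h]; decide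
        obtain ⟨d, hd1, hd2⟩ := Finset.exists_mem_notMem_of_card_lt_card h2
        have h3 : H.Adj b d := by
          by_contra h'
          refine hd2 (mem_nn.2 ⟨?_, h'⟩)
          rw [((memF d).1 hd1).2, hb2]
          decide
        have : Nonempty {d : V // d ∈ K false ∧ H.Adj b d} := ⟨⟨d, hd1, h3⟩⟩
        exact Nat.card_pos
      have h2 := Finset.sum_le_sum h1
      rw [Finset.sum_const, smul_eq_mul, mul_one] at h2
      rw [hkk]
      exact h2
  · -- a cycle of length eight
    have hdiff : ∀ w ∈ c.supp, ∀ x, x ∈ K (!s w) \ nn H s w ↔ x ∈ c.supp ∧ H.Adj w x := by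
      intro w hw x
      rw [Finset.mem_sdiff, memK]
      constructor
      · rintro ⟨⟨h1, h2⟩, h3⟩
        refine ⟨h1, ?_⟩
        by_contra h4
        exact h3 (mem_nn.2 ⟨bne_iff.2 h2, h4⟩)
      · rintro ⟨h1, h2⟩
        exact ⟨⟨h1, bne_iff.1 (hs _ _ h2.symm)⟩, fun h3 => (mem_nn.1 h3).2 h2⟩
    have hdc : ∀ w ∈ c.supp, (K (!s w) \ nn H s w).card = 2 := by
      intro w hw
      rw [Finset.card_sdiff_of_subset (hsub w hw), hKk, h, hd w hw]
    have hcf : ∀ b : Bool, (univ.filter fun w : (T : Set V) => s (w : V) = b).card = 4 := by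
      intro b
      rw [← h, ← hKk b]
      refine Finset.card_bij (fun a _ => (a : V)) ?_ ?_ ?_
      · intro a ha
        exact (memK _ _).2 ⟨(memT _).1 a.2, (Finset.mem_filter.1 ha).2⟩
      · intro a _ b _ hab
        exact Subtype.ext hab
      · intro v hv
        obtain ⟨h1, h2⟩ := (memK _ v).1 hv
        exact ⟨⟨v, (memT v).2 h1⟩, by rw [Finset.mem_filter]; exact ⟨mem_univ _, h2⟩, rfl⟩
    have hadjT : ∀ u v, u ∉ T → v ∈ T → s u ≠ s v → H.Adj u v := fun u v hu hv huv =>
      (adj_out c ((memT v).1 hv) (fun h' => hu ((memT u).2 h')) huv).symm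
    refine join_plus hs T ?_ ?_ ?_ ?_ ?_
    · intro u hu hsu v hv hsv
      exact hadjT u v hu hv (by rw [hsu, hsv]; decide)
    · intro u hu hsu
      left
      intro v hv hsv
      exact hadjT u v hu hv (by rw [hsu, hsv]; decide)
    · refine eight_gsid (fun u v huv => hs _ _ huv) ?_ hcf ?_
      · rintro ⟨w, hw⟩
        have hw' := (memT w).1 hw
        obtain ⟨p, q, hpq, he⟩ := Finset.card_eq_two.1 (hdc w hw')
        have hp : p ∈ c.supp := ((hdiff w hw' p).1 (by rw [he]; simp)).1
        have hq : q ∈ c.supp := ((hdiff w hw' q).1 (by rw [he]; simp)).1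
        refine ⟨⟨p, (memT p).2 hp⟩, ⟨q, (memT q).2 hq⟩, fun h' => hpq (congrArg Subtype.val h'),
          ?_⟩
        rintro ⟨x, hx⟩
        rw [Subtype.mk.injEq, Subtype.mk.injEq]
        have h1 := hdiff w hw' x
        rw [he, Finset.mem_insert, Finset.mem_singleton] at h1
        rw [h1]
        exact ⟨fun h2 => ⟨(memT x).1 hx, h2⟩, fun h2 => h2.2⟩
      · rintro ⟨a, ha⟩ ⟨a', ha'⟩ ⟨b, hb⟩ ⟨b', hb'⟩ haa hbb h1 h2 h3 h4
        have haa' : a ≠ a' := fun h' => haa (Subtype.ext h')
        have hbb' : b ≠ b' := fun h' => hbb (Subtype.ext h')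
        have h1 : H.Adj a b := h1
        have h2 : H.Adj a b' := h2
        have h3 : H.Adj a' b := h3
        have h4 : H.Adj a' b' := h4
        have cas := (memT a).1 ha
        have cas' := (memT a').1 ha'
        have cbs := (memT b).1 hb
        have cbs' := (memT b').1 hb'
        have saa : s a' = s a := by
          have e1 := bne_iff.1 (hs _ _ h1)
          have e2 := bne_iff.1 (hs _ _ h3)
          rw [e1, e2]
        have sbb : s b' = s b := by
          have e1 := bne_iff.1 (hs _ _ h1.symm)
          have e2 := bne_iff.1 (hs _ _ h2.symm)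
          rw [e1, e2]
        have sab : (!s a) = s b := (bne_iff.1 (hs _ _ h1.symm)).symm
        have sba : (!s b) = s a := (bne_iff.1 (hs _ _ h1)).symm
        -- the co-neighbours
        have tw : ∀ (c₁ : Bool) (x y z : V), x ∈ c.supp → (!s x) = c₁ → y ∈ K c₁ → z ∈ K c₁ →
            y ≠ z → H.Adj x y → H.Adj x z → nn H s x = ((K c₁).erase y).erase z := by
          intro c₁ x y z hx hx1 hy hz hyz hxy hxz
          refine Finset.eq_of_subset_of_card_le ?_ ?_
          · intro v hv
            rw [Finset.mem_erase, Finset.mem_erase]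
            refine ⟨?_, ?_, ?_⟩
            · rintro rfl
              exact (mem_nn.1 hv).2 hxz
            · rintro rfl
              exact (mem_nn.1 hv).2 hxy
            · have := hsub x hx hv
              rwa [hx1] at this
          · rw [Finset.card_erase_of_mem (Finset.mem_erase.2 ⟨hyz.symm, hz⟩),
              Finset.card_erase_of_mem hy, hKk, h, hd x hx]
        have kb : b ∈ K (s b) := (memK _ _).2 ⟨cbs, rfl⟩
        have kb' : b' ∈ K (s b) := (memK _ _).2 ⟨cbs', sbb⟩
        have ka : a ∈ K (s a) := (memK _ _).2 ⟨cas, rfl⟩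
        have ka' : a' ∈ K (s a) := (memK _ _).2 ⟨cas', saa⟩
        have na1 := tw (s b) a b b' cas sab kb kb' hbb' h1 h2
        have na2 := tw (s b) a' b b' cas' (by rw [saa]; exact sab) kb kb' hbb' h3 h4
        have h5 : ∀ v ∈ nn H s a, nn H s v = {a, a'} := by
          intro v hv
          have hv' : v ∈ c.supp := comp_clo c a cas v hv
          symm
          refine Finset.eq_of_subset_of_card_le ?_ ?_
          · intro x hx
            rw [Finset.mem_insert, Finset.mem_singleton] at hx
            rcases hx with rfl | rfl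
            · exact nn_symm.1 hv
            · rw [nn_symm, na2, ← na1]
              exact hv
          · rw [hd v hv', Finset.card_pair haa']
        have h6 := supp_sub c ({a, a'} ∪ nn H s a) (by
          intro u hu v hv
          rw [Finset.mem_union, Finset.mem_insert, Finset.mem_singleton] at hu ⊢
          rcases hu with (rfl | rfl) | hu
          · exact Or.inr hv
          · right
            rw [na1, ← na2]
            exact hv
          · left
            have := h5 u hu
            rw [this, Finset.mem_insert, Finset.mem_singleton] at hv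
            exact hv) cas (by simp) b cbs
        rw [Finset.mem_union, Finset.mem_insert, Finset.mem_singleton] at h6
        rcases h6 with (h6 | h6) | h6
        · rw [h6] at h1
          exact H.irrefl h1
        · rw [h6] at h3
          exact H.irrefl h3
        · exact (mem_nn.1 h6).2 h1
    · have h1 : 0 < (K (!s w₀) \ nn H s w₀).card := by
        rw [hdc w₀ hw₀]
        decide
      obtain ⟨x, hx⟩ := Finset.card_pos.1 h1
      obtain ⟨h2, h3⟩ := (hdiff w₀ hw₀ x).1 hx
      exact ⟨w₀, (memT _).2 hw₀, x, (memT _).2 h2, h3⟩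
    · intro b
      have h1 := missing (H := H.induce (T : Set V)) (s := fun v => s (v : V))
        fun u v huv => hs _ _ huv
      rw [hcf, hcf] at h1
      have h2 : ∑ a ∈ univ.filter (fun a : (T : Set V) => s (a : V) = false),
          (nn (H.induce (T : Set V)) (fun v => s (v : V)) a).card ≤
          ∑ a ∈ univ.filter (fun a : (T : Set V) => s (a : V) = false), 2 := by
        refine Finset.sum_le_sum fun a _ => ?_
        rw [← hd (a : V) ((memT _).1 a.2)]
        refine Finset.card_le_card_of_injOn (fun v => (v : V)) ?_ ?_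
        · intro v hv
          obtain ⟨h3, h4⟩ := mem_nn.1 (Finset.mem_coe.1 hv)
          exact Finset.mem_coe.2 (mem_nn.2 ⟨h3, h4⟩)
        · intro v _ w _ hvw
          exact Subtype.ext hvw
      rw [Finset.sum_const, hcf, smul_eq_mul] at h2
      have h3 : (T.filter fun v => s v = b).card = 4 := by
        have := hKk b
        rw [h] at this
        exact this
      rw [h3]
      omega

/-- a component with two vertices -/
theorem two_supp (c : (bcompl H s).ConnectedComponent) (hc : Nat.card c.supp = 2) :
    ∀ w ∈ c.supp, (nn H s w).card ≤ 1 := by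
  classical
  intro w hw
  have h1 : Nat.card c.supp = (univ.filter fun a => a ∈ c.supp).card :=
    Nat.subtype_card _ fun v => by simp
  have h2 : nn H s w ⊆ (univ.filter fun a => a ∈ c.supp).erase w := by
    intro v hv
    rw [Finset.mem_erase, Finset.mem_filter]
    refine ⟨?_, mem_univ _, comp_clo c w hw v hv⟩
    rintro rfl
    exact (mem_nn.1 hv).1 rfl
  have h3 := Finset.card_le_card h2
  rw [Finset.card_erase_of_mem (Finset.mem_filter.2 ⟨mem_univ _, hw⟩), ← h1, hc] at h3
  exact h3

/-- **At least `(m - 1) (n - 1)` edges.** Let `H` have at least `(m - 1) (n - 1)` edges, `m`, `n` the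
numbers of vertices of the two parts. Then `H` satisfies the two-sided Sidorenko inequality, unless
its bipartite complement consists of one component with two vertices and of at least one cycle, all
these cycles with at least ten vertices. -/
theorem dense_prod (hs : ∀ u v, H.Adj u v → s u ≠ s v)
    (h : (univ.filter fun v => s v = false).card * (univ.filter fun v => s v = true).card + 1 ≤
      Nat.card H.edgeSet + Fintype.card V)
    (hK : ¬ ((∃! c : (bcompl H s).ConnectedComponent, Nat.card c.supp = 2) ∧
      (∃ c : (bcompl H s).ConnectedComponent, Nat.card c.supp ≠ 2) ∧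
      ∀ c : (bcompl H s).ConnectedComponent, Nat.card c.supp = 2 ∨ (10 ≤ Nat.card c.supp ∧
        ∀ v ∈ c.supp, Nat.card {u : V // (bcompl H s).Adj v u} = 2))) : GSid H s := by
  classical
  by_contra hG
  have c0 : ∀ v, (nn H s v).Nonempty := fun v => by
    by_contra h'
    exact hG (dom_any hs (Finset.not_nonempty_iff_eq_empty.1 h'))
  have c2 : ∀ q₁ q₂, q₁ ≠ q₂ → s q₁ = s q₂ → (nn H s q₁).card ≤ 1 → 2 ≤ (nn H s q₂).card := by
    intro q₁ q₂ hq hqq h1
    by_contra h'
    exact hG (two_few hs hq hqq h1 (by omega))
  obtain ⟨c₂, hc₂⟩ : ∃ c : (bcompl H s).ConnectedComponent, Nat.card c.supp = 2 := by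
    by_contra h'
    push Not at h'
    exact hG (dense_sum hs h h')
  obtain ⟨u, hu⟩ := c₂.nonempty_supp
  obtain ⟨v, hv⟩ := c0 u
  have hvc := comp_clo c₂ u hu v hv
  have suv : s v ≠ s u := (mem_nn.1 hv).1
  have huv : u ≠ v := fun h' => suv (by rw [h'])
  have hsupp : ∀ w ∈ c₂.supp, w = u ∨ w = v := by
    have h1 : Nat.card c₂.supp = (univ.filter fun a => a ∈ c₂.supp).card :=
      Nat.subtype_card _ fun v => by simp
    have h2 : ({u, v} : Finset V) ⊆ univ.filter fun a => a ∈ c₂.supp := by
      intro x hx
      rw [Finset.mem_insert, Finset.mem_singleton] at hx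
      rw [Finset.mem_filter]
      rcases hx with rfl | rfl
      · exact ⟨mem_univ _, hu⟩
      · exact ⟨mem_univ _, hvc⟩
    have h3 := Finset.eq_of_subset_of_card_le h2 (by rw [← h1, hc₂, Finset.card_pair huv])
    intro w hw
    have h4 : w ∈ univ.filter fun a => a ∈ c₂.supp := by
      rw [Finset.mem_filter]
      exact ⟨mem_univ _, hw⟩
    rw [← h3, Finset.mem_insert, Finset.mem_singleton] at h4
    exact h4
  have hside : ∀ b, ∃ w ∈ c₂.supp, s w = b := by
    intro b
    by_cases hb : s u = b
    · exact ⟨u, hu, hb⟩
    · refine ⟨v, hvc, ?_⟩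
      revert suv hb
      cases s u <;> cases s v <;> cases b <;> decide
  -- the sums of the co-degrees
  set S : Bool → ℕ := fun b => ∑ a ∈ univ.filter (fun a => s a = b), (nn H s a).card with hS
  set k : Bool → ℕ := fun b => (univ.filter fun v => s v = b).card with hk
  have hSe : ∀ b, S b + Nat.card H.edgeSet = k false * k true := by
    intro b
    cases b
    · exact missing hs
    · have h1 := missing (flip_hs hs)
      have e1 : ∀ b : Bool, (univ.filter fun v => (!s v) = b) = univ.filter fun v => s v = !b := by
        intro b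
        refine Finset.filter_congr fun v _ => ?_
        cases s v <;> cases b <;> decide
      rw [e1, e1] at h1
      simp only [Bool.not_false, Bool.not_true, nn_flip] at h1
      rw [mul_comm]
      exact h1
  have hV : Fintype.card V = k false + k true := by
    have h1 := Finset.card_filter_add_card_filter_not (s := (univ : Finset V)) (fun w => s w = false)
    have h2 : (univ.filter fun w => ¬ s w = false) = univ.filter fun w => s w = true := by
      refine Finset.filter_congr fun w _ => ?_
      cases s w <;> decide
    rw [h2, Finset.card_univ] at h1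
    exact h1.symm
  have low : ∀ b, 2 * k b ≤ S b + 1 := by
    intro b
    obtain ⟨w, hw, sw⟩ := hside b
    have h1 : ∀ x ∈ univ.filter (fun a => s a = b), 2 ≤ (nn H s x).card +
        (if x = w then 1 else 0) := by
      intro x hx
      have sx := (Finset.mem_filter.1 hx).2
      split_ifs with hxw
      · have := Finset.card_pos.2 (c0 x)
        omega
      · have := c2 w x (Ne.symm hxw) (by rw [sw, sx]) (two_supp c₂ hc₂ w hw)
        omega
    have h2 := Finset.sum_le_sum h1
    rw [Finset.sum_const, smul_eq_mul, Finset.sum_add_distrib, Finset.sum_ite_eq',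
      if_pos (by rw [Finset.mem_filter]; exact ⟨mem_univ _, sw⟩)] at h2
    simp only [hS, hk]
    omega
  have hdeg : ∀ x, x ∉ c₂.supp → (nn H s x).card = 2 := by
    intro x₀ hx₀
    obtain ⟨w, hw, sw⟩ := hside (s x₀)
    have hwx : w ≠ x₀ := fun h' => hx₀ (h' ▸ hw)
    have hge := c2 w x₀ hwx sw (two_supp c₂ hc₂ w hw)
    by_contra hne
    have h1 : ∀ x ∈ univ.filter (fun a => s a = s x₀), 2 + (if x = x₀ then 1 else 0) ≤
        (nn H s x).card + (if x = w then 1 else 0) := by
      intro x hx
      have sx := (Finset.mem_filter.1 hx).2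
      by_cases hxx : x = x₀
      · subst hxx
        rw [if_pos rfl, if_neg hwx.symm]
        omega
      · rw [if_neg hxx]
        split_ifs with hxw
        · have := Finset.card_pos.2 (c0 x)
          omega
        · have := c2 w x (Ne.symm hxw) (by rw [sw, sx]) (two_supp c₂ hc₂ w hw)
          omega
    have h2 := Finset.sum_le_sum h1
    rw [Finset.sum_add_distrib, Finset.sum_const, smul_eq_mul, Finset.sum_add_distrib,
      Finset.sum_ite_eq', Finset.sum_ite_eq',
      if_pos (by rw [Finset.mem_filter]; exact ⟨mem_univ _, rfl⟩),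
      if_pos (by rw [Finset.mem_filter]; exact ⟨mem_univ _, sw⟩)] at h2
    have h3 : 2 * k (s x₀) + 1 ≤ S (s x₀) + 1 := by
      simp only [hS, hk]
      omega
    have h4 := low false
    have h5 := low true
    have h6 := hSe false
    have h7 := hSe true
    have h8 : k false * k true + 1 ≤ Nat.card H.edgeSet + (k false + k true) := by
      rw [← hV]
      exact h
    cases hb : s x₀
    · rw [hb] at h3
      omega
    · rw [hb] at h3
      omega
  have hout : ∀ c : (bcompl H s).ConnectedComponent, c ≠ c₂ → ∀ w ∈ c.supp, w ∉ c₂.supp := by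
    intro c hne w hw hw'
    rw [SimpleGraph.ConnectedComponent.mem_supp_iff] at hw hw'
    exact hne (hw.symm.trans hw')
  have uniq : ∀ c : (bcompl H s).ConnectedComponent, Nat.card c.supp = 2 → c = c₂ := by
    intro c hc
    by_contra hne
    obtain ⟨w, hw⟩ := c.nonempty_supp
    have h1 := two_supp c hc w hw
    rw [hdeg w (hout c hne w hw)] at h1
    omega
  refine hK ⟨⟨c₂, hc₂, uniq⟩, ?_, ?_⟩
  · by_contra hall
    push Not at hall
    refine hG (gsid_of_no_edge fun x y hxy => ?_)
    have hin : ∀ w, w ∈ c₂.supp := by
      intro w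
      have h1 := uniq _ (hall ((bcompl H s).connectedComponentMk w))
      rw [SimpleGraph.ConnectedComponent.mem_supp_iff]
      exact h1
    have hno := (mem_nn.1 hv).2
    have sxy := hs x y hxy
    rcases hsupp x (hin x) with rfl | rfl <;> rcases hsupp y (hin y) with rfl | rfl
    · exact sxy rfl
    · exact hno hxy
    · exact hno hxy.symm
    · exact sxy rfl
  · intro c
    by_cases hc : Nat.card c.supp = 2
    · exact Or.inl hc
    · right
      have hne : c ≠ c₂ := fun h' => hc (h' ▸ hc₂)
      refine ⟨?_, fun w hw => ?_⟩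
      · by_contra hlt
        refine hG (reg_comp hs c (fun w hw => hdeg w (hout c hne w hw)) (by omega)
          fun _ => ⟨c₂, hne.symm, ?_⟩)
        intro a b a' b' ha ha' haa _ hb'
        left
        have : a = a' := by
          rcases hsupp a ha with rfl | rfl <;> rcases hsupp a' ha' with rfl | rfl
          · rfl
          · exact absurd haa.symm suv
          · exact absurd haa suv
          · rfl
        rw [this]
        exact hb'
      · rw [← hdeg w (hout c hne w hw)]
        exact Nat.subtype_card _ fun u => mem_nn'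

/-- **Components of the bipartite complement**, with cycles of length six and eight. -/
theorem comp_cyc (hs : ∀ u v, H.Adj u v → s u ≠ s v) (c : (bcompl H s).ConnectedComponent)
    (h : (c.toSimpleGraph.IsAcyclic ∧ Nat.card c.supp ≠ 2) ∨
      ((∀ v ∈ c.supp, Nat.card {u : V // (bcompl H s).Adj v u} = 2) ∧
        (Nat.card c.supp = 6 ∨ Nat.card c.supp = 8)) ∨
      (Chain H s c.supp ∧ ((∃ u ∈ c.supp, ∃ v ∈ c.supp, H.Adj u v) ∨
        Nat.card {v : V // v ∈ c.supp ∧ s v = false} ≠
          Nat.card {v : V // v ∈ c.supp ∧ s v = true} ∨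
        ∃ c' : (bcompl H s).ConnectedComponent, c' ≠ c ∧ Chain H s c'.supp))) : GSid H s := by
  rcases h with h | ⟨h1, h2⟩ | h
  · exact comp_all hs c (Or.inl h)
  · refine reg_comp hs c (fun w hw => ?_) (by omega) fun h4 => by omega
    rw [← h1 w hw]
    exact (Nat.subtype_card _ fun u => mem_nn').symm
  · exact comp_all hs c (Or.inr h)

end Vale.Agent.P050.Deg
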