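import Vale.Agent.P050.Deg.Step

/-!
Adding a vertex of the side `false` to a star set, and a common neighbour of a star set.
-/

set_option linter.unusedSectionVars false

namespace Vale.Agent.P050.Deg

open Finset Vale.Agent.P050.Lev Vale.Agent.P050.Cart Vale.Agent.P050.Join Vale.Agent.P050.Tmpl

variable {V U Ω : Type} [Fintype V] [DecidableEq V] [Fintype U] [Fintype Ω]

variable {m : Bool → U → ℝ} {π : U → U → ℝ} {H : SimpleGraph V} {s : V → Bool} {S : Finset V}
  {T : Finset V → Prop} {C : V → Finset V → Prop} {L : ℝ} {P : Ω → ℝ} {Z : Ω → V → Option U}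
  {D N Q : Finset V} {w : V}

theorem mz_ins {Ω' : Type} (Y : Ω' → V → Option U) (Q : Finset V) (w : V) (ω : Ω') :
    mz Y (insert w Q) ω = Function.update (mz Y Q ω) w (Y ω w) := by
  funext v
  unfold mz
  by_cases hv : v = w
  · subst hv
    simp
  · rw [Function.update_of_ne hv]
    simp [hv]

theorem ent_leaf_ins (π : U → U → ℝ) (Q : Finset V) (w : V) :
    ent (st1 V π) (fun ω => (mz ZS Q ω, ω.2 w)) = sf π (insert w Q) := by
  unfold sf he
  refine ent_fib fun ω ω' => ?_
  rw [Prod.mk.injEq, mz_eq, mz_eq]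
  simp only [ZS, Option.some.injEq, Finset.mem_insert]
  constructor
  · rintro ⟨h1, h2⟩ v (rfl | hv)
    · exact h2
    · exact h1 v hv
  · exact fun h => ⟨fun v hv => h v (Or.inr hv), h w (Or.inl rfl)⟩

theorem qs_nonneg (hb : Base m π) (Q : Finset V) (y : (U × U) × (V → U) → U) (d : V → Option U)
    (u : U) : 0 ≤ qs π Q y d u := by
  unfold qs
  exact ker_nonneg (st1_nonneg hb) _ _ _ _

/-- a new vertex of the side `false`, in a star with the subset `Q` of a star set -/
theorem TB.leaf (h : TB m π H s S T C L P Z) (hb : Base m π) (hs : ∀ u v, H.Adj u v → s u ≠ s v)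
    (hw : w ∉ S) (hsw : s w = false) (hadj : ∀ x ∈ S, ¬ H.Adj w x) (hD : T D) (hQ : Q ⊆ D) :
    TB m π H s (insert w S) (fun B => T B ∨ B = insert w Q) C
      (L + (gk V m π (Q.card + 1) - gk V m π Q.card))
      (pp P Z Q (qs π Q fun ω => ω.2 w)) (zz Z w) := by
  classical
  obtain ⟨hQS, hQs, hlaw⟩ := h.bag_mono hD hQ
  have hwQ : w ∉ Q := fun h' => hw (hQS h')
  have hst := qs_sum (π := π) hlaw h.nonneg fun ω => ω.2 w
  have hq := qs_nonneg hb Q fun ω => ω.2 w
  have hadj' : ∀ x ∈ S, H.Adj w x ↔ x ∈ (∅ : Finset V) := fun x hx => by simp [hadj x hx]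
  refine TB.extend h hs hw (Finset.empty_subset Q) hQS hadj' hq hst ?_ ?_ ?_
    ?_ ?_ (fun a B hab => Or.inl hab)
  · intro F
    rw [qs_law hb hlaw (fun ω => ω.2 w) fun _ u => F (some u)]
    have := st1_edge hb (some w) fun x _ => F (some x)
    simp only [xv_some] at this
    rw [this, hsw]
    refine Finset.sum_congr rfl fun x _ => ?_
    rw [← Finset.sum_mul, hb.row]
  · intro d hd
    exact absurd hd (Finset.notMem_empty d)
  · intro d hd
    exact absurd hd (Finset.notMem_empty d)
  · rw [qs_gg hb hlaw, ent_leaf_ins, hsw]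
    have e1 := gk_card (V := V) (m := m) (π := π) (insert w Q)
    rw [Finset.card_insert_of_notMem hwQ] at e1
    rw [e1, gk_card Q]
    push_cast
    rw [Finset.card_empty]
    push_cast
    linarith
  · rintro B (hB | rfl)
    · exact Or.inl hB
    · right
      refine ⟨Finset.insert_subset_insert _ hQS, ?_, fun F => ?_⟩
      · intro d hd
        rcases Finset.mem_insert.1 hd with rfl | hd
        · exact hsw
        · exact hQs d hd
      · have e1 : ∀ x : Ω × U, mz (zz Z w) (insert w Q) x =
            Function.update (mz Z Q x.1) w (some x.2) := by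
          intro x
          rw [mz_ins, mz_zz hwQ]
          simp [zz]
        have e2 : ∀ x : (U × U) × (V → U), mz ZS (insert w Q) x =
            Function.update (mz ZS Q x) w (some (x.2 w)) := by
          intro x
          rw [mz_ins]
          rfl
        simp only [e1, e2]
        exact qs_law hb hlaw (fun ω => ω.2 w) fun d u => F (Function.update d w (some u))

/-- a common neighbour of the star set `N` -/
theorem TB.cap (h : TB m π H s S T C L P Z) (hb : Base m π) (hs : ∀ u v, H.Adj u v → s u ≠ s v)
    (hw : w ∉ S) (hsw : s w = true) (hD : T D) (hN : N ⊆ D) (hadj : ∀ x ∈ S, H.Adj w x ↔ x ∈ N) :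
    TB m π H s (insert w S) T (fun a B => C a B ∨ (a = w ∧ B = N)) (L - gk V m π N.card)
      (pp P Z N (qs π N fun ω => ω.1.2)) (zz Z w) := by
  classical
  obtain ⟨hNS, hNs, hlaw⟩ := h.bag_mono hD hN
  have hwN : w ∉ N := fun h' => hw (hNS h')
  have hst := qs_sum (π := π) hlaw h.nonneg fun ω => ω.1.2
  have hq := qs_nonneg hb N fun ω => ω.1.2
  refine TB.extend h hs hw (Finset.Subset.refl N) hNS hadj hq hst ?_ ?_ ?_
    ?_ (fun B hB => Or.inl hB) ?_
  · intro F
    rw [qs_law hb hlaw (fun ω => ω.1.2) fun _ u => F (some u)]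
    have := st1_edge (A := V) hb none fun _ y => F (some y)
    rw [this, hsw, Finset.sum_comm]
    refine Finset.sum_congr rfl fun x _ => ?_
    rw [← Finset.sum_mul, hb.col]
  · intro d hd _ F
    have h1 := qs_law hb hlaw (fun ω => ω.1.2) fun e u => F (e d) (some u)
    simp only [mz_self hd] at h1
    rw [h1]
    have h2 := st1_edge hb (some d) fun x y => F (some x) (some y)
    simp only [xv_some] at h2
    exact h2
  · intro d hd hsd
    rw [hNs d hd] at hsd
    exact absurd hsd (by decide)
  · rw [qs_gg hb hlaw, ent_sc hb, hsw, gk_card N]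
    unfold ii
    nlinarith
  · rintro a B (hab | ⟨rfl, rfl⟩)
    · exact Or.inl hab
    · right
      refine ⟨Finset.mem_insert_self _ _, hNS.trans (Finset.subset_insert _ _), ?_, ?_⟩
      · exact fun d hd => (hadj d (hNS hd)).2 hd
      · rw [he_new hwN, qs_gg hb hlaw, ent_sc hb, hsw]
        have e1 : he P Z B = sf π B := by
          unfold sf he
          exact ent_law fun a => mar_of_sum hlaw a
        rw [e1]
        linarith

/-- the end: a law without debt -/
theorem TB.toTW (h : TB m π H s S T C L P Z) (hL : L ≤ 0) : TW m π H s S C P Z := by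
  refine ⟨h.nonneg, h.total, h.out, fun ω _ => h.inn ω, h.vert, h.edge, ?_, h.star⟩
  have := h.tc
  linarith

end Vale.Agent.P050.Deg
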