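import Vale.Agent.P050.Tmpl.WeakEnd

/-!
The leaves of a star: entropies.
-/

set_option linter.unusedSectionVars false

namespace Vale.Agent.P050.Deg

open Finset Vale.Agent.P050.Lev Vale.Agent.P050.Cart Vale.Agent.P050.Join Vale.Agent.P050.Tmpl

section star

variable {V U : Type} [Fintype V] [DecidableEq V] [Fintype U] {m : Bool → U → ℝ} {π : U → U → ℝ}

/-- the leaves of the universal star -/
def ZS (ω : (U × U) × (V → U)) (v : V) : Option U := some (ω.2 v)

/-- entropy of the leaves in `D` -/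
noncomputable def sf (π : U → U → ℝ) (D : Finset V) : ℝ := he (st1 V π) ZS D

theorem ent_sc (h : Base m π) (D : Finset V) :
    ent (st1 V π) (fun ω => (mz ZS D ω, ω.1.2)) =
      hm m true + (D.card : ℝ) * (hr π - hm m true) := by
  classical
  have h1 := ent_centre_mk (A := V) h (D.image some)
  rw [Finset.card_image_of_injective _ (Option.some_injective V)] at h1
  rw [← h1]
  refine ent_fib fun ω ω' => ?_
  rw [Prod.mk.injEq, Prod.mk.injEq, mz_eq, mk_eq]
  constructor
  · rintro ⟨h2, h3⟩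
    refine ⟨h3, fun a ha => ?_⟩
    obtain ⟨v, hv, rfl⟩ := Finset.mem_image.1 ha
    have := h2 v hv
    rw [xv_some, xv_some]
    simpa [ZS] using this
  · rintro ⟨h2, h3⟩
    refine ⟨fun v hv => ?_, h2⟩
    have := h3 (some v) (Finset.mem_image_of_mem _ hv)
    rw [xv_some, xv_some] at this
    simp [ZS, this]

theorem st1_perm (σ : V ≃ V) (p : U × U) (z : V → U) :
    st1 V π (p, fun v => z (σ v)) = st1 V π (p, z) := by
  unfold st1 cpy
  simp only
  congr 1
  exact Equiv.prod_comp σ (fun j => ker (pb π) Prod.snd Prod.fst p.2 (z j))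

theorem sf_card {D D' : Finset V} (hD : D.card = D'.card) : sf π D = sf π D' := by
  classical
  let e : {x // x ∈ D} ≃ {x // x ∈ D'} := Finset.equivOfCardEq hD
  let σ : V ≃ V := e.extendSubtype
  have hσ : ∀ v, σ v ∈ D' ↔ v ∈ D := by
    intro v
    constructor
    · intro h
      by_contra hv
      exact e.extendSubtype_not_mem v hv h
    · exact fun h => e.extendSubtype_mem v h
  let τ : (U × U) × (V → U) ≃ (U × U) × (V → U) :=
    Equiv.prodCongr (Equiv.refl _) (Equiv.arrowCongr σ.symm (Equiv.refl U))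
  have hτ : ∀ ω, τ ω = (ω.1, fun v => ω.2 (σ v)) := by
    intro ω
    refine Prod.ext rfl ?_
    funext v
    simp [τ, Equiv.arrowCongr]
  unfold sf he
  have e1 : ent (st1 V π) (mz ZS D') = ent (st1 V π) (fun ω => mz ZS D (τ ω)) := by
    refine ent_fib fun ω ω' => ?_
    rw [mz_eq, mz_eq, hτ, hτ]
    simp only [ZS, Option.some.injEq]
    constructor
    · exact fun h v hv => h _ ((hσ v).2 hv)
    · intro h u hu
      have h1 : σ.symm u ∈ D := by
        rw [← hσ]
        simpa using hu
      have := h _ h1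
      simpa using this
  rw [e1]
  refine (ent_law fun a => mar_of_sum (fun F => ?_) a).symm
  have h2 := Equiv.sum_comp τ fun ω => st1 V π ω * F (mz ZS D ω)
  rw [← h2]
  refine Finset.sum_congr rfl fun ω _ => ?_
  congr 1
  rw [hτ]
  exact (st1_perm σ ω.1 ω.2).symm

variable (h : Base m π)

include h

theorem sf_empty : sf π (∅ : Finset V) = 0 := he_empty (st1_total h)

theorem sf_one (v : V) : sf π {v} = hm m false := by
  rw [← ent_leaf h (some v)]
  unfold sf he
  refine ent_fib fun ω ω' => ?_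
  rw [mz_eq]
  simp [ZS, xv_some]

theorem sf_submod (R Q T : Finset V) : sf π (R ∪ Q ∪ T) + sf π T ≤ sf π (R ∪ T) + sf π (Q ∪ T) :=
  he_submod (st1_nonneg h) R Q T

omit h in
open Classical in
/-- the total correlation of `k` leaves -/
noncomputable def gk (V : Type) [Fintype V] [DecidableEq V] (m : Bool → U → ℝ) (π : U → U → ℝ)
    (k : ℕ) : ℝ :=
  if hk : ∃ D : Finset V, D.card = k then (k : ℝ) * hm m false - sf π (Classical.choose hk) else 0

omit h in
theorem gk_card (D : Finset V) : gk V m π D.card = (D.card : ℝ) * hm m false - sf π D := by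
  classical
  have hk : ∃ D' : Finset V, D'.card = D.card := ⟨D, rfl⟩
  unfold gk
  rw [dif_pos hk, sf_card (Classical.choose_spec hk)]

theorem gk_zero : gk V m π 0 = 0 := by
  have := gk_card (V := V) (m := m) (π := π) ∅
  rw [Finset.card_empty, sf_empty h] at this
  rw [this]
  simp

theorem gk_one : gk V m π 1 = 0 := by
  classical
  by_cases hV : ∃ v : V, True
  · obtain ⟨v, _⟩ := hV
    have := gk_card (V := V) (m := m) (π := π) {v}
    rw [Finset.card_singleton, sf_one h] at this
    rw [this]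
    simp
  · unfold gk
    rw [dif_neg]
    rintro ⟨D, hD⟩
    obtain ⟨v, _⟩ := Finset.card_eq_one.1 hD
    exact hV ⟨v, trivial⟩

theorem gk_convex {k : ℕ} (hk : k + 2 ≤ Fintype.card V) :
    0 ≤ gk V m π (k + 2) - 2 * gk V m π (k + 1) + gk V m π k := by
  classical
  obtain ⟨T, _, hT⟩ := Finset.exists_subset_card_eq (s := (univ : Finset V)) (n := k + 2)
    (by rwa [Finset.card_univ])
  obtain ⟨a, T', ha, rfl, hT'⟩ := Finset.card_eq_succ.1 hT
  obtain ⟨b, D, hb, rfl, hD⟩ := Finset.card_eq_succ.1 hT'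
  have haD : a ∉ D := fun h' => ha (Finset.mem_insert_of_mem h')
  have h1 := sf_submod h {a} {b} D
  have e1 : {a} ∪ {b} ∪ D = insert a (insert b D) := by
    ext x
    simp only [Finset.mem_union, Finset.mem_singleton, Finset.mem_insert]
    tauto
  have e2 : {a} ∪ D = insert a D := rfl
  have e3 : {b} ∪ D = insert b D := rfl
  rw [e1, e2, e3] at h1
  have c1 : (insert a D).card = k + 1 := by rw [Finset.card_insert_of_notMem haD, hD]
  have g1 := gk_card (V := V) (m := m) (π := π) (insert a (insert b D))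
  have g2 := gk_card (V := V) (m := m) (π := π) (insert a D)
  have g3 := gk_card (V := V) (m := m) (π := π) (insert b D)
  have g4 := gk_card (V := V) (m := m) (π := π) D
  rw [hT] at g1
  rw [c1] at g2
  rw [hT'] at g3
  rw [hD] at g4
  push_cast at g1 g2 g3 g4
  linarith

end star

section count

/-- second differences -/
theorem g_formula (n : ℕ) (G : ℕ → ℝ) (h0 : G 0 = 0) (h1 : G 1 = 0) : ∀ k ≤ n,
    G k = ∑ t ∈ range n, (G (t + 2) - 2 * G (t + 1) + G t) * ((k - (t + 1) : ℕ) : ℝ) ∧
    G (k + 1) = ∑ t ∈ range n, (G (t + 2) - 2 * G (t + 1) + G t) * ((k + 1 - (t + 1) : ℕ) : ℝ) := by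
  intro k
  induction k with
  | zero =>
    intro _
    refine ⟨?_, ?_⟩
    · rw [h0]
      refine (Finset.sum_eq_zero fun t _ => ?_).symm
      simp
    · rw [zero_add, h1]
      refine (Finset.sum_eq_zero fun t _ => ?_).symm
      have : (1 - (t + 1) : ℕ) = 0 := by omega
      rw [this]
      simp
  | succ k ih =>
    intro hk
    obtain ⟨i1, i2⟩ := ih (by omega)
    refine ⟨i2, ?_⟩
    have key : ∀ t, (((k + 1 + 1 - (t + 1) : ℕ) : ℝ)) = 2 * ((k + 1 - (t + 1) : ℕ) : ℝ) -
        ((k - (t + 1) : ℕ) : ℝ) + if t = k then 1 else 0 := by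
      intro t
      rcases lt_trichotomy t k with h | h | h
      · obtain ⟨c, rfl⟩ := Nat.exists_eq_add_of_lt h
        have e1 : (t + c + 1 + 1 + 1 - (t + 1) : ℕ) = c + 2 := by omega
        have e2 : (t + c + 1 + 1 - (t + 1) : ℕ) = c + 1 := by omega
        have e3 : (t + c + 1 - (t + 1) : ℕ) = c := by omega
        rw [e1, e2, e3, if_neg (by omega)]
        push_cast
        ring
      · subst h
        have e1 : (t + 1 + 1 - (t + 1) : ℕ) = 1 := by omega
        have e2 : (t + 1 - (t + 1) : ℕ) = 0 := by omega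
        have e3 : (t - (t + 1) : ℕ) = 0 := by omega
        rw [e1, e2, e3, if_pos rfl]
        push_cast
        ring
      · have e1 : (k + 1 + 1 - (t + 1) : ℕ) = 0 := by omega
        have e2 : (k + 1 - (t + 1) : ℕ) = 0 := by omega
        have e3 : (k - (t + 1) : ℕ) = 0 := by omega
        rw [e1, e2, e3, if_neg (by omega)]
        push_cast
        ring
    have e : ∑ t ∈ range n, (G (t + 2) - 2 * G (t + 1) + G t) * ((k + 1 + 1 - (t + 1) : ℕ) : ℝ) =
        2 * ∑ t ∈ range n, (G (t + 2) - 2 * G (t + 1) + G t) * ((k + 1 - (t + 1) : ℕ) : ℝ) -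
        ∑ t ∈ range n, (G (t + 2) - 2 * G (t + 1) + G t) * ((k - (t + 1) : ℕ) : ℝ) +
        ∑ t ∈ range n, (G (t + 2) - 2 * G (t + 1) + G t) * (if t = k then 1 else 0) := by
      rw [Finset.mul_sum, ← Finset.sum_sub_distrib, ← Finset.sum_add_distrib]
      refine Finset.sum_congr rfl fun t _ => ?_
      rw [key t]
      ring
    have e' : ∑ t ∈ range n, (G (t + 2) - 2 * G (t + 1) + G t) * (if t = k then (1 : ℝ) else 0) =
        G (k + 2) - 2 * G (k + 1) + G k := by
      simp only [mul_ite, mul_one, mul_zero]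
      rw [Finset.sum_ite_eq' (range n) k, if_pos (Finset.mem_range.2 (by omega))]
    rw [e, e', ← i1, ← i2]
    ring

theorem count_ineq {ι κ : Type} (n : ℕ) (G : ℕ → ℝ) (h0 : G 0 = 0) (h1 : G 1 = 0)
    (hconv : ∀ t < n, 0 ≤ G (t + 2) - 2 * G (t + 1) + G t) (A : Finset ι) (β : ι → ℕ)
    (hβ : ∀ a ∈ A, β a ≤ n) (B : Finset κ) (d : κ → ℕ) (hd : ∀ b ∈ B, d b ≤ n + 1)
    (hc : ∀ r, 1 ≤ r → (A.filter fun a => r ≤ β a).card ≤ ∑ b ∈ B, (d b - r)) :
    ∑ a ∈ A, (G (β a + 1) - G (β a)) ≤ ∑ b ∈ B, G (d b) := by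
  have hG : ∀ k ≤ n + 1, G k = ∑ t ∈ range n, (G (t + 2) - 2 * G (t + 1) + G t) *
      ((k - (t + 1) : ℕ) : ℝ) := by
    intro k hk
    rcases Nat.lt_or_ge k (n + 1) with h | h
    · exact (g_formula n G h0 h1 k (by omega)).1
    · have : k = n + 1 := by omega
      rw [this]
      exact (g_formula n G h0 h1 n le_rfl).2
  have hA : ∑ a ∈ A, (G (β a + 1) - G (β a)) = ∑ t ∈ range n, (G (t + 2) - 2 * G (t + 1) + G t) *
      ((A.filter fun a => t + 1 ≤ β a).card : ℝ) := by
    have : ∀ a ∈ A, G (β a + 1) - G (β a) = ∑ t ∈ range n, (G (t + 2) - 2 * G (t + 1) + G t) *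
        (if t + 1 ≤ β a then 1 else 0) := by
      intro a ha
      rw [hG (β a + 1) (by have := hβ a ha; omega), hG (β a) (by have := hβ a ha; omega),
        ← Finset.sum_sub_distrib]
      refine Finset.sum_congr rfl fun t _ => ?_
      rw [← mul_sub]
      congr 1
      split_ifs with h
      · have e1 : (β a + 1 - (t + 1) : ℕ) = β a - (t + 1) + 1 := by omega
        rw [e1]
        push_cast
        ring
      · have e1 : (β a + 1 - (t + 1) : ℕ) = 0 := by omega
        have e2 : (β a - (t + 1) : ℕ) = 0 := by omega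
        rw [e1, e2]
        simp
    rw [Finset.sum_congr rfl this, Finset.sum_comm]
    refine Finset.sum_congr rfl fun t _ => ?_
    rw [← Finset.mul_sum]
    congr 1
    rw [Finset.card_filter]
    push_cast
    rfl
  have hB : ∑ b ∈ B, G (d b) = ∑ t ∈ range n, (G (t + 2) - 2 * G (t + 1) + G t) *
      ((∑ b ∈ B, (d b - (t + 1)) : ℕ) : ℝ) := by
    rw [Finset.sum_congr rfl fun b hb => hG (d b) (hd b hb), Finset.sum_comm]
    refine Finset.sum_congr rfl fun t _ => ?_
    rw [← Finset.mul_sum]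
    push_cast
    rfl
  rw [hA, hB]
  refine Finset.sum_le_sum fun t ht => ?_
  refine mul_le_mul_of_nonneg_left ?_ (hconv t (Finset.mem_range.1 ht))
  exact_mod_cast hc (t + 1) (by omega)

end count

end Vale.Agent.P050.Deg
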