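import Vale.Agent.P050.Deg.Star

/-!
Laws on a growing vertex set, with star sets.
-/

set_option linter.unusedSectionVars false

namespace Vale.Agent.P050.Deg

open Finset Vale.Agent.P050.Lev Vale.Agent.P050.Cart Vale.Agent.P050.Join Vale.Agent.P050.Tmpl

variable {V U Ω : Type} [Fintype V] [DecidableEq V] [Fintype U] [Fintype Ω]

/-- laws on the vertex set `S`; `T D`: the vertices in `D` are distributed as the leaves of a star;
`C v D`: the vertices in `D` are conditionally independent neighbours of `v` -/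
structure TB (m : Bool → U → ℝ) (π : U → U → ℝ) (H : SimpleGraph V) (s : V → Bool)
    (S : Finset V) (T : Finset V → Prop) (C : V → Finset V → Prop) (L : ℝ) (P : Ω → ℝ)
    (Z : Ω → V → Option U) : Prop where
  nonneg : ∀ ω, 0 ≤ P ω
  total : ∑ ω, P ω = 1
  out : ∀ ω, ∀ v ∉ S, Z ω v = none
  inn : ∀ ω, ∀ v ∈ S, (Z ω v).isSome = true
  vert : ∀ v ∈ S, ∀ F : Option U → ℝ, ∑ ω, P ω * F (Z ω v) = ∑ x, m (s v) x * F (some x)
  edge : ∀ u ∈ S, ∀ v ∈ S, H.Adj u v → s u = false → ∀ F : Option U → Option U → ℝ,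
    ∑ ω, P ω * F (Z ω u) (Z ω v) = ∑ x, ∑ y, π x y * F (some x) (some y)
  tc : ∑ v ∈ S, hm m (s v) - he P Z S ≤ (eb H s S : ℝ) * ii m π + L
  bag : ∀ D, T D → D ⊆ S ∧ (∀ d ∈ D, s d = false) ∧ ∀ F : (V → Option U) → ℝ,
    ∑ ω, P ω * F (mz Z D ω) = ∑ x, st1 V π x * F (mz ZS D x)
  star : ∀ v D, C v D → v ∈ S ∧ D ⊆ S ∧ (∀ d ∈ D, H.Adj v d) ∧
    hm m (s v) + (D.card : ℝ) * (hr π - hm m (s v)) ≤ he P Z (insert v D)

variable {m : Bool → U → ℝ} {π : U → U → ℝ} {H : SimpleGraph V} {s : V → Bool} {S : Finset V}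
  {T : Finset V → Prop} {C : V → Finset V → Prop} {L : ℝ} {P : Ω → ℝ} {Z : Ω → V → Option U}
  {D N : Finset V} {q : (V → Option U) → U → ℝ} {w : V}

/-- **One more vertex.** -/
theorem TB.extend (h : TB m π H s S T C L P Z) (hs : ∀ u v, H.Adj u v → s u ≠ s v) (hw : w ∉ S)
    (hND : N ⊆ D) (hDS : D ⊆ S) (hadj : ∀ x ∈ S, H.Adj w x ↔ x ∈ N) (hq : ∀ d u, 0 ≤ q d u)
    (hst : ∀ ω, P ω ≠ 0 → ∑ u, q (mz Z D ω) u = 1)
    (hv : ∀ F : Option U → ℝ, ∑ x, pp P Z D q x * F (some x.2) = ∑ u, m (s w) u * F (some u))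
    (he1 : ∀ d ∈ N, s d = false → ∀ F : Option U → Option U → ℝ,
      ∑ x, pp P Z D q x * F (Z x.1 d) (some x.2) = ∑ x, ∑ y, π x y * F (some x) (some y))
    (he2 : ∀ d ∈ N, s d = true → ∀ F : Option U → Option U → ℝ,
      ∑ x, pp P Z D q x * F (some x.2) (Z x.1 d) = ∑ x, ∑ y, π x y * F (some x) (some y))
    {L' : ℝ} (hG : hm m (s w) - (N.card : ℝ) * ii m π + (L - L') ≤ gg P Z D q D)
    {T' : Finset V → Prop}
    (hT' : ∀ B, T' B → T B ∨ (B ⊆ insert w S ∧ (∀ d ∈ B, s d = false) ∧
      ∀ F : (V → Option U) → ℝ, ∑ x, pp P Z D q x * F (mz (zz Z w) B x) =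
        ∑ x, st1 V π x * F (mz ZS B x)))
    {C' : V → Finset V → Prop}
    (hC' : ∀ a B, C' a B → C a B ∨ (a ∈ insert w S ∧ B ⊆ insert w S ∧ (∀ d ∈ B, H.Adj a d) ∧
      hm m (s a) + (B.card : ℝ) * (hr π - hm m (s a)) ≤
        he (pp P Z D q) (zz Z w) (insert a B))) :
    TB m π H s (insert w S) T' C' L' (pp P Z D q) (zz Z w) := by
  classical
  have hP := h.nonneg
  refine ⟨ext_nonneg hP hq, ext_total hst h.total, ?_, ?_, ?_, ?_, ?_, ?_, ?_⟩
  · intro x v hvS
    have hne : v ≠ w := fun h' => hvS (h' ▸ Finset.mem_insert_self _ _)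
    unfold zz
    rw [Function.update_of_ne hne]
    exact h.out _ _ fun h' => hvS (Finset.mem_insert_of_mem h')
  · intro x v hvS
    by_cases hne : v = w
    · subst hne
      simp [zz]
    · unfold zz
      rw [Function.update_of_ne hne]
      exact h.inn _ _ ((Finset.mem_insert.1 hvS).resolve_left hne)
  · intro v hvS F
    by_cases hne : v = w
    · subst hne
      have := hv F
      simpa [zz] using this
    · have hvS' := (Finset.mem_insert.1 hvS).resolve_left hne
      rw [← h.vert v hvS' F, ← sum_ext_fst (q := q) hst fun ω => F (Z ω v)]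
      refine Finset.sum_congr rfl fun x _ => ?_
      unfold zz pp
      rw [Function.update_of_ne hne]
  · intro u hu v hv' ha hsu F
    by_cases huw : u = w
    · subst huw
      have hvw : v ≠ u := ha.ne'
      have hvS := (Finset.mem_insert.1 hv').resolve_left hvw
      have hvD := (hadj v hvS).1 ha
      have hsv : s v = true := by
        have := hs _ _ ha
        rw [hsu] at this
        cases hsv : s v
        · exact absurd hsv.symm this
        · rfl
      rw [← he2 v hvD hsv F]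
      refine Finset.sum_congr rfl fun x _ => ?_
      simp [zz, Function.update_of_ne hvw]
    · have huS := (Finset.mem_insert.1 hu).resolve_left huw
      by_cases hvw : v = w
      · subst hvw
        have huD := (hadj u huS).1 ha.symm
        rw [← he1 u huD hsu F]
        refine Finset.sum_congr rfl fun x _ => ?_
        simp [zz, Function.update_of_ne huw]
      · have hvS := (Finset.mem_insert.1 hv').resolve_left hvw
        rw [← h.edge u huS v hvS ha hsu F, ← sum_ext_fst (q := q) hst fun ω => F (Z ω u) (Z ω v)]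
        refine Finset.sum_congr rfl fun x _ => ?_
        unfold zz pp
        rw [Function.update_of_ne huw, Function.update_of_ne hvw]
  · have ebS : (eb H s (insert w S) : ℝ) = eb H s S + N.card := by
      rw [eb_insert hs hw hadj, Finset.inter_eq_right.2 (hND.trans hDS)]
      push_cast
      ring
    have heS : he (pp P Z D q) (zz Z w) (insert w S) = he P Z S + gg P Z D q S := he_new hw
    have gS := gg_ge hP hq hst S
    have h1 := h.tc
    rw [heS, ebS, Finset.sum_insert hw]
    linarith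
  · intro B hB
    rcases hT' B hB with h1 | h1
    · obtain ⟨h2, h3, h4⟩ := h.bag B h1
      refine ⟨h2.trans (Finset.subset_insert _ _), h3, fun F => ?_⟩
      rw [← h4 F, ← sum_ext_fst (q := q) hst fun ω => F (mz Z B ω)]
      refine Finset.sum_congr rfl fun x _ => ?_
      rw [mz_zz fun h' => hw (h2 h')]
      rfl
    · exact h1
  · intro a B hab
    rcases hC' a B hab with h1 | h1
    · obtain ⟨h2, h3, h4, h5⟩ := h.star a B h1
      refine ⟨Finset.mem_insert_of_mem h2, h3.trans (Finset.subset_insert _ _), h4, ?_⟩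
      rw [he_old hst]
      · exact h5
      · intro h6
        rcases Finset.mem_insert.1 h6 with h7 | h7
        · exact hw (h7 ▸ h2)
        · exact hw (h3 h7)
    · exact h1

/-- the empty set -/
theorem TB.empty (hb : Base m π) : TB m π H s ∅ (fun D => D = ∅) (fun _ _ => False) 0
    (fun _ : Unit => (1 : ℝ)) (fun _ _ => (none : Option U)) := by
  refine ⟨fun _ => zero_le_one, by simp, fun _ _ _ => rfl, fun _ v hv => absurd hv (by simp),
    fun v hv => absurd hv (by simp), fun v hv => absurd hv (by simp), ?_, ?_,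
    fun _ _ h => h.elim⟩
  · rw [he_empty (by simp), eb_empty]
    simp
  · rintro D rfl
    refine ⟨Finset.Subset.refl _, fun d hd => absurd hd (Finset.notMem_empty _), fun F => ?_⟩
    have e1 : ∀ x : (U × U) × (V → U), mz ZS ∅ x = fun _ => none := by
      intro x
      funext v
      simp [mz]
    have e2 : (mz (fun (_ : Unit) (_ : V) => (none : Option U)) ∅) () = fun _ => none := by
      funext v
      simp [mz]
    simp only [e1, Finset.univ_unique, Finset.sum_singleton, one_mul]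
    rw [← Finset.sum_mul, st1_total hb, one_mul]
    exact congrArg F e2

/-- subsets of star sets -/
theorem TB.bag_mono (h : TB m π H s S T C L P Z) {D Q : Finset V} (hD : T D) (hQ : Q ⊆ D) :
    Q ⊆ S ∧ (∀ d ∈ Q, s d = false) ∧ ∀ F : (V → Option U) → ℝ,
      ∑ ω, P ω * F (mz Z Q ω) = ∑ x, st1 V π x * F (mz ZS Q x) := by
  obtain ⟨h1, h2, h3⟩ := h.bag D hD
  refine ⟨hQ.trans h1, fun d hd => h2 d (hQ hd), fun F => ?_⟩
  have := h3 fun d => F (rz Q d)
  simpa only [rz_mz hQ] using this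

/-- the conditional law of a variable given the leaves in `Q`, in the universal star -/
noncomputable def qs (π : U → U → ℝ) (Q : Finset V) (y : (U × U) × (V → U) → U)
    (d : V → Option U) (u : U) : ℝ := ker (st1 V π) (mz ZS Q) y d u

theorem qs_sum {Q : Finset V}
    (hQ : ∀ F : (V → Option U) → ℝ, ∑ ω, P ω * F (mz Z Q ω) = ∑ x, st1 V π x * F (mz ZS Q x))
    (hP : ∀ ω, 0 ≤ P ω) (y : (U × U) × (V → U) → U) :
    ∀ ω, P ω ≠ 0 → ∑ u, qs π Q y (mz Z Q ω) u = 1 := by
  intro ω h0
  refine sum_ker (mz ZS Q) y ?_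
  have : mar (st1 V π) (mz ZS Q) (mz Z Q ω) = mar P (mz Z Q) (mz Z Q ω) :=
    (mar_of_sum hQ (mz Z Q ω)).symm
  rw [this]
  exact mar_ne_zero hP (mz Z Q) h0

theorem qs_law (hb : Base m π) {Q : Finset V}
    (hQ : ∀ F : (V → Option U) → ℝ, ∑ ω, P ω * F (mz Z Q ω) = ∑ x, st1 V π x * F (mz ZS Q x))
    (y : (U × U) × (V → U) → U) (F : (V → Option U) → U → ℝ) :
    ∑ x, pp P Z Q (qs π Q y) x * F (mz Z Q x.1) x.2 = ∑ x, st1 V π x * F (mz ZS Q x) (y x) := by
  refine (sum_ext fun ω u => F (mz Z Q ω) u).trans ?_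
  rw [hQ fun d => ∑ u, qs π Q y d u * F d u]
  have h1 := sum_cpy_pair (st1_nonneg hb) (fun _ : Unit => mz ZS Q) y () F
  have h2 := sum_cpy_one (st1_nonneg hb) (fun _ : Unit => mz ZS Q) y () fun ω o => F (mz ZS Q ω) o
  rw [h2] at h1
  rw [← h1]
  refine Finset.sum_congr rfl fun x _ => ?_
  rw [Finset.mul_sum]
  refine Finset.sum_congr rfl fun u _ => ?_
  unfold qs
  ring

theorem qs_gg (hb : Base m π) {Q : Finset V}
    (hQ : ∀ F : (V → Option U) → ℝ, ∑ ω, P ω * F (mz Z Q ω) = ∑ x, st1 V π x * F (mz ZS Q x))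
    (y : (U × U) × (V → U) → U) :
    gg P Z Q (qs π Q y) Q = ent (st1 V π) (fun ω => (mz ZS Q ω, y ω)) - sf π Q := by
  unfold gg
  congr 1
  · exact ent_law fun a => mar_of_sum (fun F => qs_law hb hQ y fun d u => F (d, u)) a
  · unfold sf he
    exact ent_law fun a => mar_of_sum hQ a

end Vale.Agent.P050.Deg
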