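import Vale.Agent.P050.Deg.Few
import Vale.Agent.P050.Deg.Pair

/-!
Bipartite complements with an acyclic component.
-/

set_option linter.unusedSectionVars false

namespace Vale.Agent.P050.Deg

open Finset Vale.Agent.P050.Lev Vale.Agent.P050.Cart Vale.Agent.P050.Join Vale.Agent.P050.Tmpl

variable {V : Type} [Fintype V] [DecidableEq V] {H : SimpleGraph V} {s : V → Bool}

theorem side_true_of {b x : V} (hs : ∀ u v, H.Adj u v → s u ≠ s v) (h : H.Adj b x)
    (hx : s x = false) : s b = true := by
  have := hs _ _ h
  rw [hx] at this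
  cases h' : s b
  · rw [h'] at this
    exact absurd rfl this
  · rfl

/-- three copies -/
theorem three_gsid (hs : ∀ u v, H.Adj u v → s u ≠ s v) {x y z q b : V} (hxy : x ≠ y)
    (hxz : x ≠ z) (hyz : y ≠ z) (sx : s x = false) (sy : s y = false) (sz : s z = false)
    (hqb : q ≠ b) (sq : s q = true) (sb : s b = true)
    (hq : ∀ a, s a = false → a ≠ x → H.Adj q a)
    (hb : ∀ a, s a = false → a ≠ x → a ≠ y → H.Adj b a)
    (hy : ∀ c, s c = true → ¬ H.Adj c y → ¬ H.Adj c x ∨ ¬ H.Adj c z) : GSid H s := by
  classical
  have memD : ∀ v, v ∈ ({y, x, z} : Finset V) ↔ v = y ∨ v = x ∨ v = z := by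
    intro v
    simp
  obtain ⟨r, ry, rx, rz⟩ : ∃ r : V → ℕ, r y = 0 ∧ r x = 1 ∧ r z = 2 := by
    refine ⟨fun v => if v = y then 0 else if v = x then 1 else 2, if_pos rfl, ?_, ?_⟩
    · simp only [if_neg hxy, if_true]
    · simp only [if_neg hyz.symm, if_neg hxz.symm]
  refine core_false hs {y, x, z} ?_ ⟨y, Finset.mem_insert_self _ _⟩ r ?_ ?_ {q, b} ?_ ?_
  · intro d hd
    rcases (memD d).1 hd with rfl | rfl | rfl
    · exact sy
    · exact sx
    · exact sz
  · intro d hd e he hde
    rcases (memD d).1 hd with hd' | hd' | hd' <;> rcases (memD e).1 he with he' | he' | he' <;>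
      rw [hd', he'] at hde ⊢ <;> omega
  · intro d hd
    refine ⟨y, Finset.mem_insert_self _ _, ?_⟩
    rintro c hcd ⟨f, hf, hrf, hcf⟩
    rcases (memD d).1 hd with hd' | hd' | hd'
    · rw [hd', ry] at hrf
      exact absurd hrf (Nat.not_lt_zero _)
    · rw [hd', rx] at hrf
      have hfy : f = y := by
        rcases (memD f).1 hf with hf' | hf' | hf'
        · exact hf'
        · rw [hf'] at hrf
          omega
        · rw [hf'] at hrf
          omega
      refine ⟨?_, hfy ▸ hcf⟩
      rw [hd']
      omega
    · have hcy : H.Adj c y := by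
        by_contra hcy
        have hsc := side_true_of hs (hd' ▸ hcd) sz
        rcases (memD f).1 hf with hf' | hf' | hf'
        · exact hcy (hf' ▸ hcf)
        · rcases hy c hsc hcy with h | h
          · exact h (hf' ▸ hcf)
          · exact h (hd' ▸ hcd)
        · rw [hd', hf'] at hrf
          omega
      refine ⟨?_, hcy⟩
      rw [hd']
      omega
  · intro c hc
    rw [Finset.mem_insert, Finset.mem_singleton] at hc
    rcases hc with rfl | rfl
    · refine ⟨by rw [sq]; decide, fun a ha haD => ?_⟩
      rw [memD] at haD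
      push Not at haD
      exact hq a ha haD.2.1
    · refine ⟨by rw [sb]; decide, fun a ha haD => ?_⟩
      rw [memD] at haD
      push Not at haD
      exact hb a ha haD.2.1 haD.1
  · rw [Finset.sum_pair hqb]
    have e : ∀ c, Nat.card {d : V // d ∈ ({y, x, z} : Finset V) ∧ H.Adj c d} =
        (na H {y, x, z} c).card := fun c => Nat.subtype_card _ fun x => mem_na
    rw [e, e]
    have g1 : ({y, z} : Finset V) ⊆ na H {y, x, z} q := by
      intro v hv
      rw [Finset.mem_insert, Finset.mem_singleton] at hv
      rw [mem_na, memD]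
      rcases hv with rfl | rfl
      · exact ⟨Or.inl rfl, hq _ sy hxy.symm⟩
      · exact ⟨Or.inr (Or.inr rfl), hq _ sz hxz.symm⟩
    have g2 : ({z} : Finset V) ⊆ na H {y, x, z} b := by
      intro v hv
      rw [Finset.mem_singleton] at hv
      rw [mem_na, memD]
      subst hv
      exact ⟨Or.inr (Or.inr rfl), hb _ sz hxz.symm hyz.symm⟩
    have h1 := Finset.card_le_card g1
    have h2 := Finset.card_le_card g2
    rw [Finset.card_pair hyz] at h1
    rw [Finset.card_singleton] at h2
    have h3 : ({y, x, z} : Finset V).card ≤ 3 := Finset.card_le_three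
    omega

/-- at most two vertices on the side `false` -/
theorem pair_side (hs : ∀ u v, H.Adj u v → s u ≠ s v) {x y : V} (sx : s x = false)
    (sy : s y = false) (hall : ∀ a, s a = false → a = x ∨ a = y) : GSid H s := by
  classical
  by_cases h2 : ∃ F : Finset V, (∀ b ∈ F, s b = true) ∧ 2 ≤ ∑ b ∈ F, (na H {x, y} b).card
  · obtain ⟨F, hF, h2⟩ := h2
    refine small_gsid hs {x, y} F ?_ ⟨x, Finset.mem_insert_self _ _⟩ Finset.card_le_two ?_
      (Finset.card_le_two.trans h2)
    · intro d hd
      rw [Finset.mem_insert, Finset.mem_singleton] at hd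
      rcases hd with rfl | rfl
      · exact sx
      · exact sy
    · intro b hb
      refine ⟨hF b hb, fun a ha haD => ?_⟩
      rw [Finset.mem_insert, Finset.mem_singleton] at haD
      exact absurd (hall a ha) haD
  · have hone : ∀ b u v, s b ≠ false → H.Adj b u → H.Adj b v → u = v := by
      intro b u v hb hu hv
      by_contra huv
      have hsb : s b = true := by
        cases h : s b
        · exact absurd h hb
        · rfl
      have su : s u = false := by
        have := hs _ _ hu
        rw [hsb] at this
        cases h : s u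
        · rfl
        · rw [h] at this
          exact absurd rfl this
      have sv : s v = false := by
        have := hs _ _ hv
        rw [hsb] at this
        cases h : s v
        · rfl
        · rw [h] at this
          exact absurd rfl this
      refine h2 ⟨{b}, fun c hc => by rw [Finset.mem_singleton] at hc; rw [hc]; exact hsb, ?_⟩
      rw [Finset.sum_singleton]
      have g : ({u, v} : Finset V) ⊆ na H {x, y} b := by
        intro w hw
        rw [Finset.mem_insert, Finset.mem_singleton] at hw
        rw [mem_na, Finset.mem_insert, Finset.mem_singleton]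
        rcases hw with rfl | rfl
        · exact ⟨hall _ su, hu⟩
        · exact ⟨hall _ sv, hv⟩
      have h1 := Finset.card_le_card g
      rwa [Finset.card_pair huv] at h1
    refine chordal_false hs ⊥ (fun v => (Fintype.equivFin V v).1) ?_ ?_ ?_ ?_
    · intro u v _ _ h
      exact (Fintype.equivFin V).injective (Fin.ext h)
    · intro a u v _ _ _ h
      exact h.elim
    · intro b u v hb hu hv huv
      exact absurd (hone b u v hb hu hv) huv
    · intro k hk
      have : IsEmpty {a : V // s a = false ∧ k ≤ Nat.card {u : V // s u = false ∧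
          (⊥ : SimpleGraph V).Adj a u ∧
            ((Fintype.equivFin V u).1 : ℕ) < (Fintype.equivFin V a).1}} := by
        refine ⟨fun ⟨a, _, h⟩ => ?_⟩
        have : IsEmpty {u : V // s u = false ∧ (⊥ : SimpleGraph V).Adj a u ∧
            ((Fintype.equivFin V u).1 : ℕ) < (Fintype.equivFin V a).1} :=
          ⟨fun ⟨_, _, h, _⟩ => h.elim⟩
        rw [Nat.card_of_isEmpty] at h
        omega
      rw [Nat.card_of_isEmpty]
      exact Nat.zero_le _

theorem sum_le_two (A : Finset V) (f : V → ℕ) (hf : ∀ a ∈ A, 1 ≤ f a)
    (h : ∑ a ∈ A, f a + (A.filter fun a => f a = 1).card ≤ 2 * A.card) :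
    ∀ a ∈ A, f a ≤ 2 := by
  intro a ha
  have h1 := count1 (A.erase a) f fun x hx => hf x (Finset.mem_of_mem_erase hx)
  have h2 := Finset.add_sum_erase A f ha
  have h3 : ((A.erase a).filter fun a => f a = 1).card ≤ (A.filter fun a => f a = 1).card :=
    Finset.card_le_card (Finset.filter_subset_filter _ (Finset.erase_subset _ _))
  have h4 := Finset.card_erase_add_one ha
  omega

/-- **Core.** A union of components of the bipartite complement with fewer edges than vertices and
without a component consisting of one edge. -/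
theorem tree_core (hs : ∀ u v, H.Adj u v → s u ≠ s v) (T : Finset V)
    (hT : ∀ u ∈ T, ∀ v ∈ nn H s u, v ∈ T)
    (hE : ∑ a ∈ T.filter (fun a => s a = false), (nn H s a).card + 1 ≤ T.card)
    (hK : ∀ q ∈ T, ∀ x ∈ T, nn H s q = {x} → nn H s x = {q} → False) : GSid H s := by
  classical
  by_cases c0 : ∃ v, nn H s v = ∅
  · obtain ⟨v, hv⟩ := c0
    obtain ⟨C, hC⟩ := starGrown_of_dominating (y := v) hs (by
      intro u hu
      by_contra h
      have : u ∈ nn H s v := mem_nn.2 ⟨hu, fun h' => h h'.symm⟩
      rw [hv] at this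
      exact absurd this (Finset.notMem_empty _))
    exact starGrown_gsid hs hC
  push Not at c0
  have c0' : ∀ v, 1 ≤ (nn H s v).card := fun v => Finset.card_pos.2 (c0 v)
  by_cases c1 : ∃ q₁ q₂, q₁ ≠ q₂ ∧ s q₁ = s q₂ ∧ (nn H s q₁).card ≤ 1 ∧ (nn H s q₂).card ≤ 1
  · obtain ⟨q₁, q₂, hq, h12, h1, h2⟩ := c1
    exact two_few hs hq h12 h1 h2
  set A := T.filter (fun a => s a = false) with hA
  set B := T.filter (fun a => s a = true) with hB
  have hdc := count_nn T hT
  rw [← hA, ← hB] at hdc
  have hTc : A.card + B.card = T.card := by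
    rw [hA, hB]
    have h1 := Finset.card_filter_add_card_filter_not (s := T) (fun a => s a = false)
    have h2 : (T.filter fun a => ¬ s a = false) = T.filter fun a => s a = true := by
      refine Finset.filter_congr fun a _ => ?_
      simp
    rw [h2] at h1
    exact h1
  have hA1 := count1 A (fun a => (nn H s a).card) fun a _ => c0' a
  have hB1 := count1 B (fun a => (nn H s a).card) fun a _ => c0' a
  have one : ∀ (c : Bool) (X : Finset V), (∀ a ∈ X, s a = c) →
      (X.filter fun a => (nn H s a).card = 1).card ≤ 1 := by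
    intro c X hX
    rw [Finset.card_le_one]
    intro a ha b hb
    rw [Finset.mem_filter] at ha hb
    by_contra hab
    exact c1 ⟨a, b, hab, (hX a ha.1).trans (hX b hb.1).symm, ha.2.le, hb.2.le⟩
  have hAs : ∀ a ∈ A, s a = false := fun a ha => (Finset.mem_filter.1 ha).2
  have hBs : ∀ a ∈ B, s a = true := fun a ha => (Finset.mem_filter.1 ha).2
  have oA := one false A hAs
  have oB := one true B hBs
  have twoA := sum_le_two A (fun a => (nn H s a).card) (fun a _ => c0' a) (by omega)
  have twoB := sum_le_two B (fun a => (nn H s a).card) (fun a _ => c0' a) (by omega)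
  have hB1c : (B.filter fun a => (nn H s a).card = 1).card = 1 := by omega
  obtain ⟨q, hqB⟩ := Finset.card_eq_one.1 hB1c
  have hq : q ∈ B.filter fun a => (nn H s a).card = 1 := by
    rw [hqB]
    exact Finset.mem_singleton_self _
  rw [Finset.mem_filter] at hq
  have uq : ∀ b ∈ B, (nn H s b).card = 1 → b = q := by
    intro b hb h1
    have : b ∈ B.filter fun a => (nn H s a).card = 1 := Finset.mem_filter.2 ⟨hb, h1⟩
    rwa [hqB, Finset.mem_singleton] at this
  have hqT : q ∈ T := (Finset.mem_filter.1 hq.1).1
  have sq : s q = true := hBs q hq.1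
  obtain ⟨x, hx⟩ := Finset.card_eq_one.1 hq.2
  have toA : ∀ u ∈ T, s u = true → ∀ v ∈ nn H s u, v ∈ A := by
    intro u hu su v hv
    rw [hA, Finset.mem_filter]
    refine ⟨hT u hu v hv, ?_⟩
    have := (mem_nn.1 hv).1
    rw [su] at this
    cases h : s v
    · rfl
    · exact absurd h this
  have toB : ∀ u ∈ T, s u = false → ∀ v ∈ nn H s u, v ∈ B := by
    intro u hu su v hv
    rw [hB, Finset.mem_filter]
    refine ⟨hT u hu v hv, ?_⟩
    have := (mem_nn.1 hv).1
    rw [su] at this
    cases h : s v
    · exact absurd h this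
    · rfl
  have hxA : x ∈ A := toA q hqT sq x (by rw [hx]; exact Finset.mem_singleton_self _)
  have hxT : x ∈ T := (Finset.mem_filter.1 hxA).1
  have sx := hAs x hxA
  have hqx : q ∈ nn H s x := by
    rw [nn_symm, hx]
    exact Finset.mem_singleton_self _
  have hx2 : (nn H s x).card = 2 := by
    have h1 := twoA x hxA
    have h2 := c0' x
    by_contra h3
    have h4 : (nn H s x).card = 1 := by omega
    obtain ⟨q', hq'⟩ := Finset.card_eq_one.1 h4
    have : q = q' := by
      rw [hq', Finset.mem_singleton] at hqx
      exact hqx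
    subst this
    exact hK q hqT x hxT hx hq'
  obtain ⟨b, hb, hbq⟩ : ∃ b ∈ nn H s x, b ≠ q := by
    obtain ⟨b, hb, hne⟩ := Finset.exists_mem_ne (by omega : 1 < (nn H s x).card) q
    exact ⟨b, hb, hne⟩
  have hbB := toB x hxT sx b hb
  have hbT : b ∈ T := (Finset.mem_filter.1 hbB).1
  have sb := hBs b hbB
  have pairEq : ∀ (w u v : V), (nn H s w).card = 2 → u ∈ nn H s w → v ∈ nn H s w → u ≠ v →
      ∀ t ∈ nn H s w, t = u ∨ t = v := by
    intro w u v hw hu hv huv t ht
    by_contra h
    push Not at h
    have h1 : ({t, u, v} : Finset V) ⊆ nn H s w := by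
      intro y hy
      rw [Finset.mem_insert, Finset.mem_insert, Finset.mem_singleton] at hy
      rcases hy with rfl | rfl | rfl
      · exact ht
      · exact hu
      · exact hv
    have h2 := Finset.card_le_card h1
    rw [Finset.card_insert_of_notMem (by simp [h.1, h.2]), Finset.card_pair huv] at h2
    omega
  have hb2 : (nn H s b).card = 2 := by
    have h1 := twoB b hbB
    have h2 := c0' b
    by_contra h3
    exact hbq (uq b hbB (by omega))
  have hxb : x ∈ nn H s b := by
    rw [nn_symm]
    exact hb
  obtain ⟨y, hyb, hyx⟩ : ∃ y ∈ nn H s b, y ≠ x := by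
    obtain ⟨y, hy, hne⟩ := Finset.exists_mem_ne (by omega : 1 < (nn H s b).card) x
    exact ⟨y, hy, hne⟩
  have hyA := toA b hbT sb y hyb
  have hyT : y ∈ T := (Finset.mem_filter.1 hyA).1
  have sy := hAs y hyA
  have hby : b ∈ nn H s y := by
    rw [nn_symm]
    exact hyb
  have hq' : ∀ a, s a = false → a ≠ x → H.Adj q a := by
    intro a ha hax
    by_contra h
    have : a ∈ nn H s q := mem_nn.2 ⟨by rw [ha, sq]; decide, h⟩
    rw [hx, Finset.mem_singleton] at this
    exact hax this
  have hb' : ∀ a, s a = false → a ≠ x → a ≠ y → H.Adj b a := by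
    intro a ha hax hay
    by_contra h
    have : a ∈ nn H s b := mem_nn.2 ⟨by rw [ha, sb]; decide, h⟩
    rcases pairEq b x y hb2 hxb hyb hyx.symm a this with h' | h'
    · exact hax h'
    · exact hay h'
  by_cases hy1 : (nn H s y).card = 1
  · -- `y` is a leaf
    obtain ⟨b₁, hb₁⟩ := Finset.card_eq_one.1 hy1
    have hbb : b = b₁ := by
      rw [hb₁, Finset.mem_singleton] at hby
      exact hby
    subst hbb
    by_cases hz : ∃ z, s z = false ∧ z ≠ x ∧ z ≠ y
    · obtain ⟨z, sz, hzx, hzy⟩ := hz
      refine three_gsid hs hyx.symm hzx.symm hzy.symm sx sy sz hbq.symm sq sb hq' hb' ?_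
      intro c sc hcy
      left
      have : c ∈ nn H s y := mem_nn.2 ⟨by rw [sc, sy]; decide, fun h => hcy h.symm⟩
      rw [hb₁, Finset.mem_singleton] at this
      rw [this]
      exact (mem_nn.1 hxb).2
    · push Not at hz
      exact pair_side hs sx sy fun a ha => by
        by_cases h : a = x
        · exact Or.inl h
        · exact Or.inr (hz a ha h)
  · have hy2 : (nn H s y).card = 2 := by
      have h1 := twoA y hyA
      have h2 := c0' y
      omega
    obtain ⟨b', hb'y, hb'b⟩ : ∃ b' ∈ nn H s y, b' ≠ b := by
      obtain ⟨b', h, hne⟩ := Finset.exists_mem_ne (by omega : 1 < (nn H s y).card) b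
      exact ⟨b', h, hne⟩
    have hb'B := toB y hyT sy b' hb'y
    have hb'T : b' ∈ T := (Finset.mem_filter.1 hb'B).1
    have sb' := hBs b' hb'B
    have hyb' : y ∈ nn H s b' := by
      rw [nn_symm]
      exact hb'y
    have hb'q : b' ≠ q := by
      rintro rfl
      rw [hx, Finset.mem_singleton] at hyb'
      exact hyx hyb'
    have hb'2 : (nn H s b').card = 2 := by
      have h1 := twoB b' hb'B
      have h2 := c0' b'
      by_contra h3
      exact hb'q (uq b' hb'B (by omega))
    obtain ⟨z, hzb', hzy⟩ : ∃ z ∈ nn H s b', z ≠ y := by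
      obtain ⟨z, h, hne⟩ := Finset.exists_mem_ne (by omega : 1 < (nn H s b').card) y
      exact ⟨z, h, hne⟩
    have hzA := toA b' hb'T sb' z hzb'
    have sz := hAs z hzA
    have hzx : z ≠ x := by
      rintro rfl
      have h1 : b' ∈ nn H s z := by
        rw [nn_symm]
        exact hzb'
      rcases pairEq z q b hx2 hqx hb hbq.symm b' h1 with h' | h'
      · exact hb'q h'
      · exact hb'b h'
    refine three_gsid hs hyx.symm hzx.symm hzy.symm sx sy sz hbq.symm sq sb hq' hb' ?_
    intro c sc hcy
    have : c ∈ nn H s y := mem_nn.2 ⟨by rw [sc, sy]; decide, fun h => hcy h.symm⟩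
    rcases pairEq y b b' hy2 hby hb'y hb'b.symm c this with h' | h'
    · left
      rw [h']
      exact (mem_nn.1 hxb).2
    · right
      rw [h']
      exact (mem_nn.1 hzb').2

/-- **An acyclic component.** If the bipartite complement of `H` has an acyclic component which does
not consist of two vertices, then `H` satisfies the two-sided Sidorenko inequality. -/
theorem tree_gsid (hs : ∀ u v, H.Adj u v → s u ≠ s v) (c : (bcompl H s).ConnectedComponent)
    (hc : c.toSimpleGraph.IsAcyclic) (h2 : Nat.card c.supp ≠ 2) : GSid H s := by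
  classical
  have clo : ∀ u ∈ c.supp, ∀ v ∈ nn H s u, v ∈ c.supp := by
    intro u hu v hv
    rw [mem_nn'] at hv
    rw [SimpleGraph.ConnectedComponent.mem_supp_iff] at hu ⊢
    rw [← hu]
    exact (SimpleGraph.ConnectedComponent.sound hv.reachable).symm
  have hcard : Nat.card c = (univ.filter fun a => a ∈ c.supp).card := by
    exact Nat.subtype_card _ (by
      intro x
      rw [Finset.mem_filter]
      exact ⟨fun h => h.2, fun h => ⟨mem_univ _, h⟩⟩)
  have cnt : ∑ a ∈ univ.filter (fun a => a ∈ c.supp ∧ s a = false), (nn H s a).card + 1 =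
      (univ.filter fun a => a ∈ c.supp).card := by
    rw [sum_nn_set c.supp clo]
    have h := (SimpleGraph.isTree_iff_connected_and_card.1
      ⟨c.connected_toSimpleGraph, hc⟩).2
    rw [← hcard]
    exact h
  refine tree_core hs (univ.filter fun a => a ∈ c.supp) ?_ ?_ ?_
  · intro u hu v hv
    rw [Finset.mem_filter] at hu ⊢
    exact ⟨mem_univ _, clo u hu.2 v hv⟩
  · rw [Finset.filter_filter]
    exact cnt.le
  · intro q hq x hx hqx hxq
    apply h2
    have hqc := (Finset.mem_filter.1 hq).2
    have hxc := (Finset.mem_filter.1 hx).2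
    have hne : q ≠ x := by
      rintro rfl
      have : q ∈ nn H s q := by
        rw [hqx]
        exact Finset.mem_singleton_self _
      exact (mem_nn.1 this).1 rfl
    have key : ∀ u v : V, (bcompl H s).Walk u v → (u = q ∨ u = x) → (v = q ∨ v = x) := by
      intro u v p
      induction p with
      | nil => exact id
      | cons h _ ih =>
        intro hu
        apply ih
        have h' := mem_nn'.2 h
        rcases hu with rfl | rfl
        · rw [hqx, Finset.mem_singleton] at h'
          exact Or.inr h'
        · rw [hxq, Finset.mem_singleton] at h'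
          exact Or.inl h'
    have hsupp : ∀ v, v ∈ c.supp ↔ v ∈ ({q, x} : Finset V) := by
      intro v
      rw [Finset.mem_insert, Finset.mem_singleton]
      constructor
      · intro hv
        rw [SimpleGraph.ConnectedComponent.mem_supp_iff] at hv hqc
        obtain ⟨p⟩ := SimpleGraph.ConnectedComponent.exact (hqc.trans hv.symm)
        exact key q v p (Or.inl rfl)
      · rintro (rfl | rfl)
        · exact hqc
        · exact hxc
    have h3 : Nat.card c.supp = ({q, x} : Finset V).card := Nat.subtype_card _ fun v => by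
      rw [← hsupp]
    rw [h3, Finset.card_pair hne]

end Vale.Agent.P050.Deg
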