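import Vale.Agent.P050.Deg.Gen

/-!
Two components of the bipartite complement without two independent edges.
-/

set_option linter.unusedSectionVars false

namespace Vale.Agent.P050.Deg

open Finset Vale.Agent.P050.Lev Vale.Agent.P050.Cart Vale.Agent.P050.Join Vale.Agent.P050.Tmpl

variable {V : Type} [Fintype V] [DecidableEq V] {H : SimpleGraph V} {s : V → Bool}

/-- a union of components of the bipartite complement in which the sets of non-neighbours of the
vertices of the side `false` are nested: a vertex `y` seen by every vertex with a neighbour -/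
theorem chain_top (hs : ∀ u v, H.Adj u v → s u ≠ s v) (c0 : ∀ v, (nn H s v).Nonempty)
    (T : Finset V) (hne : T.Nonempty) (hT : ∀ u ∈ T, ∀ v ∈ nn H s u, v ∈ T)
    (h2 : ∀ a ∈ T, ∀ a' ∈ T, s a = s a' → ∀ b ∈ nn H s a, ∀ b' ∈ nn H s a',
      b' ∈ nn H s a ∨ b ∈ nn H s a') :
    ∃ y ∈ T, s y = false ∧ (∃ q ∈ T, s q = true) ∧
      ∀ b v, v ∈ T → s v = false → H.Adj b v → H.Adj b y := by
  classical
  set R := T.filter fun v => s v = false with hR
  have memR : ∀ v, v ∈ R ↔ v ∈ T ∧ s v = false := fun v => by rw [hR, Finset.mem_filter]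
  have hRne : R.Nonempty := by
    obtain ⟨v, hv⟩ := hne
    cases h : s v
    · exact ⟨v, (memR v).2 ⟨hv, h⟩⟩
    · obtain ⟨w, hw⟩ := c0 v
      refine ⟨w, (memR w).2 ⟨hT v hv w hw, ?_⟩⟩
      have := (mem_nn.1 hw).1
      rw [h] at this
      cases h' : s w
      · rfl
      · exact absurd h' this
  obtain ⟨y, hy, hmin⟩ := Finset.exists_min_image R (fun v => (nn H s v).card) hRne
  have hyT := ((memR y).1 hy).1
  have sy := ((memR y).1 hy).2
  refine ⟨y, hyT, sy, ?_, ?_⟩
  · obtain ⟨q, hq⟩ := c0 y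
    refine ⟨q, hT y hyT q hq, ?_⟩
    have := (mem_nn.1 hq).1
    rw [sy] at this
    cases h' : s q
    · exact absurd h' this
    · rfl
  · intro b v hv sv hbv
    have ymin : nn H s y ⊆ nn H s v := by
      by_contra h
      obtain ⟨b, hb, hb'⟩ := Finset.not_subset.1 h
      have h3 : nn H s v ⊆ nn H s y := by
        intro b' hb''
        rcases h2 y hyT v hv (sy.trans sv.symm) b hb b' hb'' with h4 | h4
        · exact h4
        · exact absurd h4 hb'
      have h4 := Finset.eq_of_subset_of_card_le h3 (hmin v ((memR v).2 ⟨hv, sv⟩))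
      exact h (h4 ▸ Finset.Subset.refl _)
    by_contra hby
    have sb := side_true_of hs hbv sv
    have h1 : b ∈ nn H s y := mem_nn.2 ⟨by rw [sb, sy]; decide, fun h => hby h.symm⟩
    exact (mem_nn.1 (ymin h1)).2 hbv.symm

/-- **Two unions of components of the bipartite complement without two independent edges.** -/
theorem chain_two (hs : ∀ u v, H.Adj u v → s u ≠ s v) (T₁ T₂ : Finset V) (hd : Disjoint T₁ T₂)
    (n₁ : T₁.Nonempty) (n₂ : T₂.Nonempty) (c₁ : ∀ u ∈ T₁, ∀ v ∈ nn H s u, v ∈ T₁)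
    (c₂ : ∀ u ∈ T₂, ∀ v ∈ nn H s u, v ∈ T₂)
    (f₁ : ∀ a ∈ T₁, ∀ a' ∈ T₁, s a = s a' → ∀ b ∈ nn H s a, ∀ b' ∈ nn H s a',
      b' ∈ nn H s a ∨ b ∈ nn H s a')
    (f₂ : ∀ a ∈ T₂, ∀ a' ∈ T₂, s a = s a' → ∀ b ∈ nn H s a, ∀ b' ∈ nn H s a',
      b' ∈ nn H s a ∨ b ∈ nn H s a') : GSid H s := by
  classical
  by_cases c0 : ∃ v, nn H s v = ∅
  · obtain ⟨v, hv⟩ := c0
    exact dom_any hs hv
  push Not at c0
  obtain ⟨y₁, hy₁, sy₁, ⟨q₁, hq₁, sq₁⟩, top₁⟩ := chain_top hs c0 T₁ n₁ c₁ f₁
  obtain ⟨y₂, hy₂, sy₂, ⟨q₂, hq₂, sq₂⟩, top₂⟩ := chain_top hs c0 T₂ n₂ c₂ f₂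
  have hyy : y₁ ≠ y₂ := fun h => (Finset.disjoint_left.1 hd) hy₁ (h ▸ hy₂)
  have hqq : q₁ ≠ q₂ := fun h => (Finset.disjoint_left.1 hd) hq₁ (h ▸ hq₂)
  obtain ⟨i, hi⟩ : ∃ i : V → ℕ, Function.Injective i := ⟨fun v => (Fintype.equivFin V v).1,
    fun a b h => (Fintype.equivFin V).injective (Fin.ext h)⟩
  obtain ⟨r, r1, r2, r3⟩ : ∃ r : V → ℕ, r y₁ = 0 ∧ r y₂ = 1 ∧
      ∀ v, v ≠ y₁ → v ≠ y₂ → r v = 2 + i v := by
    refine ⟨fun v => if v = y₁ then 0 else if v = y₂ then 1 else 2 + i v, if_pos rfl, ?_, ?_⟩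
    · simp only [if_neg hyy.symm, if_true]
    · intro v h1 h2
      simp only [if_neg h1, if_neg h2]
  set R₁ := T₁.filter fun v => s v = false with hR₁
  set R₂ := T₂.filter fun v => s v = false with hR₂
  have memR₁ : ∀ v, v ∈ R₁ ↔ v ∈ T₁ ∧ s v = false := fun v => by rw [hR₁, Finset.mem_filter]
  have memR₂ : ∀ v, v ∈ R₂ ↔ v ∈ T₂ ∧ s v = false := fun v => by rw [hR₂, Finset.mem_filter]
  clear_value R₁ R₂
  have hRd : Disjoint R₁ R₂ := by
    rw [Finset.disjoint_left]
    intro v h1 h2
    exact (Finset.disjoint_left.1 hd) ((memR₁ v).1 h1).1 ((memR₂ v).1 h2).1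
  refine core_false hs (R₁ ∪ R₂) ?_ ⟨y₁, Finset.mem_union_left _ ((memR₁ y₁).2 ⟨hy₁, sy₁⟩)⟩ r
    ?_ ?_ {q₁, q₂} ?_ ?_
  · intro d hdD
    rcases Finset.mem_union.1 hdD with h | h
    · exact ((memR₁ d).1 h).2
    · exact ((memR₂ d).1 h).2
  · intro d _ e _ hde
    by_cases d1 : d = y₁
    · by_cases e1 : e = y₁
      · rw [d1, e1]
      · by_cases e2 : e = y₂
        · rw [d1, e2, r1, r2] at hde
          omega
        · rw [d1, r1, r3 e e1 e2] at hde
          omega
    · by_cases d2 : d = y₂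
      · by_cases e1 : e = y₁
        · rw [d2, e1, r1, r2] at hde
          omega
        · by_cases e2 : e = y₂
          · rw [d2, e2]
          · rw [d2, r2, r3 e e1 e2] at hde
            omega
      · by_cases e1 : e = y₁
        · rw [e1, r1, r3 d d1 d2] at hde
          omega
        · by_cases e2 : e = y₂
          · rw [e2, r2, r3 d d1 d2] at hde
            omega
          · rw [r3 d d1 d2, r3 e e1 e2] at hde
            exact hi (by omega)
  · intro d hdD
    by_cases d1 : d = y₁
    · refine ⟨d, hdD, ?_⟩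
      rintro b _ ⟨f, _, hrf, _⟩
      rw [d1, r1] at hrf
      exact absurd hrf (Nat.not_lt_zero _)
    by_cases d2 : d = y₂
    · refine ⟨y₁, Finset.mem_union_left _ ((memR₁ y₁).2 ⟨hy₁, sy₁⟩), ?_⟩
      rintro b _ ⟨f, _, hrf, hbf⟩
      rw [d2, r2] at hrf
      have hf : f = y₁ := by
        by_contra h1
        by_cases h2 : f = y₂
        · rw [h2, r2] at hrf
          omega
        · rw [r3 f h1 h2] at hrf
          omega
      refine ⟨by rw [d2, r1, r2]; decide, hf ▸ hbf⟩
    · rcases Finset.mem_union.1 hdD with h | h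
      · refine ⟨y₁, Finset.mem_union_left _ ((memR₁ y₁).2 ⟨hy₁, sy₁⟩), ?_⟩
        rintro b hbd _
        exact ⟨by rw [r1, r3 d d1 d2]; omega,
          top₁ b d ((memR₁ d).1 h).1 ((memR₁ d).1 h).2 hbd⟩
      · refine ⟨y₂, Finset.mem_union_right _ ((memR₂ y₂).2 ⟨hy₂, sy₂⟩), ?_⟩
        rintro b hbd _
        exact ⟨by rw [r2, r3 d d1 d2]; omega,
          top₂ b d ((memR₂ d).1 h).1 ((memR₂ d).1 h).2 hbd⟩
  · intro b hb
    rw [Finset.mem_insert, Finset.mem_singleton] at hb
    rcases hb with rfl | rfl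
    · refine ⟨by rw [sq₁]; decide, fun a sa haD => ?_⟩
      by_contra h
      have h1 : a ∈ nn H s b := mem_nn.2 ⟨by rw [sa, sq₁]; decide, h⟩
      exact haD (Finset.mem_union_left _ ((memR₁ a).2 ⟨c₁ b hq₁ a h1, sa⟩))
    · refine ⟨by rw [sq₂]; decide, fun a sa haD => ?_⟩
      by_contra h
      have h1 : a ∈ nn H s b := mem_nn.2 ⟨by rw [sa, sq₂]; decide, h⟩
      exact haD (Finset.mem_union_right _ ((memR₂ a).2 ⟨c₂ b hq₂ a h1, sa⟩))
  · rw [Finset.sum_pair hqq]
    have e : ∀ c, Nat.card {d : V // d ∈ R₁ ∪ R₂ ∧ H.Adj c d} =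
        (na H (R₁ ∪ R₂) c).card := fun c => Nat.subtype_card _ fun x => mem_na
    rw [e, e, Finset.card_union_of_disjoint hRd]
    have g1 : R₂ ⊆ na H (R₁ ∪ R₂) q₁ := by
      intro v hv
      rw [mem_na]
      refine ⟨Finset.mem_union_right _ hv, ?_⟩
      by_contra h
      have h1 : v ∈ nn H s q₁ := mem_nn.2 ⟨by rw [((memR₂ v).1 hv).2, sq₁]; decide, h⟩
      exact (Finset.disjoint_left.1 hd) (c₁ q₁ hq₁ v h1) ((memR₂ v).1 hv).1
    have g2 : R₁ ⊆ na H (R₁ ∪ R₂) q₂ := by
      intro v hv
      rw [mem_na]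
      refine ⟨Finset.mem_union_left _ hv, ?_⟩
      by_contra h
      have h1 : v ∈ nn H s q₂ := mem_nn.2 ⟨by rw [((memR₁ v).1 hv).2, sq₂]; decide, h⟩
      exact (Finset.disjoint_left.1 hd) ((memR₁ v).1 hv).1 (c₂ q₂ hq₂ v h1)
    have h1 := Finset.card_le_card g1
    have h2 := Finset.card_le_card g2
    omega

/-- the bipartite complement of `(H, s)` has no induced matching with two edges with an end in
`S` each, these ends having the same colour -/
def Chain (H : SimpleGraph V) (s : V → Bool) (S : Set V) : Prop :=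
  ∀ a b a' b', a ∈ S → a' ∈ S → s a = s a' → (bcompl H s).Adj a b → (bcompl H s).Adj a' b' →
    (bcompl H s).Adj a b' ∨ (bcompl H s).Adj a' b

/-- **Two components without two independent edges.** -/
theorem two_comp (hs : ∀ u v, H.Adj u v → s u ≠ s v) (c c' : (bcompl H s).ConnectedComponent)
    (hne : c ≠ c') (h1 : Chain H s c.supp) (h2 : Chain H s c'.supp) : GSid H s := by
  classical
  have memT : ∀ (c : (bcompl H s).ConnectedComponent) (v : V),
      v ∈ (univ.filter fun a => a ∈ c.supp) ↔ v ∈ c.supp := fun c v => by simp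
  have clo : ∀ (c : (bcompl H s).ConnectedComponent), ∀ u ∈ c.supp, ∀ v ∈ nn H s u,
      v ∈ c.supp := by
    intro c u hu v hv
    rw [mem_nn'] at hv
    rw [SimpleGraph.ConnectedComponent.mem_supp_iff] at hu ⊢
    rw [← hu]
    exact (SimpleGraph.ConnectedComponent.sound hv.reachable).symm
  have clo' : ∀ (c : (bcompl H s).ConnectedComponent), ∀ u ∈ (univ.filter fun a => a ∈ c.supp),
      ∀ v ∈ nn H s u, v ∈ (univ.filter fun a => a ∈ c.supp) := fun c u hu v hv =>
    (memT c v).2 (clo c u ((memT c u).1 hu) v hv)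
  have ch : ∀ (c : (bcompl H s).ConnectedComponent), Chain H s c.supp →
      ∀ a ∈ (univ.filter fun a => a ∈ c.supp), ∀ a' ∈ (univ.filter fun a => a ∈ c.supp),
      s a = s a' → ∀ b ∈ nn H s a, ∀ b' ∈ nn H s a', b' ∈ nn H s a ∨ b ∈ nn H s a' := by
    intro c hc a ha a' ha' haa b hb b' hb'
    rcases hc a b a' b' ((memT c a).1 ha) ((memT c a').1 ha') haa (mem_nn'.1 hb) (mem_nn'.1 hb')
      with h | h
    · exact Or.inl (mem_nn'.2 h)
    · exact Or.inr (mem_nn'.2 h)
  have nem : ∀ (c : (bcompl H s).ConnectedComponent),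
      (univ.filter fun a => a ∈ c.supp).Nonempty := by
    intro c
    obtain ⟨v, hv⟩ := c.nonempty_supp
    exact ⟨v, (memT c v).2 hv⟩
  refine chain_two hs _ _ ?_ (nem c) (nem c') (clo' c) (clo' c') (ch c h1) (ch c' h2)
  rw [Finset.disjoint_left]
  intro v hv hv'
  have h3 := (memT c v).1 hv
  have h4 := (memT c' v).1 hv'
  rw [SimpleGraph.ConnectedComponent.mem_supp_iff] at h3 h4
  exact hne (h3.symm.trans h4)

/-- double counting of the missing edges -/
theorem missing (hs : ∀ u v, H.Adj u v → s u ≠ s v) :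
    ∑ a ∈ univ.filter (fun a => s a = false), (nn H s a).card + Nat.card H.edgeSet =
      (univ.filter fun v => s v = false).card * (univ.filter fun v => s v = true).card := by
  classical
  rw [← card_sideEdges H s hs]
  have h1 : (sideEdges H s).card =
      ∑ a ∈ univ.filter (fun a => s a = false), (univ.filter fun b => H.Adj a b).card := by
    unfold sideEdges
    rw [Finset.card_filter, Fintype.sum_prod_type, Finset.sum_filter]
    refine Finset.sum_congr rfl fun a _ => ?_
    split_ifs with ha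
    · refine (Finset.card_filter _ _).symm.trans ?_
      congr 1
      refine Finset.filter_congr fun b _ => ?_
      refine ⟨fun h => h.1, fun h => ⟨h, ha, ?_⟩⟩
      have := hs _ _ h
      rw [ha] at this
      cases hb : s b
      · exact absurd hb.symm this
      · rfl
    · refine Finset.sum_eq_zero fun b _ => ?_
      rw [if_neg]
      exact fun h => ha h.2.1
  rw [h1, ← Finset.sum_add_distrib, ← smul_eq_mul, ← Finset.sum_const]
  refine Finset.sum_congr rfl fun a ha => ?_
  rw [Finset.mem_filter] at ha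
  rw [← Finset.card_union_of_disjoint]
  · congr 1
    ext b
    rw [Finset.mem_union, mem_nn, Finset.mem_filter, Finset.mem_filter, ha.2]
    constructor
    · rintro (h | h)
      · refine ⟨mem_univ _, ?_⟩
        cases hb : s b
        · exact absurd hb h.1
        · rfl
      · refine ⟨mem_univ _, ?_⟩
        have := hs _ _ h.2
        rw [ha.2] at this
        cases hb : s b
        · exact absurd hb.symm this
        · rfl
    · intro h
      by_cases hab : H.Adj a b
      · exact Or.inr ⟨mem_univ _, hab⟩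
      · refine Or.inl ⟨?_, hab⟩
        rw [h.2]
        decide
  · rw [Finset.disjoint_left]
    intro b hb hb'
    exact (mem_nn.1 hb).2 (Finset.mem_filter.1 hb').2

/-- **Fewer missing edges than vertices**, and no isolated missing edge. -/
theorem dense_sum (hs : ∀ u v, H.Adj u v → s u ≠ s v)
    (h : (univ.filter fun v => s v = false).card * (univ.filter fun v => s v = true).card + 1 ≤
      Nat.card H.edgeSet + Fintype.card V)
    (hK : ∀ c : (bcompl H s).ConnectedComponent, Nat.card c.supp ≠ 2) : GSid H s := by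
  classical
  refine tree_core hs univ (fun _ _ _ _ => mem_univ _) ?_ ?_
  · have := missing hs
    rw [Finset.card_univ]
    omega
  · intro q _ x _ hqx hxq
    have hne : q ≠ x := by
      rintro rfl
      have : q ∈ nn H s q := by
        rw [hqx]
        exact Finset.mem_singleton_self _
      exact (mem_nn.1 this).1 rfl
    have key : ∀ u v : V, (bcompl H s).Walk u v → (u = q ∨ u = x) → (v = q ∨ v = x) := by
      intro u v p
      induction p with
      | nil => exact id
      | cons h _ ih =>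
        intro hu
        apply ih
        have h' := mem_nn'.2 h
        rcases hu with rfl | rfl
        · rw [hqx, Finset.mem_singleton] at h'
          exact Or.inr h'
        · rw [hxq, Finset.mem_singleton] at h'
          exact Or.inl h'
    refine hK ((bcompl H s).connectedComponentMk q) ?_
    have hqx' : (bcompl H s).Adj q x := mem_nn'.1 (by
      rw [hqx]
      exact Finset.mem_singleton_self _)
    have hsupp : ∀ v, v ∈ ((bcompl H s).connectedComponentMk q).supp ↔
        v ∈ ({q, x} : Finset V) := by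
      intro v
      rw [Finset.mem_insert, Finset.mem_singleton, SimpleGraph.ConnectedComponent.mem_supp_iff]
      constructor
      · intro hv
        obtain ⟨p⟩ := SimpleGraph.ConnectedComponent.exact hv.symm
        exact key q v p (Or.inl rfl)
      · rintro (rfl | rfl)
        · rfl
        · exact (SimpleGraph.ConnectedComponent.sound hqx'.reachable).symm
    have h3 : Nat.card ((bcompl H s).connectedComponentMk q).supp = ({q, x} : Finset V).card :=
      Nat.subtype_card _ fun v => by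
        rw [← hsupp]
    rw [h3, Finset.card_pair hne]

/-- **Components of the bipartite complement.** -/
theorem comp_all (hs : ∀ u v, H.Adj u v → s u ≠ s v) (c : (bcompl H s).ConnectedComponent)
    (h : (c.toSimpleGraph.IsAcyclic ∧ Nat.card c.supp ≠ 2) ∨
      (Chain H s c.supp ∧ ((∃ u ∈ c.supp, ∃ v ∈ c.supp, H.Adj u v) ∨
        Nat.card {v : V // v ∈ c.supp ∧ s v = false} ≠
          Nat.card {v : V // v ∈ c.supp ∧ s v = true} ∨
        ∃ c' : (bcompl H s).ConnectedComponent, c' ≠ c ∧ Chain H s c'.supp))) : GSid H s := by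
  rcases h with h | ⟨h1, h2 | h2 | ⟨c', hne, h2⟩⟩
  · exact good_comp hs c (Or.inl h)
  · exact good_comp hs c (Or.inr ⟨h1, Or.inl h2⟩)
  · exact good_comp hs c (Or.inr ⟨h1, Or.inr h2⟩)
  · exact two_comp hs c c' hne.symm h1 h2

end Vale.Agent.P050.Deg
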