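import Vale.Agent.P050.Deg.Prod

/-!
Parts of the same size `n` and `2 n` missing edges.
-/

set_option linter.unusedSectionVars false

namespace Vale.Agent.P050.Deg

open Finset Vale.Agent.P050.Lev Vale.Agent.P050.Cart Vale.Agent.P050.Join Vale.Agent.P050.Tmpl

variable {V : Type} [Fintype V] [DecidableEq V] {H : SimpleGraph V} {s : V → Bool}

/-- three copies -/
theorem three_false (hs : ∀ u v, H.Adj u v → s u ≠ s v) {x y z q b : V} (hxy : x ≠ y)
    (hxz : x ≠ z) (hyz : y ≠ z) (sx : s x = false) (sy : s y = false) (sz : s z = false)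
    (hqb : q ≠ b) (sq : s q = true) (sb : s b = true)
    (hq : ∀ a, s a = false → a ≠ x → H.Adj q a)
    (hb : ∀ a, s a = false → a ≠ x → a ≠ y → a ≠ z → H.Adj b a)
    (hb' : H.Adj b x ∨ H.Adj b y ∨ H.Adj b z)
    (hy : ∀ c, s c = true → ¬ H.Adj c y → ¬ H.Adj c x ∨ ¬ H.Adj c z) : GSid H s := by
  classical
  have memD : ∀ v, v ∈ ({y, x, z} : Finset V) ↔ v = y ∨ v = x ∨ v = z := by
    intro v
    simp
  obtain ⟨r, ry, rx, rz⟩ : ∃ r : V → ℕ, r y = 0 ∧ r x = 1 ∧ r z = 2 := by
    refine ⟨fun v => if v = y then 0 else if v = x then 1 else 2, if_pos rfl, ?_, ?_⟩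
    · simp only [if_neg hxy, if_true]
    · simp only [if_neg hyz.symm, if_neg hxz.symm]
  refine core_false hs {y, x, z} ?_ ⟨y, Finset.mem_insert_self _ _⟩ r ?_ ?_ {q, b} ?_ ?_
  · intro d hd
    rcases (memD d).1 hd with rfl | rfl | rfl
    · exact sy
    · exact sx
    · exact sz
  · intro d hd e he hde
    rcases (memD d).1 hd with hd' | hd' | hd' <;> rcases (memD e).1 he with he' | he' | he' <;>
      rw [hd', he'] at hde ⊢ <;> omega
  · intro d hd
    refine ⟨y, Finset.mem_insert_self _ _, ?_⟩
    rintro c hcd ⟨f, hf, hrf, hcf⟩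
    rcases (memD d).1 hd with hd' | hd' | hd'
    · rw [hd', ry] at hrf
      exact absurd hrf (Nat.not_lt_zero _)
    · rw [hd', rx] at hrf
      have hfy : f = y := by
        rcases (memD f).1 hf with hf' | hf' | hf'
        · exact hf'
        · rw [hf'] at hrf
          omega
        · rw [hf'] at hrf
          omega
      refine ⟨?_, hfy ▸ hcf⟩
      rw [hd']
      omega
    · have hcy : H.Adj c y := by
        by_contra hcy
        have hsc := side_true_of hs (hd' ▸ hcd) sz
        rcases (memD f).1 hf with hf' | hf' | hf'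
        · exact hcy (hf' ▸ hcf)
        · rcases hy c hsc hcy with h | h
          · exact h (hf' ▸ hcf)
          · exact h (hd' ▸ hcd)
        · rw [hd', hf'] at hrf
          omega
      refine ⟨?_, hcy⟩
      rw [hd']
      omega
  · intro c hc
    rw [Finset.mem_insert, Finset.mem_singleton] at hc
    rcases hc with rfl | rfl
    · refine ⟨by rw [sq]; decide, fun a ha haD => ?_⟩
      rw [memD] at haD
      push Not at haD
      exact hq a ha haD.2.1
    · refine ⟨by rw [sb]; decide, fun a ha haD => ?_⟩
      rw [memD] at haD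
      push Not at haD
      exact hb a ha haD.2.1 haD.1 haD.2.2
  · rw [Finset.sum_pair hqb]
    have e : ∀ c, Nat.card {d : V // d ∈ ({y, x, z} : Finset V) ∧ H.Adj c d} =
        (na H {y, x, z} c).card := fun c => Nat.subtype_card _ fun x => mem_na
    rw [e, e]
    have g1 : ({y, z} : Finset V) ⊆ na H {y, x, z} q := by
      intro v hv
      rw [Finset.mem_insert, Finset.mem_singleton] at hv
      rw [mem_na, memD]
      rcases hv with rfl | rfl
      · exact ⟨Or.inl rfl, hq _ sy hxy.symm⟩
      · exact ⟨Or.inr (Or.inr rfl), hq _ sz hxz.symm⟩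
    have g2 : 1 ≤ (na H {y, x, z} b).card := by
      rw [Nat.one_le_iff_ne_zero, ← Nat.pos_iff_ne_zero, Finset.card_pos]
      rcases hb' with h | h | h
      · exact ⟨x, mem_na.2 ⟨(memD x).2 (Or.inr (Or.inl rfl)), h⟩⟩
      · exact ⟨y, mem_na.2 ⟨(memD y).2 (Or.inl rfl), h⟩⟩
      · exact ⟨z, mem_na.2 ⟨(memD z).2 (Or.inr (Or.inr rfl)), h⟩⟩
    have h1 := Finset.card_le_card g1
    rw [Finset.card_pair hyz] at h1
    have h3 : ({y, x, z} : Finset V).card ≤ 3 := Finset.card_le_three
    omega

/-- three copies, either side -/
theorem three_any (hs : ∀ u v, H.Adj u v → s u ≠ s v) {x y z q b : V} (hxy : x ≠ y)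
    (hxz : x ≠ z) (hyz : y ≠ z) (sy : s y = s x) (sz : s z = s x)
    (hqb : q ≠ b) (sq : s q ≠ s x) (sb : s b ≠ s x)
    (hq : ∀ a ∈ nn H s q, a = x) (hb : ∀ a ∈ nn H s b, a = x ∨ a = y ∨ a = z)
    (hb' : x ∉ nn H s b ∨ y ∉ nn H s b ∨ z ∉ nn H s b)
    (hy : ∀ c ∈ nn H s y, c ∈ nn H s x ∨ c ∈ nn H s z) : GSid H s := by
  have adj : ∀ u v, s v ≠ s u → v ∉ nn H s u → H.Adj u v := by
    intro u v h1 h2
    by_contra h3
    exact h2 (mem_nn.2 ⟨h1, h3⟩)
  have hq' : ∀ a, s a = s x → a ≠ x → H.Adj q a := fun a ha hax =>
    adj q a (by rw [ha]; exact sq.symm) fun h => hax (hq a h)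
  have hb1 : ∀ a, s a = s x → a ≠ x → a ≠ y → a ≠ z → H.Adj b a := fun a ha h1 h2 h3 =>
    adj b a (by rw [ha]; exact sb.symm) fun h => by
      rcases hb a h with h | h | h
      · exact h1 h
      · exact h2 h
      · exact h3 h
  have hb2 : H.Adj b x ∨ H.Adj b y ∨ H.Adj b z := by
    rcases hb' with h | h | h
    · exact Or.inl (adj b x sb.symm h)
    · exact Or.inr (Or.inl (adj b y (by rw [sy]; exact sb.symm) h))
    · exact Or.inr (Or.inr (adj b z (by rw [sz]; exact sb.symm) h))
  have hy1 : ∀ c, s c ≠ s x → ¬ H.Adj c y → ¬ H.Adj c x ∨ ¬ H.Adj c z := by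
    intro c hc hcy
    rcases hy c (mem_nn.2 ⟨by rw [sy]; exact hc, fun h => hcy h.symm⟩) with h | h
    · exact Or.inl fun h' => (mem_nn.1 h).2 h'.symm
    · exact Or.inr fun h' => (mem_nn.1 h).2 h'.symm
  have tr : ∀ {u : V}, s u ≠ false → s u = true := fun {u} h => by
    cases hu : s u
    · exact absurd hu h
    · rfl
  cases hx : s x
  · rw [hx] at sy sz sq sb hq' hb1 hy1
    exact three_false hs hxy hxz hyz hx sy sz hqb (tr sq) (tr sb) hq' hb1 hb2
      fun c hc => hy1 c (by rw [hc]; decide)
  · rw [hx] at sy sz sq sb hq' hb1 hy1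
    have e : ∀ {u}, ((!s u) = false) → (s u = true) := fun {u} => by cases s u <;> decide
    have f : ∀ {u}, ((!s u) = true) → (s u ≠ true) := fun {u} => by cases s u <;> decide
    have g : ∀ {u}, (s u ≠ true) → ((!s u) = true) := fun {u} => by cases s u <;> decide
    have h := three_false (H := H) (s := fun v => !s v) (flip_hs hs) hxy hxz hyz
      (by simp [hx]) (by simp [sy]) (by simp [sz]) hqb (g sq) (g sb)
      (fun a ha => hq' a (e ha)) (fun a ha => hb1 a (e ha)) hb2 fun c hc => hy1 c (f hc)
    have h2 := GSid.flip h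
    simpa using h2

/-- a 2-regular component with four vertices -/
theorem chain_four (c : (bcompl H s).ConnectedComponent)
    (hd : ∀ w ∈ c.supp, (nn H s w).card = 2) (hc : Nat.card c.supp = 4) : Chain H s c.supp := by
  classical
  intro a b a' b' ha ha' haa hb hb'
  rw [← mem_nn'] at hb hb' ⊢
  rw [← mem_nn']
  by_contra hno
  push Not at hno
  obtain ⟨h1, h2⟩ := hno
  obtain ⟨β, hβ, hβb⟩ := Finset.exists_mem_ne (by rw [hd a ha]; decide) b
  have hsub : ({a, a', b, b', β} : Finset V) ⊆ univ.filter fun v => v ∈ c.supp := by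
    intro x hx
    simp only [Finset.mem_insert, Finset.mem_singleton] at hx
    rw [Finset.mem_filter]
    refine ⟨mem_univ _, ?_⟩
    rcases hx with rfl | rfl | rfl | rfl | rfl
    · exact ha
    · exact ha'
    · exact comp_clo c a ha _ hb
    · exact comp_clo c a' ha' _ hb'
    · exact comp_clo c a ha _ hβ
  have h3 := Finset.card_le_card hsub
  have h4 : Nat.card c.supp = (univ.filter fun v => v ∈ c.supp).card :=
    Nat.subtype_card _ fun v => by simp
  have sb := (mem_nn.1 hb).1
  have sb' := (mem_nn.1 hb').1
  have sβ := (mem_nn.1 hβ).1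
  have e1 : a ≠ a' := fun h => h2 (h ▸ hb)
  have e2 : a ≠ b := fun h => sb (by rw [← h])
  have e3 : a ≠ b' := fun h => sb' (by rw [← h, haa])
  have e4 : a ≠ β := fun h => sβ (by rw [← h])
  have e5 : a' ≠ b := fun h => sb (by rw [← h, haa])
  have e6 : a' ≠ b' := fun h => sb' (by rw [← h])
  have e7 : a' ≠ β := fun h => sβ (by rw [← h, haa])
  have e8 : b ≠ b' := fun h => h1 (h ▸ hb)
  have e9 : b' ≠ β := fun h => h1 (h ▸ hβ)
  have h5 : ({a, a', b, b', β} : Finset V).card = 5 := by
    rw [Finset.card_insert_of_notMem, Finset.card_insert_of_notMem, Finset.card_insert_of_notMem,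
      Finset.card_insert_of_notMem, Finset.card_singleton]
    · simpa using e9
    · simpa using ⟨e8, hβb.symm⟩
    · simpa using ⟨e5, e6, e7⟩
    · simpa using ⟨e1, e2, e3, e4⟩
  omega

/-- **Parts of the same size `n` and at least `n (n - 2)` edges**, no component of the bipartite
complement with two vertices. Then `H` satisfies the two-sided Sidorenko inequality, unless the
bipartite complement consists of cycles, all of length at least ten with at most one exception, of
length four. -/
theorem dense_two (hs : ∀ u v, H.Adj u v → s u ≠ s v)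
    (hmn : (univ.filter fun v => s v = false).card = (univ.filter fun v => s v = true).card)
    (h : (univ.filter fun v => s v = false).card * (univ.filter fun v => s v = true).card ≤
      Nat.card H.edgeSet + Fintype.card V)
    (hK : ∀ c : (bcompl H s).ConnectedComponent, Nat.card c.supp ≠ 2)
    (hC : ¬ ((∀ v, Nat.card {u : V // (bcompl H s).Adj v u} = 2) ∧
      (∀ c : (bcompl H s).ConnectedComponent, Nat.card c.supp = 4 ∨ 10 ≤ Nat.card c.supp) ∧
      ∀ c c' : (bcompl H s).ConnectedComponent, Nat.card c.supp = 4 → Nat.card c'.supp = 4 →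
        c = c')) : GSid H s := by
  classical
  by_contra hG
  have c0 : ∀ v, 1 ≤ (nn H s v).card := fun v => by
    by_contra h'
    exact hG (dom_any hs (v := v) (Finset.card_eq_zero.1 (by omega)))
  have c2 : ∀ q₁ q₂, q₁ ≠ q₂ → s q₁ = s q₂ → (nn H s q₁).card = 1 → 2 ≤ (nn H s q₂).card := by
    intro q₁ q₂ hq hqq h1
    by_contra h'
    exact hG (two_few hs hq hqq (by omega) (by omega))
  -- colours
  have co : ∀ {u v}, u ∈ nn H s v → s u ≠ s v := fun hu => (mem_nn.1 hu).1
  have bb : ∀ {a b c : Bool}, a ≠ c → b ≠ c → a = b := by decide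
  -- no component with two vertices
  have no2 : ∀ u v, (∀ a ∈ nn H s u, a = v) → (∀ a ∈ nn H s v, a = u) → False := by
    intro u v hu hv
    obtain ⟨v', hv'⟩ := Finset.card_pos.1 (c0 u)
    have hvu : v ∈ nn H s u := by
      rw [← hu v' hv']
      exact hv'
    have hne : u ≠ v := fun h' => co hvu (by rw [h'])
    have huv : (bcompl H s).Adj u v := mem_nn'.1 hvu
    refine hK ((bcompl H s).connectedComponentMk u) ?_
    have hsupp : ∀ w, w ∈ ({u, v} : Finset V) ↔
        w ∈ ((bcompl H s).connectedComponentMk u).supp := by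
      intro w
      constructor
      · intro hw
        rw [Finset.mem_insert, Finset.mem_singleton] at hw
        rw [SimpleGraph.ConnectedComponent.mem_supp_iff]
        rcases hw with rfl | rfl
        · rfl
        · exact (SimpleGraph.ConnectedComponent.sound huv.reachable).symm
      · refine supp_sub _ {u, v} ?_ (a := u) ?_ (Finset.mem_insert_self _ _) w
        · intro x hx y hy
          rw [Finset.mem_insert, Finset.mem_singleton] at hx ⊢
          rcases hx with rfl | rfl
          · exact Or.inr (hu y hy)
          · exact Or.inl (hv y hy)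
        · rw [SimpleGraph.ConnectedComponent.mem_supp_iff]
    have h3 : Nat.card ((bcompl H s).connectedComponentMk u).supp = ({u, v} : Finset V).card :=
      Nat.subtype_card _ fun w => hsupp w
    rw [h3, Finset.card_pair hne]
  -- the sums of the co-degrees
  set S : Bool → ℕ := fun b => ∑ a ∈ univ.filter (fun a => s a = b), (nn H s a).card with hS
  set k : Bool → ℕ := fun b => (univ.filter fun v => s v = b).card with hk
  have hSe : ∀ b, S b + Nat.card H.edgeSet = k false * k true := by
    intro b
    cases b
    · exact missing hs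
    · have h1 := missing (flip_hs hs)
      have e1 : ∀ b : Bool, (univ.filter fun v => (!s v) = b) = univ.filter fun v => s v = !b := by
        intro b
        refine Finset.filter_congr fun v _ => ?_
        cases s v <;> cases b <;> decide
      rw [e1, e1] at h1
      simp only [Bool.not_false, Bool.not_true, nn_flip] at h1
      rw [mul_comm]
      exact h1
  have hV : Fintype.card V = k false + k true := by
    have h1 := Finset.card_filter_add_card_filter_not (s := (univ : Finset V)) (fun w => s w = false)
    have h2 : (univ.filter fun w => ¬ s w = false) = univ.filter fun w => s w = true := by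
      refine Finset.filter_congr fun w _ => ?_
      cases s w <;> decide
    rw [h2, Finset.card_univ] at h1
    exact h1.symm
  have hkk : k false = k true := hmn
  have hkb : ∀ b, k b = k false := by
    intro b
    cases b
    · rfl
    · exact hkk.symm
  have hS2 : ∀ b, S b = 2 * k b := by
    intro b
    have h6 := hSe b
    have h8 : k false * k true ≤ Nat.card H.edgeSet + (k false + k true) := by
      rw [← hV]
      exact h
    have h9 : ¬ (k false * k true + 1 ≤ Nat.card H.edgeSet + (k false + k true)) := by
      intro h'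
      rw [← hV] at h'
      exact hG (dense_prod hs h' fun h'' => by
        obtain ⟨⟨c, hc, _⟩, _⟩ := h''
        exact hK c hc)
    rw [hkb b]
    omega
  set g : V → ℕ := fun x => (nn H s x).card + (if (nn H s x).card = 1 then 1 else 0) - 2 with hg
  have gsum : ∀ b, ∑ x ∈ univ.filter (fun a => s a = b), g x =
      ((univ.filter fun a => s a = b).filter fun a => (nn H s a).card = 1).card := by
    intro b
    have h1 : ∑ x ∈ univ.filter (fun a => s a = b), (g x + 2) =
        ∑ x ∈ univ.filter (fun a => s a = b), ((nn H s x).card +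
          (if (nn H s x).card = 1 then 1 else 0)) := by
      refine Finset.sum_congr rfl fun x _ => ?_
      have := c0 x
      simp only [hg]
      split_ifs <;> omega
    rw [Finset.sum_add_distrib, Finset.sum_add_distrib, Finset.sum_const, smul_eq_mul,
      ← Finset.card_filter] at h1
    have h2 := hS2 b
    simp only [hS, hk] at h2
    omega
  have leaf1 : ∀ b, ((univ.filter fun a => s a = b).filter fun a => (nn H s a).card = 1).card ≤
      1 := by
    intro b
    rw [Finset.card_le_one]
    intro x hx y hy
    rw [Finset.mem_filter, Finset.mem_filter] at hx hy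
    by_contra hxy
    have := c2 x y hxy (hx.1.2.trans hy.1.2.symm) hx.2
    omega
  have gle : ∀ v, g v ≤ 1 := by
    intro v
    have h1 := Finset.single_le_sum (f := g) (s := univ.filter fun a => s a = s v)
      (fun x _ => Nat.zero_le _) (Finset.mem_filter.2 ⟨mem_univ v, rfl⟩)
    rw [gsum] at h1
    exact h1.trans (leaf1 _)
  have F3 : ∀ v, (nn H s v).card ≤ 3 := by
    intro v
    have h1 := gle v
    simp only [hg] at h1
    split_ifs at h1 <;> omega
  have F2 : ∀ v w, v ≠ w → s v = s w → (nn H s v).card = 3 → (nn H s w).card ≤ 2 := by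
    intro v w hvw hc h3
    by_contra hw
    have h1 : ({v, w} : Finset V) ⊆ univ.filter fun a => s a = s w := by
      intro x hx
      rw [Finset.mem_insert, Finset.mem_singleton] at hx
      rw [Finset.mem_filter]
      rcases hx with rfl | rfl
      · exact ⟨mem_univ _, hc⟩
      · exact ⟨mem_univ _, rfl⟩
    have h2 := Finset.sum_le_sum_of_subset (f := g) h1
    rw [gsum, Finset.sum_pair hvw] at h2
    have h4 := leaf1 (s w)
    have h5 : 1 ≤ g v := by
      simp only [hg]
      split_ifs <;> omega
    have h6 : 1 ≤ g w := by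
      simp only [hg]
      split_ifs <;> omega
    omega
  have lf3 : ∀ v, (nn H s v).card = 3 → ∃ q, s q = s v ∧ (nn H s q).card = 1 := by
    intro v h3
    have h1 := Finset.single_le_sum (f := g) (s := univ.filter fun a => s a = s v)
      (fun x _ => Nat.zero_le _) (Finset.mem_filter.2 ⟨mem_univ v, rfl⟩)
    rw [gsum] at h1
    have h5 : 1 ≤ g v := by
      simp only [hg]
      split_ifs <;> omega
    obtain ⟨q, hq⟩ := Finset.card_pos.1 (lt_of_lt_of_le Nat.zero_lt_one (h5.trans h1))
    rw [Finset.mem_filter, Finset.mem_filter] at hq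
    exact ⟨q, hq.1.2, hq.2⟩
  by_cases hleaf : ∃ q, (nn H s q).card = 1
  · obtain ⟨q₀, hq₀⟩ := hleaf
    -- at least three vertices on each side
    have k3 : ∀ b, 3 ≤ k b := by
      have h1 : 0 < ∑ x ∈ univ.filter (fun a => s a = s q₀), g x := by
        rw [gsum, Finset.card_pos]
        exact ⟨q₀, by rw [Finset.mem_filter, Finset.mem_filter]; exact ⟨⟨mem_univ _, rfl⟩, hq₀⟩⟩
      obtain ⟨u, _, hu⟩ := Finset.exists_ne_zero_of_sum_ne_zero h1.ne'
      have h2 : 3 ≤ (nn H s u).card := by
        by_contra h'
        apply hu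
        have := c0 u
        simp only [hg]
        split_ifs <;> omega
      have h3 : nn H s u ⊆ univ.filter fun v => s v = !s u := by
        intro v hv
        rw [Finset.mem_filter]
        exact ⟨mem_univ _, bne_iff.1 (co hv)⟩
      have h4 := Finset.card_le_card h3
      have h5 : k (!s u) = (univ.filter fun v => s v = !s u).card := rfl
      intro b
      rw [hkb b, ← hkb (!s u), h5]
      exact h2.trans h4
    have third : ∀ (b : Bool) (x y : V), ∃ z, s z = b ∧ z ≠ x ∧ z ≠ y := by
      intro b x y
      have h1 : ({x, y} : Finset V).card < (univ.filter fun v => s v = b).card :=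
        lt_of_le_of_lt Finset.card_le_two (k3 b)
      obtain ⟨z, hz, hz'⟩ := Finset.exists_mem_notMem_of_card_lt_card h1
      rw [Finset.mem_insert, Finset.mem_singleton, not_or] at hz'
      exact ⟨z, (Finset.mem_filter.1 hz).2, hz'.1, hz'.2⟩
    have two : ∀ v x, (nn H s v).card = 2 → x ∈ nn H s v → ∃ y, y ≠ x ∧ y ∈ nn H s v ∧
        ∀ z ∈ nn H s v, z = x ∨ z = y := by
      intro v x hv hx
      obtain ⟨a, b, hab, he⟩ := Finset.card_eq_two.1 hv
      rw [he, Finset.mem_insert, Finset.mem_singleton] at hx
      rcases hx with rfl | rfl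
      · exact ⟨b, hab.symm, by rw [he]; simp, fun z hz => by simpa [he] using hz⟩
      · exact ⟨a, hab, by rw [he]; simp, fun z hz => by
          rw [he, Finset.mem_insert, Finset.mem_singleton] at hz
          exact hz.symm⟩
    have one : ∀ v, (nn H s v).card = 1 → ∃ x, x ∈ nn H s v ∧ ∀ z ∈ nn H s v, z = x := by
      intro v hv
      obtain ⟨x, hx⟩ := Finset.card_eq_one.1 hv
      exact ⟨x, by rw [hx]; simp, fun z hz => by simpa [hx] using hz⟩
    -- a leaf `q`, its neighbour `r`, a further neighbour `b` of `r` with neighbours `r`, `x`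
    have typeT : ∀ q r b x, (∀ a ∈ nn H s q, a = r) → r ∈ nn H s q → q ≠ b → b ∈ nn H s r →
        (∀ a ∈ nn H s b, a = r ∨ a = x) → x ≠ r → x ∈ nn H s b → (nn H s x).card ≤ 2 →
        (∀ v ∈ nn H s x, v ≠ b → 2 ≤ (nn H s v).card) → False := by
      intro q r b x hq hr hqb hbr hb hxr hx hx2 hv
      have hbx : b ∈ nn H s x := nn_symm.1 hx
      have sxr : s x = s r := bb (co hx) (co (nn_symm.1 hbr))
      have sqr : s q ≠ s r := (co hr).symm
      have sbr : s b ≠ s r := co hbr
      have fin : ∀ z, s z = s r → z ≠ r → z ≠ x →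
          (∀ c ∈ nn H s x, c ∈ nn H s r ∨ c ∈ nn H s z) → False := by
        intro z sz hzr hzx hy
        refine hG (three_any hs (x := r) (y := x) (z := z) (q := q) (b := b) hxr.symm hzr.symm
          hzx.symm sxr sz hqb sqr sbr hq ?_ ?_ hy)
        · intro a ha
          rcases hb a ha with h' | h'
          · exact Or.inl h'
          · exact Or.inr (Or.inl h')
        · right
          right
          intro h'
          rcases hb z h' with h' | h'
          · exact hzr h'
          · exact hzx h'
      by_cases hx1 : (nn H s x).card = 1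
      · obtain ⟨y, _, hy⟩ := one x hx1
        obtain ⟨z, sz, hzr, hzx⟩ := third (s r) r x
        refine fin z sz hzr hzx fun c hc => Or.inl ?_
        rw [hy c hc, ← hy b hbx]
        exact hbr
      · have hx2' : (nn H s x).card = 2 := by
          have := c0 x
          omega
        obtain ⟨v, hvb, hvx, hv2⟩ := two x b hx2' hbx
        by_cases hvr : v ∈ nn H s r
        · obtain ⟨z, sz, hzr, hzx⟩ := third (s r) r x
          refine fin z sz hzr hzx fun c hc => Or.inl ?_
          rcases hv2 c hc with rfl | rfl
          · exact hbr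
          · exact hvr
        · have h2 := hv v hvx hvb
          obtain ⟨w, hw, hwx⟩ := Finset.exists_mem_ne (show 1 < (nn H s v).card by omega) x
          have hwr : w ≠ r := by
            rintro rfl
            exact hvr (nn_symm.1 hw)
          have sw : s w = s r := (bb (co hw) (co (nn_symm.1 hvx))).trans sxr
          refine fin w sw hwr hwx fun c hc => ?_
          rcases hv2 c hc with rfl | rfl
          · exact Or.inl hbr
          · exact Or.inr (nn_symm.1 hw)
    -- the leaf
    obtain ⟨r, hr, hq⟩ := one q₀ hq₀
    have lu : ∀ v, s v = s q₀ → v ≠ q₀ → 2 ≤ (nn H s v).card := fun v hv hne =>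
      c2 q₀ v hne.symm hv.symm hq₀
    have hqr : q₀ ∈ nn H s r := nn_symm.1 hr
    have hr2 : 2 ≤ (nn H s r).card := by
      by_contra h'
      obtain ⟨x, hx, hx1⟩ := one r (by have := c0 r; omega)
      refine no2 q₀ r hq fun a ha => ?_
      rw [hx1 a ha, ← hx1 q₀ hqr]
    have hxq : ∀ x v, x ≠ r → v ∈ nn H s x → v ≠ q₀ := by
      rintro x v hxr hv rfl
      exact hxr (hq x (nn_symm.1 hv))
    have scol : ∀ x y v, y ∈ nn H s x → v ∈ nn H s y → s v = s x := fun x y v hy hv =>
      bb (co hv) (co (nn_symm.1 hy))
    rcases (show (nn H s r).card = 2 ∨ (nn H s r).card = 3 by have := F3 r; omega) with hr2' | hr3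
    · -- `r` has two neighbours
      obtain ⟨b, hbq, hbr, hr'⟩ := two r q₀ hr2' hqr
      have sbq : s b = s q₀ := bb (co hbr) (co hqr)
      have hb2 := lu b sbq hbq
      have hrb : r ∈ nn H s b := nn_symm.1 hbr
      rcases (show (nn H s b).card = 2 ∨ (nn H s b).card = 3 by have := F3 b; omega) with
        hb2' | hb3
      · obtain ⟨x, hxr, hxb, hb'⟩ := two b r hb2' hrb
        by_cases hx2 : (nn H s x).card ≤ 2
        · refine typeT q₀ r b x hq hr hbq.symm hbr hb' hxr hxb hx2 fun v hv hvb => ?_
          exact lu v ((scol b x v hxb hv).trans sbq) (hxq x v hxr hv)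
        · have hx3 : (nn H s x).card = 3 := by
            have := F3 x
            omega
          obtain ⟨q', sq', hq'1⟩ := lf3 x hx3
          obtain ⟨r', hr'q, hq'⟩ := one q' hq'1
          have sxr : s x = s r := bb (co hxb) (co hrb)
          have hq'r' : q' ∈ nn H s r' := nn_symm.1 hr'q
          have q'r : q' ≠ r := by
            rintro rfl
            omega
          have q'x : q' ≠ x := by
            rintro rfl
            omega
          have r'q : r' ≠ q₀ := by
            rintro rfl
            exact q'r (hq q' hq'r')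
          have r'b : r' ≠ b := by
            rintro rfl
            rcases hb' q' hq'r' with h' | h'
            · exact q'r h'
            · exact q'x h'
          have hrr' : r ∉ nn H s r' := by
            intro h'
            rcases hr' r' (nn_symm.1 h') with h' | h'
            · exact r'q h'
            · exact r'b h'
          have hr'2 : 2 ≤ (nn H s r').card := by
            by_contra h'
            obtain ⟨y, hy, hy1⟩ := one r' (by have := c0 r'; omega)
            refine no2 q' r' hq' fun a ha => ?_
            rw [hy1 a ha, ← hy1 q' hq'r']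
          have sr' : s r' ≠ s r := by
            rw [← sxr, ← sq']
            exact co hr'q
          rcases (show (nn H s r').card = 2 ∨ (nn H s r').card = 3 by
            have := F3 r'; omega) with hr'2' | hr'3
          · obtain ⟨b', hb'q, hb'r, hr''⟩ := two r' q' hr'2' hq'r'
            refine hG (three_any hs (x := r) (y := q') (z := b') (q := q₀) (b := r') q'r.symm ?_
              hb'q.symm (sq'.trans sxr) ?_ r'q.symm (co hr).symm sr' hq ?_ (Or.inl hrr') ?_)
            · rintro rfl
              exact hrr' hb'r
            · rw [← sxr, ← sq']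
              exact bb (co hb'r) (co hq'r')
            · exact fun a ha => Or.inr (hr'' a ha)
            · intro c hc
              rw [hq' c hc]
              exact Or.inr (nn_symm.1 hb'r)
          · have h1 : ({q', x} : Finset V).card < (nn H s r').card :=
              lt_of_le_of_lt Finset.card_le_two (by omega)
            obtain ⟨y, hy, hy'⟩ := Finset.exists_mem_notMem_of_card_lt_card h1
            rw [Finset.mem_insert, Finset.mem_singleton, not_or] at hy'
            have sy : s y = s q' := bb (co hy) (co hq'r')
            have hy2 := c2 q' y (Ne.symm hy'.1) sy.symm hq'1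
            have hy2' := F2 x y (Ne.symm hy'.2) (sq'.symm.trans sy.symm) hx3
            obtain ⟨v, hvr, hvy, hyy⟩ := two y r' (by omega) (nn_symm.1 hy)
            have svr : s v = s r' := bb (co hvy) (co (nn_symm.1 hy))
            have hv2 := F2 r' v hvr.symm svr.symm hr'3
            refine typeT q' r' y v hq' hr'q (Ne.symm hy'.1) hy hyy hvr hvy hv2 fun t ht hty => ?_
            refine c2 q' t ?_ ?_ hq'1
            · rintro rfl
              exact hvr (hq' v (nn_symm.1 ht))
            · exact sy.symm.trans (bb (co (nn_symm.1 hvy)) (co ht))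
      · by_cases hx : ∃ x ∈ nn H s b, x ≠ r ∧ (nn H s x).card = 2
        · obtain ⟨x, hxb, hxr, hx2⟩ := hx
          obtain ⟨b', hb'b, hb'x, hxx⟩ := two x b hx2 (nn_symm.1 hxb)
          have sb' : s b' = s b := bb (co hb'x) (co (nn_symm.1 hxb))
          have hb'q := hxq x b' hxr hb'x
          have h2 := lu b' (sb'.trans sbq) hb'q
          have h3 := F2 b b' hb'b.symm sb'.symm hb3
          obtain ⟨y, hyx, hyb', hb''⟩ := two b' x (by omega) (nn_symm.1 hb'x)
          have hrb' : r ∉ nn H s b' := by
            intro h'
            rcases hr' b' (nn_symm.1 h') with h' | h'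
            · exact hb'q h'
            · exact hb'b h'
          have sxr : s x = s r := bb (co hxb) (co hrb)
          refine hG (three_any hs (x := r) (y := x) (z := y) (q := q₀) (b := b') hxr.symm ?_
            hyx.symm sxr ?_ hb'q.symm (co hr).symm ?_ hq ?_ (Or.inl hrb') ?_)
          · rintro rfl
            exact hrb' hyb'
          · exact (bb (co hyb') (co (nn_symm.1 hb'x))).trans sxr
          · rw [sb', ← sxr]
            exact (co hxb).symm
          · exact fun a ha => Or.inr (hb'' a ha)
          · intro c hc
            rcases hxx c hc with rfl | rfl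
            · exact Or.inl hbr
            · exact Or.inr (nn_symm.1 hyb')
        · have hx' : ∀ x ∈ nn H s b, x ≠ r → (nn H s x).card ≠ 2 := fun x h1 h2 h3 =>
            hx ⟨x, h1, h2, h3⟩
          have h1 : ((nn H s b).erase r).card = 2 := by
            rw [Finset.card_erase_of_mem hrb]
            omega
          obtain ⟨x₁, x₂, h12, he⟩ := Finset.card_eq_two.1 h1
          have m1 : x₁ ∈ (nn H s b).erase r := by rw [he]; simp
          have m2 : x₂ ∈ (nn H s b).erase r := by rw [he]; simp
          rw [Finset.mem_erase] at m1 m2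
          have h3 := F2 x₁ x₂ h12 (bb (co m1.2) (co m2.2))
          have h4 := hx' x₁ m1.2 m1.1
          have h5 := hx' x₂ m2.2 m2.1
          obtain ⟨q', hq'b, hq'r, hq'1⟩ : ∃ q' ∈ nn H s b, q' ≠ r ∧ (nn H s q').card = 1 := by
            have a1 := c0 x₁
            have a2 := c0 x₂
            have a3 := F3 x₁
            have a4 := F3 x₂
            by_cases h6 : (nn H s x₁).card = 3
            · exact ⟨x₂, m2.2, m2.1, by have := h3 h6; omega⟩
            · exact ⟨x₁, m1.2, m1.1, by omega⟩
          obtain ⟨z', hz', hz1⟩ := one q' hq'1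
          have hq'' : ∀ a ∈ nn H s q', a = b := fun a ha => by
            rw [hz1 a ha, ← hz1 b (nn_symm.1 hq'b)]
          obtain ⟨z, sz, hzb, hzq⟩ := third (s b) b q₀
          refine hG (three_any hs (x := b) (y := q₀) (z := z) (q := q') (b := r) hbq hzb.symm
            hzq.symm sbq.symm sz hq'r (co hq'b) (co hrb) hq'' ?_ ?_ ?_)
          · intro a ha
            rcases hr' a ha with h' | h'
            · exact Or.inr (Or.inl h')
            · exact Or.inl h'
          · right
            right
            intro h'
            rcases hr' z h' with h' | h'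
            · exact hzq h'
            · exact hzb h'
          · intro c hc
            rw [hq c hc]
            exact Or.inl hrb
    · -- `r` has three neighbours
      have h1 : ((nn H s r).erase q₀).card = 2 := by
        rw [Finset.card_erase_of_mem hqr]
        omega
      obtain ⟨x₁, x₂, h12, he⟩ := Finset.card_eq_two.1 h1
      have m1 : x₁ ∈ (nn H s r).erase q₀ := by rw [he]; simp
      have m2 : x₂ ∈ (nn H s r).erase q₀ := by rw [he]; simp
      rw [Finset.mem_erase] at m1 m2
      have h3 := F2 x₁ x₂ h12 (bb (co m1.2) (co m2.2))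
      obtain ⟨b, hbr, hbq, hb2⟩ : ∃ b ∈ nn H s r, b ≠ q₀ ∧ (nn H s b).card = 2 := by
        have a1 := lu x₁ (bb (co m1.2) (co hqr)) m1.1
        have a2 := lu x₂ (bb (co m2.2) (co hqr)) m2.1
        have a3 := F3 x₁
        have a4 := F3 x₂
        by_cases h6 : (nn H s x₁).card = 3
        · exact ⟨x₂, m2.2, m2.1, by have := h3 h6; omega⟩
        · exact ⟨x₁, m1.2, m1.1, by omega⟩
      obtain ⟨x, hxr, hxb, hb'⟩ := two b r hb2 (nn_symm.1 hbr)
      have sxr : s x = s r := bb (co hxb) (co (nn_symm.1 hbr))
      refine typeT q₀ r b x hq hr hbq.symm hbr hb' hxr hxb (F2 r x hxr.symm sxr.symm hr3)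
        fun v hv hvb => ?_
      exact lu v ((scol b x v hxb hv).trans (bb (co hbr) (co hqr))) (hxq x v hxr hv)
  · -- all vertices have two non-neighbours
    have all2 : ∀ v, (nn H s v).card = 2 := by
      intro v
      have h1 := c0 v
      have h2 := F3 v
      have h3 : (nn H s v).card ≠ 1 := fun h' => hleaf ⟨v, h'⟩
      have h4 : (nn H s v).card ≠ 3 := fun h' => by
        obtain ⟨q, _, hq⟩ := lf3 v h'
        exact hleaf ⟨q, hq⟩
      omega
    refine hC ⟨?_, ?_, ?_⟩
    · intro v
      rw [← all2 v]
      exact Nat.subtype_card _ fun u => mem_nn'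
    · intro c
      by_contra h'
      push Not at h'
      exact hG (reg_comp hs c (fun w _ => all2 w) h'.2 fun h4 => absurd h4 h'.1)
    · intro c c' h4 h4'
      by_contra hne
      exact hG (reg_comp hs c (fun w _ => all2 w) (by omega) fun _ =>
        ⟨c', Ne.symm hne, chain_four c' (fun w _ => all2 w) h4'⟩)

end Vale.Agent.P050.Deg
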