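import Vale.Agent.P050.Deg.Pair

/-!
Disjoint unions with `K_{2,m}`.
-/

set_option linter.unusedSectionVars false

namespace Vale.Agent.P050.Deg

open Finset Vale.Agent.P050 Vale.Agent.P050.Lev Vale.Agent.P050.Cart Vale.Agent.P050.Join
  Vale.Agent.P050.Tmpl SimpleGraph

variable {V : Type} [Fintype V] [DecidableEq V] {H : SimpleGraph V} {s : V → Bool}

/-- homomorphisms from a disjoint union -/
def sumHomEquiv {V W U : Type*} (G : SimpleGraph V) (F : SimpleGraph W) (X : SimpleGraph U) :
    (G ⊕g F →g X) ≃ (G →g X) × (F →g X) where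
  toFun f := (⟨fun v => f (Sum.inl v), fun {a b} h => f.map_rel (by simpa using h)⟩,
    ⟨fun v => f (Sum.inr v), fun {a b} h => f.map_rel (by simpa using h)⟩)
  invFun p := ⟨Sum.elim p.1 p.2, by
    rintro (a | a) (b | b) h
    · exact p.1.map_rel (by simpa using h)
    · simp at h
    · simp at h
    · exact p.2.map_rel (by simpa using h)⟩
  left_inv f := by
    ext (a | a) <;> rfl
  right_inv p := rfl

theorem homDensity_sum {V W U : Type*} [Finite V] [Finite W] (G : SimpleGraph V)
    (F : SimpleGraph W) (X : SimpleGraph U) :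
    homDensity (G ⊕g F) X = homDensity G X * homDensity F X := by
  unfold homDensity
  rw [Nat.card_congr (sumHomEquiv G F X), Nat.card_prod, Nat.card_sum, pow_add]
  push_cast
  rw [mul_div_mul_comm]

theorem card_edgeSet_sum {V W : Type*} [Finite V] [Finite W] (G : SimpleGraph V)
    (F : SimpleGraph W) :
    Nat.card (G ⊕g F).edgeSet = Nat.card G.edgeSet + Nat.card F.edgeSet := by
  rw [Nat.card_congr edgeSetSumEquiv, Nat.card_sum]

theorem card_edgeSet_K2 (m : ℕ) :
    Nat.card (completeBipartiteGraph (Fin 2) (Fin m)).edgeSet = 2 * m := by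
  have h := encard_edgeSet_completeBipartiteGraph (W₁ := Fin 2) (W₂ := Fin m)
  have h2 : (completeBipartiteGraph (Fin 2) (Fin m)).edgeSet.ncard = 2 * m := by
    rw [Set.ncard_def, h]
    simp
  rwa [← Nat.card_coe_set_eq] at h2

/-- **For every bipartite graph `H`, the disjoint union of `H` and `K_{2,m}` is Sidorenko**,
`m` the number of vertices in one of the parts. -/
theorem union_gsid (hs : ∀ u v, H.Adj u v → s u ≠ s v) (c : Bool) (m : ℕ)
    (hm : Nat.card {v : V // s v = c} ≤ m) :
    GSid (H ⊕g completeBipartiteGraph (Fin 2) (Fin m))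
      (Sum.elim s (Sum.elim (fun _ => !c) (fun _ => c))) := by
  classical
  have hcc : ∀ x : Bool, (x ≠ !c) ↔ x = c := by
    intro x
    cases x <;> cases c <;> decide
  refine pair_gsid (b₁ := Sum.inr (Sum.inl 0)) (b₂ := Sum.inr (Sum.inl 1)) ?_ ?_ rfl ?_
    ((univ.filter fun v => s v = c).image Sum.inl) ?_ ?_ ?_
  · rintro (u | u | u) (v | v | v) h
    · exact hs u v (by simpa using h)
    · simp at h
    · simp at h
    · simp at h
    · simp at h
    · simp
    · simp at h
    · simp
    · simp at h
  · simp
  · rintro (u | u | u) h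
    · simp at h
    · simp at h
    · simp
  · intro u hu
    rw [Finset.mem_image] at hu
    obtain ⟨v, hv, rfl⟩ := hu
    rw [Finset.mem_filter] at hv
    simp [hv.2]
  · rintro (b | b | b) u hb h1 h2 h
    · rcases u with u | u | u
      · have hbu : H.Adj b u := by simpa using h
        have hne := hs b u hbu
        have hb' : s b = !c := by simpa using hb
        rw [hb'] at hne
        have := (hcc _).1 hne.symm
        rw [Finset.mem_image]
        exact ⟨u, by rw [Finset.mem_filter]; exact ⟨mem_univ _, this⟩, rfl⟩
      · simp at h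
      · simp at h
    · exfalso
      fin_cases b
      · exact h1 rfl
      · exact h2 rfl
    · exfalso
      simp at hb
  · rw [Finset.card_image_of_injective _ Sum.inl_injective]
    rw [Nat.subtype_card (univ.filter fun v => s v = c) (fun v => by simp)] at hm
    refine hm.trans ?_
    rw [Nat.subtype_card ((univ : Finset (Fin m)).image fun i => (Sum.inr (Sum.inr i) :
      V ⊕ Fin 2 ⊕ Fin m)) (fun v => by
        rcases v with v | v | v <;> simp)]
    rw [Finset.card_image_of_injective _ (fun a b h => Sum.inr_injective (Sum.inr_injective h))]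
    simp

/-- **A lower bound for all bipartite graphs.** -/
theorem union_ineq (hs : ∀ u v, H.Adj u v → s u ≠ s v) (c : Bool) (m : ℕ)
    (hm : Nat.card {v : V // s v = c} ≤ m) (U : Type) [Finite U] [Nonempty U]
    (X : SimpleGraph U) :
    edgeDensity X ^ (Nat.card H.edgeSet + 2 * m) ≤
      homDensity H X * homDensity (completeBipartiteGraph (Fin 2) (Fin m)) X := by
  have h := sidorenko_of_gsid (union_gsid hs c m hm) X
  rwa [card_edgeSet_sum, card_edgeSet_K2, homDensity_sum] at h

end Vale.Agent.P050.Deg
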